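import Vale.Agent.P073.AB.FinalA

/-!
# Block AB: the last step (AB1)
-/

namespace Vale.Agent.P073.AB

open MeasureTheory Set Filter Topology Metric Vale.Agent.P073.St
open Vale.Agent.P073.SQ (ev cube Cells dE)
open scoped ContDiff ENNReal

variable {p : ℝ} {Ω Λ R : Set V}

theorem isCompact_cube (c : V) (ρ : ℝ) : IsCompact (cube c ρ) := by
  have : cube c ρ = Icc (fun l => c l - ρ) (fun l => c l + ρ) := by
    ext x
    simp only [cube, mem_ofPred_eq, mem_Icc, Pi.le_def, abs_le]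
    constructor
    · intro h
      exact ⟨fun l => by linarith [(h l).1], fun l => by linarith [(h l).2]⟩
    · rintro ⟨h1, h2⟩ l
      exact ⟨by linarith [h1 l], by linarith [h2 l]⟩
  rw [this]
  exact isCompact_Icc

theorem net_sub_cube (W : Cells Ω R) (i : W.ι) {y : V} (hy : y ∈ W.net i) :
    y ∈ cube (W.c i) (W.ρ i) := by
  obtain ⟨q, hq, h1, h2, -⟩ := hy
  obtain ⟨h3, h4⟩ := W.bd_sub i q hq
  intro l
  by_cases hl : l = W.k q
  · rw [hl, h1, h3]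
  · have h5 := abs_sub_le (y l) (W.a q l) (W.c i l)
    linarith [h2 l, h4 l hl]

theorem exists_modulus (W : Cells Ω R) {G : V → V} (hG : ContinuousOn G Ω) {ε : ℝ} (hε : 0 < ε)
    (i : W.ι) : ∃ d : ℝ, 0 < d ∧ ∀ x ∈ cube (W.c i) (W.ρ i), ∀ y ∈ cube (W.c i) (W.ρ i),
      ‖x - y‖ < d → ‖G x - G y‖ ≤ ε := by
  have h1 := (isCompact_cube (W.c i) (W.ρ i)).uniformContinuousOn_of_continuous
    (hG.mono (W.sub i))
  obtain ⟨d, hd, h2⟩ := Metric.uniformContinuousOn_iff.1 h1 ε hε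
  refine ⟨d, hd, fun x hx y hy hxy => ?_⟩
  have := h2 x hx y hy (by rwa [dist_eq_norm])
  rw [dist_eq_norm] at this
  exact this.le

/-- on the protected set the derivative is unchanged -/
theorem fderiv_eq_on (hΩ : IsOpen Ω) (hR : MeasurableSet R) (hRΩ : R ⊆ Ω) {g G : V → V}
    (hg : ContDiffOn ℝ ∞ g Ω) (hG : ContDiffOn ℝ ∞ G Ω) (h : ∀ x ∈ R, g x = G x) :
    ∀ᵐ x ∂(volume.restrict R), fderiv ℝ g x = fderiv ℝ G x := by
  have h1 : ApproximatesLinearOn (fun x => g x - G x) (0 : V →L[ℝ] V) R 0 := by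
    intro x hx y hy
    simp [h x hx, h y hy]
  have h2 := h1.norm_fderiv_sub_le volume hR (fun x => fderiv ℝ g x - fderiv ℝ G x) fun x hx =>
    ((diffeo_diff hΩ hg (hRΩ hx)).sub (diffeo_diff hΩ hG (hRΩ hx))).hasFDerivWithinAt
  filter_upwards [h2] with x hx
  have h3 : ‖fderiv ℝ g x - fderiv ℝ G x - 0‖₊ = 0 := le_antisymm hx zero_le
  rw [nnnorm_eq_zero, sub_zero, sub_eq_zero] at h3
  exact h3

/-- energy of `g` off the protected set -/
theorem energy_off (W : Cells Ω R) (g : V → V) :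
    ∑ j, ∫⁻ x in Ω \ R, ENNReal.ofReal (‖fderiv ℝ g x (ev j)‖ ^ p) ≤
      ∑' i, ∑ j, ∫⁻ x in cube (W.c i) (W.ρ i), dE p g j x := by
  have := W.cnt
  have h1 : Ω \ R ⊆ ⋃ i, cube (W.c i) (W.ρ i) := by
    intro x hx
    rcases W.cover hx.1 with h | h
    · exact absurd h hx.2
    · exact h
  rw [Summable.tsum_finsetSum fun _ _ => ENNReal.summable]
  refine Finset.sum_le_sum fun j _ => ?_
  refine (lintegral_mono_set h1).trans ?_
  exact lintegral_iUnion_le _ _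

theorem deriv_part (hp : 1 ≤ p) (hp2 : p < 2) (hΩ : IsOpen Ω) (W : Cells Ω R)
    (hR : MeasurableSet R) (hRΩ : R ⊆ Ω) {F : V → Mat} {g G : V → V}
    (hg : ContDiffOn ℝ ∞ g Ω) (hG : ContDiffOn ℝ ∞ G Ω) (h : ∀ x ∈ R, g x = G x)
    {e C : ℝ≥0∞} {ε' : W.ι → ℝ≥0∞} (hε' : ∑' i, ε' i ≤ e)
    (h1 : ∑ j, ∫⁻ x in R, ENNReal.ofReal (‖fderiv ℝ G x (ev j) - cl (F x) (ev j)‖ ^ p) ≤ e)
    (h2 : ∑' i, W.en p G i ≤ e)
    (h3 : ∑ j, ∫⁻ x in Ω \ R, ENNReal.ofReal (‖cl (F x) (ev j)‖ ^ p) ≤ e)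
    (h4 : ∀ i, ∑ j, ∫⁻ x in cube (W.c i) (W.ρ i), dE p g j x ≤ C * W.en p G i + ε' i) :
    ∑ j, ∫⁻ x in Ω, ENNReal.ofReal (‖fderiv ℝ g x (ev j) - cl (F x) (ev j)‖ ^ p) ≤
      e + 2 * (C * e + e + e) := by
  have hsplit : ∀ φ : V → ℝ≥0∞, ∫⁻ x in Ω, φ x = (∫⁻ x in R, φ x) + ∫⁻ x in Ω \ R, φ x := by
    intro φ
    rw [← lintegral_inter_add_sdiff φ Ω hR, inter_eq_right.2 hRΩ]
  simp_rw [hsplit]
  rw [Finset.sum_add_distrib]
  refine add_le_add ?_ ?_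
  · refine le_trans (le_of_eq ?_) h1
    refine Finset.sum_congr rfl fun j _ => ?_
    refine lintegral_congr_ae ?_
    filter_upwards [fderiv_eq_on hΩ hR hRΩ hg hG h] with x hx
    rw [hx]
  · have h5 : ∑ j, ∫⁻ x in Ω \ R, ENNReal.ofReal (‖fderiv ℝ g x (ev j)‖ ^ p) ≤ C * e + e := by
      refine (energy_off W g).trans ?_
      calc ∑' i, ∑ j, ∫⁻ x in cube (W.c i) (W.ρ i), dE p g j x
          ≤ ∑' i, (C * W.en p G i + ε' i) := ENNReal.tsum_le_tsum h4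
        _ = C * ∑' i, W.en p G i + ∑' i, ε' i := by rw [ENNReal.tsum_add, ENNReal.tsum_mul_left]
        _ ≤ C * e + e := by gcongr
    calc ∑ j, ∫⁻ x in Ω \ R, ENNReal.ofReal (‖fderiv ℝ g x (ev j) - cl (F x) (ev j)‖ ^ p)
        ≤ ∑ j, 2 * ((∫⁻ x in Ω \ R, ENNReal.ofReal (‖fderiv ℝ g x (ev j)‖ ^ p)) +
          ∫⁻ x in Ω \ R, ENNReal.ofReal (‖cl (F x) (ev j)‖ ^ p)) := by
          refine Finset.sum_le_sum fun j _ => ?_
          have hm : Measurable fun x => ENNReal.ofReal (‖fderiv ℝ g x (ev j)‖ ^ p) :=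
            ((measurable_fderiv_apply_const ℝ g (ev j)).norm.pow_const p).ennreal_ofReal
          rw [← lintegral_add_left hm, ← lintegral_const_mul' _ _ (by norm_num)]
          refine lintegral_mono fun x => ?_
          have := add_rpow_le hp hp2 (fderiv ℝ g x (ev j)) (-cl (F x) (ev j))
          rwa [← sub_eq_add_neg, norm_neg] at this
      _ = 2 * (∑ j, (∫⁻ x in Ω \ R, ENNReal.ofReal (‖fderiv ℝ g x (ev j)‖ ^ p)) +
          ∑ j, ∫⁻ x in Ω \ R, ENNReal.ofReal (‖cl (F x) (ev j)‖ ^ p)) := by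
          rw [← Finset.mul_sum, Finset.sum_add_distrib]
      _ ≤ 2 * (C * e + e + e) := by gcongr

theorem zero_part (hp : 1 ≤ p) (hΩ : IsOpen Ω) (W : Cells Ω R) {f g G s : V → V} {D ε : ℝ}
    (hε : 0 < ε) (hgf : ∀ x, g x = G (s x))
    (hf : ContinuousOn f Ω) (hg : ContinuousOn g Ω) (hD : ∀ x ∈ Ω, ‖g x - f x‖ ≤ D)
    {e : ℝ≥0∞} {ε' : W.ι → ℝ≥0∞} (hε' : ∑' i, ε' i ≤ e) {d : W.ι → ℝ}
    (hd : ∀ i, ∀ x ∈ cube (W.c i) (W.ρ i), ∀ y ∈ cube (W.c i) (W.ρ i),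
      ‖x - y‖ < d i → ‖G x - G y‖ ≤ ε)
    (hsR : ∀ x ∈ R, s x = x)
    (hsi : ∀ i, ∀ x ∈ cube (W.c i) (W.ρ i), s x ∈ cube (W.c i) (W.ρ i))
    {K : Set V} (hKv : volume (Ω \ K) ≤ e)
    (hKR : ∀ x ∈ K ∩ R, ‖G x - f x‖ ≤ ε)
    (hKi : ∀ i, ∀ x ∈ K ∩ cube (W.c i) (W.ρ i), ∀ y ∈ W.net i, ‖G y - f x‖ ≤ ε)
    (hbad : ∀ i, volume {x ∈ cube (W.c i) (W.ρ i) | ∀ y ∈ W.net i, d i ≤ ‖s x - y‖} ≤ ε' i) :
    ∫⁻ x in Ω, ENNReal.ofReal (‖g x - f x‖ ^ p) ≤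
      ENNReal.ofReal (D ^ p) * (e + e) + ENNReal.ofReal ((2 * ε) ^ p) * volume Ω := by
  have := W.cnt
  have hp0 : 0 ≤ p := by linarith
  set B : Set V := {x ∈ Ω | 2 * ε < ‖g x - f x‖} with hB
  have hBo : IsOpen B := by
    have : B = Ω ∩ (fun x => ‖g x - f x‖) ⁻¹' Ioi (2 * ε) := by
      ext x; simp [hB]
    rw [this]
    exact (hg.sub hf).norm.isOpen_inter_preimage hΩ isOpen_Ioi
  have hBΩ : B ⊆ Ω := fun x hx => hx.1
  have hBv : volume B ≤ e + e := by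
    have h1 : B ⊆ (Ω \ K) ∪ ⋃ i, {x ∈ cube (W.c i) (W.ρ i) | ∀ y ∈ W.net i, d i ≤ ‖s x - y‖} := by
      rintro x ⟨hx, hx2⟩
      by_cases hxK : x ∈ K
      · refine Or.inr ?_
        rcases W.cover hx with h | h
        · exfalso
          have h2 := hKR x ⟨hxK, h⟩
          rw [hgf, hsR x h] at hx2
          linarith
        · obtain ⟨i, hi⟩ := mem_iUnion.1 h
          refine mem_iUnion.2 ⟨i, hi, fun y hy => ?_⟩
          by_contra hlt
          rw [not_le] at hlt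
          have h2 := hd i (s x) (hsi i x hi) y (net_sub_cube W i hy) hlt
          have h3 := hKi i x ⟨hxK, hi⟩ y hy
          have h4 := norm_sub_le_norm_sub_add_norm_sub (G (s x)) (G y) (f x)
          rw [hgf] at hx2
          linarith
      · exact Or.inl ⟨hx, hxK⟩
    refine (measure_mono h1).trans ((measure_union_le _ _).trans (add_le_add hKv ?_))
    refine (measure_iUnion_le _).trans (le_trans (ENNReal.tsum_le_tsum hbad) hε')
  rw [← lintegral_inter_add_sdiff _ Ω hBo.measurableSet, inter_eq_right.2 hBΩ]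
  refine add_le_add ?_ ?_
  · calc ∫⁻ x in B, ENNReal.ofReal (‖g x - f x‖ ^ p) ≤ ∫⁻ _ in B, ENNReal.ofReal (D ^ p) := by
          refine setLIntegral_mono' hBo.measurableSet fun x hx => ?_
          exact ENNReal.ofReal_le_ofReal (Real.rpow_le_rpow (norm_nonneg _) (hD x hx.1) hp0)
      _ = ENNReal.ofReal (D ^ p) * volume B := by rw [setLIntegral_const]
      _ ≤ _ := by gcongr
  · calc ∫⁻ x in Ω \ B, ENNReal.ofReal (‖g x - f x‖ ^ p)
        ≤ ∫⁻ _ in Ω \ B, ENNReal.ofReal ((2 * ε) ^ p) := by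
          refine setLIntegral_mono' (hΩ.measurableSet.diff hBo.measurableSet) fun x hx => ?_
          apply ENNReal.ofReal_le_ofReal
          apply Real.rpow_le_rpow (norm_nonneg _) _ hp0
          by_contra hlt
          exact hx.2 ⟨hx.1, not_le.1 hlt⟩
      _ = ENNReal.ofReal ((2 * ε) ^ p) * volume (Ω \ B) := by rw [setLIntegral_const]
      _ ≤ _ := by gcongr; exact sdiff_subset

/-- the last step, with the error written out -/
theorem exists_err (hSQ : SQ.SpecSQ) {f : V → V} {F : V → Mat} (hp : 1 ≤ p) (hp2 : p < 2)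
    (hΩ : IsBoundedDomain Ω) (hΛ : IsBoundedDomain Λ) (hf : IsHomeo Ω Λ f)
    (H : ∀ ε > 0, GoodApprox p ε Ω Λ f F) :
    ∃ b : ℝ → ℝ≥0∞, (∀ ε, b ε ≠ ⊤) ∧
      Tendsto (fun k : ℕ => b (1 / ((k : ℝ) + 1))) atTop (𝓝 0) ∧
      ∀ ε > 0, ∃ g : V → V, IsDiffeo Ω Λ g ∧ err p Ω f F g ≤ b ε := by
  have hp0 : 0 < p := by linarith
  obtain ⟨C, hC, hmain⟩ := hSQ p hp hp2
  obtain ⟨f', hff', hfc, hfc'⟩ := hf
  obtain ⟨D, hD0, hD⟩ := norm_bound_of_domain hΛ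
  have hΩv := PK.volume_ne_top_of_domain hΩ
  let b : ℝ → ℝ≥0∞ := fun ε =>
    (ENNReal.ofReal ((2 * D) ^ p) * (ENNReal.ofReal ε + ENNReal.ofReal ε) +
      ENNReal.ofReal ((2 * ε) ^ p) * volume Ω) +
    (ENNReal.ofReal ε + 2 * (C * ENNReal.ofReal ε + ENNReal.ofReal ε + ENNReal.ofReal ε))
  have hbt : ∀ ε, b ε ≠ ⊤ := by
    intro ε
    have h1 : ENNReal.ofReal ε ≠ ⊤ := ENNReal.ofReal_ne_top
    refine ENNReal.add_ne_top.2 ⟨ENNReal.add_ne_top.2 ⟨?_, ?_⟩, ENNReal.add_ne_top.2 ⟨h1, ?_⟩⟩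
    · exact ENNReal.mul_ne_top ENNReal.ofReal_ne_top (ENNReal.add_ne_top.2 ⟨h1, h1⟩)
    · exact ENNReal.mul_ne_top ENNReal.ofReal_ne_top hΩv
    · exact ENNReal.mul_ne_top (by norm_num)
        (ENNReal.add_ne_top.2 ⟨ENNReal.add_ne_top.2 ⟨ENNReal.mul_ne_top hC h1, h1⟩, h1⟩)
  have hstep : ∀ ε > 0, ∃ g : V → V, IsDiffeo Ω Λ g ∧ err p Ω f F g ≤ b ε := by
    intro ε hε
    obtain ⟨R, W, G, hRm, hRΩ, hG, h1, h2, h3, K, hKΩ, hKm, hKv, hKR, hKi⟩ := H ε hε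
    have := W.cnt
    have hGs := diffeo_smooth hG
    obtain ⟨ε', hε'0, hε'⟩ := ENNReal.exists_pos_sum_of_countable'
      (ε := ENNReal.ofReal ε) (by simpa using hε) W.ι
    choose d hd0 hd using exists_modulus W hGs.continuousOn hε
    obtain ⟨s, hs, hsR, hsi, hsE⟩ := hmain Ω Λ R W G ε' d hΩ.1 hΛ.1 hG
      (fun i => (hε'0 i).ne') hd0
    have hg := isDiffeo_comp hs hG
    have hgs := diffeo_smooth hg
    refine ⟨G ∘ s, hg, add_le_add ?_ ?_⟩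
    · refine zero_part hp hΩ.1 W (G := G) (s := s) (f := f) (g := G ∘ s) hε (fun x => rfl)
        hfc hgs.continuousOn (fun x hx => ?_) hε'.le hd hsR hsi hKv hKR hKi
        fun i => (hsE i).2
      have e1 := hD _ (diffeo_maps hg hx)
      have e2 := hD _ (hff'.1 x hx).1
      refine (norm_sub_le _ _).trans ?_
      linarith
    · exact deriv_part hp hp2 hΩ.1 W hRm hRΩ hgs hGs
        (fun x hx => by simp only [Function.comp, hsR x hx]) hε'.le h1 h2 h3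
        fun i => (hsE i).1
  have hlim0 : Tendsto (fun k : ℕ => 1 / ((k : ℝ) + 1)) atTop (𝓝 0) :=
    tendsto_one_div_add_atTop_nhds_zero_nat
  have hlim : Tendsto (fun k : ℕ => b (1 / ((k : ℝ) + 1))) atTop (𝓝 0) := by
    have e1 : Tendsto (fun k : ℕ => ENNReal.ofReal (1 / ((k : ℝ) + 1))) atTop (𝓝 0) := by
      have := ENNReal.tendsto_ofReal hlim0
      simpa using this
    have e2 : Tendsto (fun k : ℕ => ENNReal.ofReal ((2 * (1 / ((k : ℝ) + 1))) ^ p)) atTop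
        (𝓝 0) := by
      have h1 : Tendsto (fun k : ℕ => (2 * (1 / ((k : ℝ) + 1))) ^ p) atTop
          (𝓝 ((2 * 0) ^ p)) := (hlim0.const_mul 2).rpow_const (Or.inr hp0.le)
      rw [mul_zero, Real.zero_rpow hp0.ne'] at h1
      have := ENNReal.tendsto_ofReal h1
      simpa using this
    have e3 : Tendsto (fun k : ℕ => ENNReal.ofReal ((2 * D) ^ p) *
        (ENNReal.ofReal (1 / ((k : ℝ) + 1)) + ENNReal.ofReal (1 / ((k : ℝ) + 1)))) atTop
        (𝓝 (ENNReal.ofReal ((2 * D) ^ p) * (0 + 0))) :=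
      ENNReal.Tendsto.const_mul (e1.add e1) (Or.inr ENNReal.ofReal_ne_top)
    have e4 : Tendsto (fun k : ℕ => ENNReal.ofReal ((2 * (1 / ((k : ℝ) + 1))) ^ p) * volume Ω)
        atTop (𝓝 (0 * volume Ω)) := ENNReal.Tendsto.mul_const e2 (Or.inr hΩv)
    have e5 : Tendsto (fun k : ℕ => C * ENNReal.ofReal (1 / ((k : ℝ) + 1))) atTop
        (𝓝 (C * 0)) := ENNReal.Tendsto.const_mul e1 (Or.inr hC)
    have e6 := (e3.add e4).add (e1.add (ENNReal.Tendsto.const_mul (a := 2)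
      ((e5.add e1).add e1) (Or.inr (by norm_num))))
    simpa using e6
  exact ⟨b, hbt, hlim, hstep⟩

/-- **AB1** -/
theorem specFinal (hSQ : SQ.SpecSQ) : SpecFinal := by
  intro p Ω Λ f F hp hp2 hΩ hΛ hf hF H
  obtain ⟨b, hbt, hlim, hstep⟩ := exists_err hSQ hp hp2 hΩ hΛ hf H
  obtain ⟨f', hff', hfc, hfc'⟩ := hf
  exact approximable_of hp hp2 hΩ hΛ hfc hF hlim (fun k => hbt _)
    fun k => hstep _ (by positivity)

/-- the last step: small error -/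
theorem exists_small_err (hSQ : SQ.SpecSQ) {f : V → V} {F : V → Mat} (hp : 1 ≤ p) (hp2 : p < 2)
    (hΩ : IsBoundedDomain Ω) (hΛ : IsBoundedDomain Λ) (hf : IsHomeo Ω Λ f)
    (H : ∀ ε > 0, GoodApprox p ε Ω Λ f F) {ε : ℝ} (hε : 0 < ε) :
    ∃ g : V → V, IsDiffeo Ω Λ g ∧ err p Ω f F g ≤ ENNReal.ofReal ε := by
  obtain ⟨b, hbt, hlim, hstep⟩ := exists_err hSQ hp hp2 hΩ hΛ hf H
  obtain ⟨k, hk⟩ := (hlim.eventually (gt_mem_nhds (ENNReal.ofReal_pos.2 hε))).exists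
  obtain ⟨g, hg, hg'⟩ := hstep (1 / ((k : ℝ) + 1)) (by positivity)
  exact ⟨g, hg, hg'.trans hk.le⟩

end Vale.Agent.P073.AB
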