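import Vale.Agent.P073.PK.Sob560a

/-!
# Block AB, last step: diffeomorphisms of finite energy are Sobolev, and the final integral
-/

namespace Vale.Agent.P073.AB

open MeasureTheory Set Filter Topology Metric Vale.Agent.P073.St
open Vale.Agent.P073.SQ (ev)
open Vale.Agent.P073.PK (cl_apply)
open scoped ContDiff ENNReal

variable {p : ℝ} {Ω Λ Ξ : Set V}

/-! ### diffeomorphisms -/

theorem smooth_of_sm {g : V → V} (h : ∀ i, Sm Ω (fun x => g x i)) : ContDiffOn ℝ ∞ g Ω :=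
  contDiffOn_pi.2 h

theorem isDiffeo_comp {s g : V → V} (hs : IsDiffeo Ω Λ s) (hg : IsDiffeo Λ Ξ g) :
    IsDiffeo Ω Ξ (g ∘ s) := by
  obtain ⟨s', ⟨a1, a2⟩, a3, a4⟩ := hs
  obtain ⟨g', ⟨b1, b2⟩, b3, b4⟩ := hg
  refine ⟨s' ∘ g', ⟨fun x hx => ?_, fun y hy => ?_⟩, fun i => ?_, fun i => ?_⟩
  · refine ⟨(b1 _ (a1 x hx).1).1, ?_⟩
    simp only [Function.comp]
    rw [(b1 _ (a1 x hx).1).2, (a1 x hx).2]
  · refine ⟨(a2 _ (b2 y hy).1).1, ?_⟩
    simp only [Function.comp]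
    rw [(a2 _ (b2 y hy).1).2, (b2 y hy).2]
  · have h := (smooth_of_sm b3).comp (smooth_of_sm a3) fun x hx => (a1 x hx).1
    exact contDiffOn_pi.1 h i
  · have h := (smooth_of_sm a4).comp (smooth_of_sm b4) fun x hx => (b2 x hx).1
    exact contDiffOn_pi.1 h i

theorem diffeo_smooth {g : V → V} (h : IsDiffeo Ω Λ g) : ContDiffOn ℝ ∞ g Ω := by
  obtain ⟨_, _, h3, _⟩ := h
  exact smooth_of_sm h3

theorem diffeo_maps {g : V → V} (h : IsDiffeo Ω Λ g) {x : V} (hx : x ∈ Ω) : g x ∈ Λ := by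
  obtain ⟨_, h1, _, _⟩ := h
  exact (h1.1 x hx).1

theorem diffeo_diff (hΩ : IsOpen Ω) {g : V → V} (h : ContDiffOn ℝ ∞ g Ω) {x : V}
    (hx : x ∈ Ω) : HasFDerivAt g (fderiv ℝ g x) x :=
  ((h.contDiffAt (hΩ.mem_nhds hx)).differentiableAt (by simp)).hasFDerivAt

theorem jac_eq (hΩ : IsOpen Ω) {g : V → V} (h : ContDiffOn ℝ ∞ g Ω) {x : V} (hx : x ∈ Ω)
    (i j : Fin 3) : jac g x i j = fderiv ℝ g x (ev j) i := by
  have h1 : HasDerivAt (fun t : ℝ => Function.update x j t) (Pi.single j 1) (x j) :=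
    hasDerivAt_update x j (x j)
  have h2 : HasFDerivAt g (fderiv ℝ g x) (Function.update x j (x j)) := by
    rw [Function.update_eq_self]
    exact diffeo_diff hΩ h hx
  have h3 := h2.comp_hasDerivAt (x j) h1
  have h4 := (hasDerivAt_pi.1 h3 i).deriv
  exact h4

/-! ### Sobolev -/

theorem ofReal_norm_rpow {E : Type*} [NormedAddCommGroup E] (hp : 0 ≤ p) (v : E) :
    ENNReal.ofReal (‖v‖ ^ p) = ‖v‖ₑ ^ p := by
  rw [← ofReal_norm, ENNReal.ofReal_rpow_of_nonneg (norm_nonneg _) hp]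

/-- smooth bounded maps with finite energy are Sobolev maps -/
theorem isSobolev_of_smooth (hp : 1 ≤ p) (hΩ : IsOpen Ω) (hv : volume Ω ≠ ⊤) {g : V → V}
    (hg : ContDiffOn ℝ ∞ g Ω) {D : ℝ} (hD : ∀ x ∈ Ω, ‖g x‖ ≤ D)
    (hE : ∀ j, ∫⁻ x in Ω, ENNReal.ofReal (‖fderiv ℝ g x (ev j)‖ ^ p) ≠ ⊤) :
    IsSobolev p Ω g (jac g) := by
  have : IsFiniteMeasure (volume.restrict Ω) := ⟨by
    rw [Measure.restrict_apply_univ]; exact lt_top_iff_ne_top.2 hv⟩
  have hp0 : ENNReal.ofReal p ≠ 0 := by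
    rw [Ne, ENNReal.ofReal_eq_zero]; linarith
  have hp1 : (1 : ℝ≥0∞) ≤ ENNReal.ofReal p := by
    rw [← ENNReal.ofReal_one]
    exact ENNReal.ofReal_le_ofReal hp
  have hgi : ∀ i, ContinuousOn (fun x => g x i) Ω := fun i =>
    (contDiffOn_pi.1 hg i).continuousOn
  have hfc : ContinuousOn (fderiv ℝ g) Ω := hg.continuousOn_fderiv_of_isOpen hΩ (by simp)
  have hfj : ∀ j, ContinuousOn (fun x => fderiv ℝ g x (ev j)) Ω := fun j =>
    hfc.clm_apply continuousOn_const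
  have hL1 : ∀ i, MemLp (fun x => g x i) (ENNReal.ofReal p) (volume.restrict Ω) := by
    intro i
    refine MemLp.of_bound ((hgi i).aestronglyMeasurable hΩ.measurableSet) D ?_
    filter_upwards [ae_restrict_mem hΩ.measurableSet] with x hx
    exact (norm_le_pi_norm (g x) i).trans (hD x hx)
  have hL2 : ∀ j, MemLp (fun x => fderiv ℝ g x (ev j)) (ENNReal.ofReal p)
      (volume.restrict Ω) := by
    intro j
    refine ⟨(hfj j).aestronglyMeasurable hΩ.measurableSet, ?_⟩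
    rw [eLpNorm_lt_top_iff_lintegral_rpow_enorm_lt_top hp0 ENNReal.ofReal_ne_top,
      ENNReal.toReal_ofReal (by linarith)]
    have h1 := hE j
    simp_rw [ofReal_norm_rpow (show 0 ≤ p by linarith)] at h1
    exact lt_top_iff_ne_top.2 h1
  refine ⟨hL1, fun i j => ?_, fun φ hφ i j => ?_⟩
  · have h1 : MemLp (fun x => fderiv ℝ g x (ev j) i) (ENNReal.ofReal p) (volume.restrict Ω) :=
      memLp_pi_iff.1 (hL2 j) i
    refine (memLp_congr_ae ?_).1 h1
    filter_upwards [ae_restrict_mem hΩ.measurableSet] with x hx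
    exact (jac_eq hΩ hg hx i j).symm
  · obtain ⟨hφ1, hφ2, hφ3⟩ := hφ
    have hφs : ContDiff ℝ ∞ φ := contDiffOn_univ.1 hφ1
    have hφd : Differentiable ℝ φ := hφs.differentiable (by simp)
    have hdφ : Continuous fun x => fderiv ℝ φ x (ev j) :=
      (hφs.continuous_fderiv (by simp)).clm_apply continuous_const
    have hdφc : HasCompactSupport fun x => fderiv ℝ φ x (ev j) := hφ2.fderiv_apply ℝ _
    have hdφs : tsupport (fun x => fderiv ℝ φ x (ev j)) ⊆ Ω := by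
      refine (closure_mono ?_).trans ((tsupport_fderiv_subset ℝ).trans hφ3)
      intro y hy h0
      apply hy
      show fderiv ℝ φ y (ev j) = 0
      rw [h0]; rfl
    set u : V → ℝ := fun x => g x i with hu
    have hus : ContDiffOn ℝ ∞ u Ω := contDiffOn_pi.1 hg i
    have hud : ∀ x ∈ Ω, DifferentiableAt ℝ u x := fun x hx =>
      (hus.contDiffAt (hΩ.mem_nhds hx)).differentiableAt (by simp)
    have hufc : ContinuousOn (fun x => fderiv ℝ u x (ev j)) Ω :=
      (hus.continuousOn_fderiv_of_isOpen hΩ (by simp)).clm_apply continuousOn_const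
    -- integrability of a continuous function on `Ω` times a function with compact support
    have key : ∀ ψ w : V → ℝ, Continuous ψ → HasCompactSupport ψ → tsupport ψ ⊆ Ω →
        ContinuousOn w Ω → Integrable fun x => ψ x * w x := by
      intro ψ w h1 h2 h3 h4
      have h5 : IntegrableOn (fun x => ψ x * w x) (tsupport ψ) volume :=
        ContinuousOn.integrableOn_compact h2 (h1.continuousOn.mul (h4.mono h3))
      refine (integrableOn_iff_integrable_of_support_subset ?_).1 h5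
      intro y hy
      by_contra h
      apply hy
      show ψ y * w y = 0
      rw [image_eq_zero_of_notMem_tsupport h, zero_mul]
    have hi1 := key _ u hdφ hdφc hdφs hus.continuousOn
    have hi2 := key φ _ hφs.continuous hφ2 hφ3 hufc
    have hi3 := key φ u hφs.continuous hφ2 hφ3 hus.continuousOn
    have hmain := integral_mul_fderiv_eq_neg_fderiv_mul_of_integrable hi1 hi2 hi3
      (fun x _ => hφd x) (fun x hx => hud x (hφ3 hx))
    have hpd : ∀ x, pd φ x j = fderiv ℝ φ x (ev j) := fun x => PK.pd_eq_fderiv hφs x j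
    have e1 : int Ω (fun x => φ x * jac g x i j) = ∫ x, φ x * fderiv ℝ u x (ev j) := by
      unfold int
      rw [setIntegral_congr_fun (g := fun x => φ x * fderiv ℝ u x (ev j)) hΩ.measurableSet]
      · rw [setIntegral_eq_integral_of_forall_compl_eq_zero]
        intro x hx
        rw [image_eq_zero_of_notMem_tsupport (fun h => hx (hφ3 h)), zero_mul]
      · intro x hx
        show φ x * jac g x i j = φ x * fderiv ℝ u x (ev j)
        congr 1
        rw [jac_eq hΩ hg hx]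
        have h6 := (hasFDerivAt_pi'.1 (diffeo_diff hΩ hg hx)) i
        have h7 : fderiv ℝ u x = (ContinuousLinearMap.proj i).comp (fderiv ℝ g x) := h6.fderiv
        rw [h7]
        rfl
    have e2 : int Ω (fun x => pd φ x j * g x i) = ∫ x, fderiv ℝ φ x (ev j) * u x := by
      unfold int
      rw [setIntegral_eq_integral_of_forall_compl_eq_zero]
      · refine integral_congr_ae (Eventually.of_forall fun x => ?_)
        show pd φ x j * g x i = fderiv ℝ φ x (ev j) * u x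
        rw [hpd]
      · intro x hx
        rw [hpd, image_eq_zero_of_notMem_tsupport (f := fun x => fderiv ℝ φ x (ev j))
          (fun h => hx (hdφs h)), zero_mul]
    rw [e1, e2]
    exact hmain

/-! ### the final integral -/

theorem euc_le_norm (v : V) : euc v ≤ 2 * ‖v‖ := by
  unfold euc
  rw [Real.sqrt_le_left (by positivity)]
  have h : ∀ i, v i ^ 2 ≤ ‖v‖ ^ 2 := fun i => by
    have h1 : |v i| ≤ ‖v‖ := norm_le_pi_norm v i
    rw [← sq_abs (v i)]
    exact pow_le_pow_left₀ (abs_nonneg _) h1 2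
  rw [Fin.sum_univ_three]
  nlinarith [h 0, h 1, h 2, sq_nonneg ‖v‖]

theorem frob_le (M : Mat) (t : Fin 3 → V) (ht : ∀ i j, M i j = t j i) :
    frob M ≤ 2 * ∑ j, ‖t j‖ := by
  have hs : 0 ≤ ∑ j, ‖t j‖ := Finset.sum_nonneg fun j _ => norm_nonneg _
  unfold frob
  rw [Real.sqrt_le_left (by positivity)]
  have h : ∀ i j, M i j ^ 2 ≤ ‖t j‖ ^ 2 := fun i j => by
    have h1 : |t j i| ≤ ‖t j‖ := norm_le_pi_norm (t j) i
    rw [ht, ← sq_abs (t j i)]
    exact pow_le_pow_left₀ (abs_nonneg _) h1 2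
  simp only [Fin.sum_univ_three] at *
  have a0 := norm_nonneg (t 0)
  have a1 := norm_nonneg (t 1)
  have a2 := norm_nonneg (t 2)
  nlinarith [h 0 0, h 1 0, h 2 0, h 0 1, h 1 1, h 2 1, h 0 2, h 1 2, h 2 2, mul_nonneg a0 a1,
    mul_nonneg a0 a2, mul_nonneg a1 a2, sq_nonneg ‖t 0‖, sq_nonneg ‖t 1‖, sq_nonneg ‖t 2‖]

theorem final_pt (hp : 1 ≤ p) (hp2 : p < 2) (a : V) (M : Mat) (t : Fin 3 → V)
    (ht : ∀ i j, M i j = t j i) :
    euc a ^ p + frob M ^ p ≤ 12 * (‖a‖ ^ p + ∑ j, ‖t j‖ ^ p) := by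
  have hp0 : 0 ≤ p := by linarith
  have h2p : (2 : ℝ) ^ p ≤ 4 := by
    calc (2 : ℝ) ^ p ≤ 2 ^ (2 : ℝ) := Real.rpow_le_rpow_of_exponent_le (by norm_num) hp2.le
      _ = 4 := by norm_num
  have h3p : (3 : ℝ) ^ (p - 1) ≤ 3 := by
    calc (3 : ℝ) ^ (p - 1) ≤ 3 ^ (1 : ℝ) :=
          Real.rpow_le_rpow_of_exponent_le (by norm_num) (by linarith)
      _ = 3 := by norm_num
  have e1 : euc a ^ p ≤ 4 * ‖a‖ ^ p := by
    calc euc a ^ p ≤ (2 * ‖a‖) ^ p :=
          Real.rpow_le_rpow (Real.sqrt_nonneg _) (euc_le_norm a) hp0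
      _ = 2 ^ p * ‖a‖ ^ p := Real.mul_rpow (by norm_num) (norm_nonneg _)
      _ ≤ 4 * ‖a‖ ^ p := by gcongr
  have hs : 0 ≤ ∑ j, ‖t j‖ := Finset.sum_nonneg fun j _ => norm_nonneg _
  have e3 : (∑ j, ‖t j‖) ^ p ≤ 3 * ∑ j, ‖t j‖ ^ p := by
    have h := Real.rpow_sum_le_const_mul_sum_rpow_of_nonneg (s := Finset.univ)
      (f := fun j => ‖t j‖) hp (fun j _ => norm_nonneg _)
    have hc : ((Finset.univ : Finset (Fin 3)).card : ℝ) = 3 := by simp
    rw [hc] at h
    have hs' : 0 ≤ ∑ j, ‖t j‖ ^ p := Finset.sum_nonneg fun j _ => by positivity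
    exact h.trans (mul_le_mul_of_nonneg_right h3p hs')
  have e2 : frob M ^ p ≤ 12 * ∑ j, ‖t j‖ ^ p := by
    calc frob M ^ p ≤ (2 * ∑ j, ‖t j‖) ^ p :=
          Real.rpow_le_rpow (Real.sqrt_nonneg _) (frob_le M t ht) hp0
      _ = 2 ^ p * (∑ j, ‖t j‖) ^ p := Real.mul_rpow (by norm_num) hs
      _ ≤ 4 * (3 * ∑ j, ‖t j‖ ^ p) := by gcongr
      _ = _ := by ring
  have h4 : 0 ≤ ‖a‖ ^ p := by positivity
  linarith

/-- the two integrals -/
noncomputable def err (p : ℝ) (Ω : Set V) (f : V → V) (F : V → Mat) (g : V → V) : ℝ≥0∞ :=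
  (∫⁻ x in Ω, ENNReal.ofReal (‖g x - f x‖ ^ p)) +
    ∑ j, ∫⁻ x in Ω, ENNReal.ofReal (‖fderiv ℝ g x (ev j) - cl (F x) (ev j)‖ ^ p)

theorem int_le_err (hp : 1 ≤ p) (hp2 : p < 2) (hΩ : IsOpen Ω) {f : V → V} {F : V → Mat}
    (hf : ContinuousOn f Ω) (hF : IsSobolev p Ω f F) {g : V → V} (hg : ContDiffOn ℝ ∞ g Ω)
    (ht : err p Ω f F g ≠ ⊤) :
    0 ≤ int Ω (fun x => euc (g x - f x) ^ p + frob (jac g x - F x) ^ p) ∧
    int Ω (fun x => euc (g x - f x) ^ p + frob (jac g x - F x) ^ p) ≤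
      12 * (err p Ω f F g).toReal := by
  have hp0 : 0 ≤ p := by linarith
  have hnn : ∀ x, 0 ≤ euc (g x - f x) ^ p + frob (jac g x - F x) ^ p := fun x =>
    add_nonneg (Real.rpow_nonneg (Real.sqrt_nonneg _) _) (Real.rpow_nonneg (Real.sqrt_nonneg _) _)
  refine ⟨integral_nonneg hnn, ?_⟩
  refine (le_abs_self _).trans ?_
  rw [← Real.norm_eq_abs]
  refine (norm_integral_le_lintegral_norm _).trans ?_
  have h12 : (12 : ℝ) * (err p Ω f F g).toReal = (ENNReal.ofReal 12 * err p Ω f F g).toReal := by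
    rw [ENNReal.toReal_mul, ENNReal.toReal_ofReal (by norm_num)]
  rw [h12]
  apply ENNReal.toReal_mono (ENNReal.mul_ne_top ENNReal.ofReal_ne_top ht)
  have hm1 : AEMeasurable (fun x => ENNReal.ofReal (‖g x - f x‖ ^ p)) (volume.restrict Ω) := by
    have h1 : AEMeasurable (fun x => g x - f x) (volume.restrict Ω) :=
      (hg.continuousOn.sub hf).aemeasurable hΩ.measurableSet
    exact (h1.norm.pow_const p).ennreal_ofReal
  have hm2 : ∀ j, AEMeasurable (fun x =>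
      ENNReal.ofReal (‖fderiv ℝ g x (ev j) - cl (F x) (ev j)‖ ^ p)) (volume.restrict Ω) := by
    intro j
    have h1 : AEMeasurable (fun x => fderiv ℝ g x (ev j)) (volume.restrict Ω) :=
      ((hg.continuousOn_fderiv_of_isOpen hΩ (by simp)).clm_apply
        continuousOn_const).aemeasurable hΩ.measurableSet
    have h2 : AEMeasurable (fun x => cl (F x) (ev j)) (volume.restrict Ω) :=
      ((ContinuousLinearMap.apply ℝ V (ev j)).continuous.comp_aestronglyMeasurable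
        (PK.IsSob.aesm hF)).aemeasurable
    exact ((h1.sub h2).norm.pow_const p).ennreal_ofReal
  have hsum : err p Ω f F g = ∫⁻ x in Ω, (ENNReal.ofReal (‖g x - f x‖ ^ p) +
      ∑ j, ENNReal.ofReal (‖fderiv ℝ g x (ev j) - cl (F x) (ev j)‖ ^ p)) := by
    rw [lintegral_add_left' hm1, lintegral_finsetSum' _ fun j _ => hm2 j]
    rfl
  rw [hsum, ← lintegral_const_mul' _ _ ENNReal.ofReal_ne_top]
  refine setLIntegral_mono' hΩ.measurableSet fun x hx => ?_
  rw [Real.norm_of_nonneg (hnn x), ← ENNReal.ofReal_sum_of_nonneg fun j _ => by positivity,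
    ← ENNReal.ofReal_add (by positivity) (Finset.sum_nonneg fun j _ => by positivity),
    ← ENNReal.ofReal_mul (by norm_num)]
  apply ENNReal.ofReal_le_ofReal
  refine final_pt hp hp2 _ _ (fun j => fderiv ℝ g x (ev j) - cl (F x) (ev j)) fun i j => ?_
  show jac g x i j - F x i j = _
  rw [jac_eq hΩ hg hx, Pi.sub_apply, cl_apply]
  congr 1
  rw [Finset.sum_eq_single j]
  · simp [ev]
  · intro l _ hl
    simp [ev, hl]
  · simp

theorem norm_bound_of_domain (hΛ : IsBoundedDomain Λ) : ∃ D : ℝ, 0 < D ∧ ∀ y ∈ Λ, ‖y‖ ≤ D := by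
  obtain ⟨D, hD⟩ := (PK.isBounded_of_domain hΛ).exists_norm_le
  exact ⟨max D 1, by positivity, fun y hy => (hD y hy).trans (le_max_left _ _)⟩

theorem add_rpow_le (hp : 1 ≤ p) (hp2 : p < 2) (a b : V) :
    ENNReal.ofReal (‖a + b‖ ^ p) ≤
      2 * (ENNReal.ofReal (‖a‖ ^ p) + ENNReal.ofReal (‖b‖ ^ p)) := by
  have hp0 : 0 ≤ p := by linarith
  simp_rw [ofReal_norm_rpow hp0]
  calc ‖a + b‖ₑ ^ p ≤ (‖a‖ₑ + ‖b‖ₑ) ^ p := ENNReal.rpow_le_rpow (enorm_add_le a b) hp0
    _ ≤ 2 ^ (p - 1) * (‖a‖ₑ ^ p + ‖b‖ₑ ^ p) :=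
        ENNReal.rpow_add_le_mul_rpow_add_rpow _ _ hp
    _ ≤ 2 * (‖a‖ₑ ^ p + ‖b‖ₑ ^ p) := by
        gcongr
        calc (2 : ℝ≥0∞) ^ (p - 1) ≤ 2 ^ (1 : ℝ) :=
              ENNReal.rpow_le_rpow_of_exponent_le (by norm_num) (by linarith)
          _ = 2 := by simp

/-- the limit -/
theorem approximable_of (hp : 1 ≤ p) (hp2 : p < 2) (hΩ : IsBoundedDomain Ω)
    (hΛ : IsBoundedDomain Λ) {f : V → V} {F : V → Mat} (hf : ContinuousOn f Ω)
    (hF : IsSobolev p Ω f F) {b : ℕ → ℝ≥0∞} (hb : Tendsto b atTop (𝓝 0)) (hbt : ∀ k, b k ≠ ⊤)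
    (H : ∀ k, ∃ g : V → V, IsDiffeo Ω Λ g ∧ err p Ω f F g ≤ b k) :
    DiffeoApproximable p Ω Λ f F := by
  have hp0 : 0 ≤ p := by linarith
  choose g hg hgb using H
  have hgs : ∀ k, ContDiffOn ℝ ∞ (g k) Ω := fun k => diffeo_smooth (hg k)
  have het : ∀ k, err p Ω f F (g k) ≠ ⊤ := fun k => ne_top_of_le_ne_top (hbt k) (hgb k)
  obtain ⟨D, _, hD⟩ := norm_bound_of_domain hΛ
  refine ⟨g, fun k => ⟨hg k, ?_⟩, ?_⟩
  · refine isSobolev_of_smooth hp hΩ.1 (PK.volume_ne_top_of_domain hΩ) (hgs k)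
      (fun x hx => hD _ (diffeo_maps (hg k) hx)) fun j => ?_
    have h1 : ∫⁻ x in Ω, ENNReal.ofReal (‖fderiv ℝ (g k) x (ev j) - cl (F x) (ev j)‖ ^ p) ≠ ⊤ := by
      refine ne_top_of_le_ne_top (het k) ?_
      unfold err
      refine le_trans ?_ le_add_self
      exact Finset.single_le_sum (f := fun j => ∫⁻ x in Ω,
        ENNReal.ofReal (‖fderiv ℝ (g k) x (ev j) - cl (F x) (ev j)‖ ^ p))
        (fun _ _ => zero_le) (Finset.mem_univ j)
    have h2 : ∫⁻ x in Ω, ENNReal.ofReal (‖cl (F x) (ev j)‖ ^ p) ≠ ⊤ := by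
      refine ne_top_of_le_ne_top (PK.IsSob.lintegral_ne_top hp hF) ?_
      refine lintegral_mono fun x => ?_
      rw [ofReal_norm_rpow hp0]
      apply ENNReal.rpow_le_rpow _ hp0
      rw [← ofReal_norm, ← ofReal_norm]
      apply ENNReal.ofReal_le_ofReal
      refine (ContinuousLinearMap.le_opNorm _ _).trans ?_
      have : ‖ev j‖ = 1 := by unfold ev; rw [Pi.norm_single]; simp
      rw [this, mul_one]
    have hm : AEMeasurable (fun x => ENNReal.ofReal (‖cl (F x) (ev j)‖ ^ p))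
        (volume.restrict Ω) := by
      have h2 : AEMeasurable (fun x => cl (F x) (ev j)) (volume.restrict Ω) :=
        ((ContinuousLinearMap.apply ℝ V (ev j)).continuous.comp_aestronglyMeasurable
          (PK.IsSob.aesm hF)).aemeasurable
      exact (h2.norm.pow_const p).ennreal_ofReal
    have h3 : ∫⁻ x in Ω, ENNReal.ofReal (‖fderiv ℝ (g k) x (ev j)‖ ^ p) ≤
        2 * ((∫⁻ x in Ω, ENNReal.ofReal (‖fderiv ℝ (g k) x (ev j) - cl (F x) (ev j)‖ ^ p)) +
          ∫⁻ x in Ω, ENNReal.ofReal (‖cl (F x) (ev j)‖ ^ p)) := by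
      rw [← lintegral_add_right' _ hm, ← lintegral_const_mul' _ _ (by norm_num)]
      refine lintegral_mono fun x => ?_
      have := add_rpow_le hp hp2 (fderiv ℝ (g k) x (ev j) - cl (F x) (ev j)) (cl (F x) (ev j))
      rwa [sub_add_cancel] at this
    exact ne_top_of_le_ne_top (ENNReal.mul_ne_top (by norm_num) (ENNReal.add_ne_top.2 ⟨h1, h2⟩)) h3
  · have h1 : Tendsto (fun k => 12 * (b k).toReal) atTop (𝓝 0) := by
      have := ((ENNReal.tendsto_toReal ENNReal.zero_ne_top).comp hb).const_mul (12 : ℝ)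
      simpa using this
    refine squeeze_zero (fun k => (int_le_err hp hp2 hΩ.1 hf hF (hgs k) (het k)).1)
      (fun k => ?_) h1
    refine (int_le_err hp hp2 hΩ.1 hf hF (hgs k) (het k)).2.trans ?_
    have := ENNReal.toReal_mono (hbt k) (hgb k)
    linarith

end Vale.Agent.P073.AB
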