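import Vale.Agent.P073.AB.Spec
import Vale.Agent.P073.Net.NC

/-!
# P073, block AB: the graph of the edges of a dyadic partition
-/

namespace Vale.Agent.P073.AB

open MeasureTheory Set Filter Topology Metric Vale.Agent.P073.St
open P073.Net (IsTile dyc dyo SizeFn)
open Vale.Agent.P073.SQ (ev)

namespace Gr

/-- membership in a dyadic edge -/
theorem mem_edge {v : V} {e : Idx × Fin 3} {x : V} : x ∈ edge v e ↔
    (∀ j, j ≠ e.2 → x j = v j + e.1.2 j / 2 ^ e.1.1) ∧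
      v e.2 + e.1.2 e.2 / 2 ^ e.1.1 ≤ x e.2 ∧ x e.2 ≤ v e.2 + (e.1.2 e.2 + 1) / 2 ^ e.1.1 := by
  obtain ⟨⟨m, z⟩, k⟩ := e
  have h2 : (0:ℝ) < 2 ^ m := by positivity
  show x ∈ segment ℝ (pt v m z) (pt v m z + (1 / 2 ^ m : ℝ) • ev k) ↔ _
  rw [segment_eq_image']
  simp only [mem_image, add_sub_cancel_left]
  constructor
  · rintro ⟨θ, hθ, rfl⟩
    refine ⟨fun j hj => ?_, ?_, ?_⟩
    · simp [pt, ev, hj]
    · simp only [pt, ev, Pi.add_apply, Pi.smul_apply, Pi.single_eq_same, smul_eq_mul, mul_one]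
      have := mul_nonneg hθ.1 (show (0:ℝ) ≤ 1 / 2 ^ m by positivity)
      linarith
    · simp only [pt, ev, Pi.add_apply, Pi.smul_apply, Pi.single_eq_same, smul_eq_mul, mul_one]
      have h3 : (0:ℝ) ≤ 1 / 2 ^ m := by positivity
      have := mul_le_mul_of_nonneg_right hθ.2 h3
      rw [add_div]
      linarith
  · rintro ⟨h1, h3, h4⟩
    refine ⟨(x k - (v k + z k / 2 ^ m)) * 2 ^ m, ⟨?_, ?_⟩, ?_⟩
    · apply mul_nonneg _ h2.le
      have : v k + (z k : ℝ) / 2 ^ m ≤ x k := h3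
      linarith
    · have : x k ≤ v k + ((z k : ℝ) + 1) / 2 ^ m := h4
      rw [add_div] at this
      have h5 : x k - (v k + z k / 2 ^ m) ≤ 1 / 2 ^ m := by linarith
      rwa [le_div_iff₀ h2] at h5
    · funext j
      by_cases hj : j = k
      · subst hj
        simp only [pt, ev, Pi.add_apply, Pi.smul_apply, Pi.single_eq_same, smul_eq_mul, mul_one]
        field_simp
        ring
      · have := h1 j hj
        simp [pt, ev, hj, this]

theorem edge_subset_dyc {v : V} {e : Idx × Fin 3} {q : Idx} (h : EdgeOf e q) :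
    edge v e ⊆ dyc v q.1 q.2 := by
  intro x hx j
  rw [mem_edge] at hx
  obtain ⟨h1, h3, h4⟩ := h
  obtain ⟨a1, a2, a3⟩ := hx
  by_cases hj : j = e.2
  · subst hj
    rw [← h1, ← h3]; exact ⟨a2, a3⟩
  · have b1 := a1 j hj
    rw [h1] at b1
    have h5 : (0:ℝ) < 1 / 2 ^ q.1 := by positivity
    have h6 : ((q.2 j : ℝ) + 1) / 2 ^ q.1 = q.2 j / 2 ^ q.1 + 1 / 2 ^ q.1 := add_div _ _ _
    rcases h4 j hj with b2 | b2
    · rw [b2] at b1
      rw [b1, h6]
      constructor <;> linarith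
    · rw [b2] at b1
      push_cast at b1
      rw [b1, h6]
      constructor <;> linarith

/-- ancestors -/
theorem exists_ancestor (v : V) (m d : ℕ) : ∀ z : Fin 3 → ℤ, ∃ Z : Fin 3 → ℤ,
    dyc v (m + d) z ⊆ dyc v m Z := by
  induction d with
  | zero => intro z; exact ⟨z, le_refl _⟩
  | succ d ih =>
    intro z
    obtain ⟨Z, hZ⟩ := ih (fun k => z k / 2)
    exact ⟨Z, (P073.Net.NC.parent_sub (n := m + d)).trans hZ⟩

theorem exists_ancestor' {m m' : ℕ} (v : V) (h : m ≤ m') (z : Fin 3 → ℤ) :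
    ∃ Z : Fin 3 → ℤ, dyc v m' z ⊆ dyc v m Z := by
  obtain ⟨d, rfl⟩ := Nat.exists_eq_add_of_le h
  exact exists_ancestor v m d z

/-- a cube of the lattice of generation `m` through a relatively interior point of a dyadic edge of
generation `m` has this edge -/
theorem edgeOf_of_mem {v : V} {m : ℕ} {z : Fin 3 → ℤ} {k : Fin 3} {Z : Fin 3 → ℤ} {x : V}
    (hx : x ∈ edge v ((m, z), k)) (h1 : v k + z k / 2 ^ m < x k)
    (h2 : x k < v k + (z k + 1) / 2 ^ m) (hxZ : x ∈ dyc v m Z) : EdgeOf ((m, z), k) (m, Z) := by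
  have h0 : (0:ℝ) < 2 ^ m := by positivity
  rw [mem_edge] at hx
  refine ⟨rfl, ?_, fun j hj => ?_⟩
  · show z k = Z k
    have a := hxZ k
    have b1 : (z k : ℝ) / 2 ^ m < (Z k + 1) / 2 ^ m := by linarith [a.2]
    have b2 : (Z k : ℝ) / 2 ^ m < (z k + 1) / 2 ^ m := by linarith [a.1]
    rw [div_lt_div_iff_of_pos_right h0] at b1 b2
    have c1 : z k < Z k + 1 := by exact_mod_cast b1
    have c2 : Z k < z k + 1 := by exact_mod_cast b2
    omega
  · show z j = Z j ∨ z j = Z j + 1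
    have a := hxZ j
    have b : x j = v j + z j / 2 ^ m := hx.1 j hj
    have b1 : (Z j : ℝ) / 2 ^ m ≤ z j / 2 ^ m := by linarith [a.1]
    have b2 : (z j : ℝ) / 2 ^ m ≤ (Z j + 1) / 2 ^ m := by linarith [a.2]
    rw [div_le_div_iff_of_pos_right h0] at b1 b2
    have c1 : Z j ≤ z j := by exact_mod_cast b1
    have c2 : z j ≤ Z j + 1 := by exact_mod_cast b2
    omega

/-- a subcube of a cube `Z` which touches an edge of `Z` has an edge in this edge -/
theorem exists_sub_edge {v : V} {m m' : ℕ} {z Z z' : Fin 3 → ℤ} {k : Fin 3} {x : V}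
    (he : EdgeOf ((m, z), k) (m, Z)) (hsub : dyc v m' z' ⊆ dyc v m Z)
    (hx : x ∈ edge v ((m, z), k)) (hx' : x ∈ dyc v m' z') :
    ∃ w : Fin 3 → ℤ, EdgeOf ((m', w), k) (m', z') ∧ x ∈ edge v ((m', w), k) ∧
      edge v ((m', w), k) ⊆ edge v ((m, z), k) := by
  have h0 : (0:ℝ) < 2 ^ m := by positivity
  have h0' : (0:ℝ) < 2 ^ m' := by positivity
  -- corners of the small cube are in the large cube
  have hlow : ∀ j, v j + (Z j : ℝ) / 2 ^ m ≤ v j + z' j / 2 ^ m' ∧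
      v j + ((z' j : ℝ) + 1) / 2 ^ m' ≤ v j + (Z j + 1) / 2 ^ m := by
    intro j
    have c1 : (fun j => v j + (z' j : ℝ) / 2 ^ m' : V) ∈ dyc v m' z' := by
      intro i
      refine ⟨le_rfl, ?_⟩
      show v i + (z' i : ℝ) / 2 ^ m' ≤ v i + (z' i + 1) / 2 ^ m'
      have : (z' i : ℝ) / 2 ^ m' ≤ (z' i + 1) / 2 ^ m' := by
        apply div_le_div_of_nonneg_right _ h0'.le; linarith
      linarith
    have c2 : (fun j => v j + ((z' j : ℝ) + 1) / 2 ^ m' : V) ∈ dyc v m' z' := by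
      intro i
      refine ⟨?_, le_rfl⟩
      show v i + (z' i : ℝ) / 2 ^ m' ≤ v i + (z' i + 1) / 2 ^ m'
      have : (z' i : ℝ) / 2 ^ m' ≤ (z' i + 1) / 2 ^ m' := by
        apply div_le_div_of_nonneg_right _ h0'.le; linarith
      linarith
    exact ⟨(hsub c1 j).1, (hsub c2 j).2⟩
  obtain ⟨-, hk, hother⟩ := he
  have hk' : z k = Z k := hk
  rw [mem_edge] at hx
  -- the fixed coordinates
  have hw : ∀ j, j ≠ k → ∃ c : ℤ, (c = z' j ∨ c = z' j + 1) ∧
      (c : ℝ) / 2 ^ m' = (z j : ℝ) / 2 ^ m := by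
    intro j hj
    have a := hx' j
    have b : x j = v j + z j / 2 ^ m := hx.1 j hj
    have hl := hlow j
    rcases hother j hj with h1 | h1
    · have h1' : z j = Z j := h1
      rw [h1'] at b ⊢
      refine ⟨z' j, Or.inl rfl, ?_⟩
      linarith [a.1, hl.1]
    · have h1' : z j = Z j + 1 := h1
      rw [h1'] at b ⊢
      refine ⟨z' j + 1, Or.inr rfl, ?_⟩
      push_cast at b ⊢
      linarith [a.2, hl.2]
  choose! c hc hc' using hw
  refine ⟨fun j => if j = k then z' j else c j, ⟨rfl, ?_, fun j hj => ?_⟩, ?_, ?_⟩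
  · show (if k = k then z' k else c k) = z' k
    rw [if_pos rfl]
  · show (if j = k then z' j else c j) = z' j ∨ (if j = k then z' j else c j) = z' j + 1
    have hj' : j ≠ k := hj
    rw [if_neg hj']
    exact hc j hj'
  · rw [mem_edge]
    refine ⟨fun j hj => ?_, ?_, ?_⟩
    · have hj' : j ≠ k := hj
      show x j = v j + ((if j = k then z' j else c j : ℤ) : ℝ) / 2 ^ m'
      rw [if_neg hj', hc' j hj']
      exact hx.1 j hj
    · show v k + ((if k = k then z' k else c k : ℤ) : ℝ) / 2 ^ m' ≤ x k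
      rw [if_pos rfl]; exact (hx' k).1
    · show x k ≤ v k + (((if k = k then z' k else c k : ℤ) : ℝ) + 1) / 2 ^ m'
      rw [if_pos rfl]; exact (hx' k).2
  · intro y hy
    rw [mem_edge] at hy ⊢
    obtain ⟨y1, y2, y3⟩ := hy
    refine ⟨fun j hj => ?_, ?_, ?_⟩
    · have hj' : j ≠ k := hj
      have := y1 j hj
      show y j = v j + z j / 2 ^ m
      rw [← hc' j hj']
      have h3 : y j = v j + ((if j = k then z' j else c j : ℤ) : ℝ) / 2 ^ m' := this
      rw [if_neg hj'] at h3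
      exact h3
    · have h3 : v k + ((if k = k then z' k else c k : ℤ) : ℝ) / 2 ^ m' ≤ y k := y2
      rw [if_pos rfl] at h3
      show v k + z k / 2 ^ m ≤ y k
      rw [hk']; exact (hlow k).1.trans h3
    · have h3 : y k ≤ v k + (((if k = k then z' k else c k : ℤ) : ℝ) + 1) / 2 ^ m' := y3
      rw [if_pos rfl] at h3
      show y k ≤ v k + (z k + 1) / 2 ^ m
      rw [hk']; exact h3.trans (hlow k).2

/-- edges of the partition -/
def PEdge (I : Set Idx) (e : Idx × Fin 3) : Prop := ∃ q ∈ I, EdgeOf e q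

/-- minimal edges of the partition -/
def Min (v : V) (I : Set Idx) (e : Idx × Fin 3) : Prop :=
  PEdge I e ∧ ∀ e', PEdge I e' → e.1.1 < e'.1.1 → ¬ edge v e' ⊆ edge v e

theorem finite_edges {I : Set Idx} {Ω K : Set V} {v : V} (hI : Part Ω v I) (hK : K ⊆ Ω)
    (hKc : IsCompact K) : {e | PEdge I e ∧ (edge v e ∩ K).Nonempty}.Finite := by
  have h1 := hI.fin K hK hKc
  have h2 : ∀ q : Idx, {e : Idx × Fin 3 | EdgeOf e q}.Finite := by
    intro q
    have hfin : (({q.1} : Set ℕ) ×ˢ (Set.pi univ fun j => ({q.2 j, q.2 j + 1} : Set ℤ))).Finite := by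
      exact Set.Finite.prod (finite_singleton _) (Set.Finite.pi fun j => Set.toFinite _)
    refine (hfin.prod (finite_univ (α := Fin 3))).subset ?_
    rintro ⟨⟨m, z⟩, k⟩ ⟨a1, a2, a3⟩
    refine ⟨⟨a1, fun j _ => ?_⟩, mem_univ _⟩
    by_cases hj : j = k
    · subst hj
      left; exact a2
    · exact a3 j hj
  refine (h1.biUnion fun q _ => h2 q).subset ?_
  rintro e ⟨⟨q, hq, he⟩, hne⟩
  refine mem_iUnion₂.2 ⟨q, ⟨hq, hne.mono (inter_subset_inter_left _ (edge_subset_dyc he))⟩, he⟩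

theorem isCompact_edge (v : V) (e : Idx × Fin 3) : IsCompact (edge v e) := by
  unfold edge
  rw [segment_eq_image']
  exact isCompact_Icc.image (by fun_prop)

theorem edge_nonempty (v : V) (e : Idx × Fin 3) : (edge v e).Nonempty :=
  ⟨_, left_mem_segment ℝ _ _⟩

/-- the midpoint of an edge -/
noncomputable def mid (v : V) (e : Idx × Fin 3) : V :=
  fun j => if j = e.2 then v j + (e.1.2 j + 1 / 2) / 2 ^ e.1.1 else v j + e.1.2 j / 2 ^ e.1.1

theorem mid_spec (v : V) (e : Idx × Fin 3) : mid v e ∈ edge v e ∧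
    v e.2 + e.1.2 e.2 / 2 ^ e.1.1 < mid v e e.2 ∧
    mid v e e.2 < v e.2 + (e.1.2 e.2 + 1) / 2 ^ e.1.1 := by
  have h0 : (0:ℝ) < 2 ^ e.1.1 := by positivity
  have h1 : mid v e e.2 = v e.2 + (e.1.2 e.2 + 1 / 2) / 2 ^ e.1.1 := by
    unfold mid; rw [if_pos rfl]
  have h2 : (e.1.2 e.2 : ℝ) / 2 ^ e.1.1 < (e.1.2 e.2 + 1 / 2) / 2 ^ e.1.1 := by
    apply div_lt_div_of_pos_right _ h0; linarith
  have h3 : ((e.1.2 e.2 : ℝ) + 1 / 2) / 2 ^ e.1.1 < (e.1.2 e.2 + 1) / 2 ^ e.1.1 := by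
    apply div_lt_div_of_pos_right _ h0; linarith
  refine ⟨mem_edge.2 ⟨fun j hj => ?_, ?_, ?_⟩, ?_, ?_⟩
  · unfold mid; rw [if_neg hj]
  · rw [h1]; linarith
  · rw [h1]; linarith
  · rw [h1]; linarith
  · rw [h1]; linarith

/-- interior points of finer edges are interior points -/
theorem inner_of_sub {v : V} {e e' : Idx × Fin 3} (hsub : edge v e' ⊆ edge v e) :
    mid v e' ∈ edge v e ∧ v e.2 + e.1.2 e.2 / 2 ^ e.1.1 < mid v e' e.2 ∧
      mid v e' e.2 < v e.2 + (e.1.2 e.2 + 1) / 2 ^ e.1.1 := by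
  obtain ⟨h1, h2, h3⟩ := mid_spec v e'
  have h4 := hsub h1
  refine ⟨h4, ?_⟩
  -- the directions agree
  have hk : e'.2 = e.2 := by
    by_contra hne
    have a1 := (mem_edge.1 h4).1 e'.2 hne
    have a2 : pt v e'.1.1 e'.1.2 ∈ edge v e := hsub (left_mem_segment ℝ _ _)
    have a3 := (mem_edge.1 a2).1 e'.2 hne
    have a4 : pt v e'.1.1 e'.1.2 e'.2 = v e'.2 + e'.1.2 e'.2 / 2 ^ e'.1.1 := rfl
    rw [a4, ← a1] at a3
    linarith
  have b1 : pt v e'.1.1 e'.1.2 ∈ edge v e := hsub (left_mem_segment ℝ _ _)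
  have b2 : pt v e'.1.1 e'.1.2 + (1 / 2 ^ e'.1.1 : ℝ) • ev e'.2 ∈ edge v e :=
    hsub (right_mem_segment ℝ _ _)
  have c1 := (mem_edge.1 b1).2.1
  have c2 := (mem_edge.1 b2).2.2
  have d1 : pt v e'.1.1 e'.1.2 e.2 = v e.2 + e'.1.2 e.2 / 2 ^ e'.1.1 := rfl
  have d2 : (pt v e'.1.1 e'.1.2 + (1 / 2 ^ e'.1.1 : ℝ) • ev e'.2) e.2 =
      v e.2 + (e'.1.2 e.2 + 1) / 2 ^ e'.1.1 := by
    rw [← hk]
    simp only [pt, ev, Pi.add_apply, Pi.smul_apply, Pi.single_eq_same, smul_eq_mul, mul_one]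
    rw [add_div]; ring
  rw [d1] at c1
  rw [d2] at c2
  rw [hk] at h2 h3
  constructor <;> linarith

/-- an edge which is not minimal is covered by strictly finer edges -/
theorem exists_finer {Ω : Set V} {v : V} {I : Set Idx} (hΩ : IsOpen Ω) (hI : Part Ω v I)
    {e : Idx × Fin 3} (he : PEdge I e) (hmin : ¬ Min v I e) {x : V} (hx : x ∈ edge v e) :
    ∃ e', PEdge I e' ∧ e.1.1 < e'.1.1 ∧ x ∈ edge v e' ∧ edge v e' ⊆ edge v e := by
  obtain ⟨e', he', hlt, hsub⟩ : ∃ e', PEdge I e' ∧ e.1.1 < e'.1.1 ∧ edge v e' ⊆ edge v e := by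
    by_contra hcon
    push Not at hcon
    exact hmin ⟨he, hcon⟩
  obtain ⟨q, hq, heq⟩ := he
  obtain ⟨q', hq', heq'⟩ := he'
  obtain ⟨⟨m, z⟩, k⟩ := e
  have hlt' : m < q'.1 := by rw [← heq'.1]; exact hlt
  obtain ⟨Z, hZ⟩ := exists_ancestor' v hlt'.le q'.2
  obtain ⟨i1, i2, i3⟩ := inner_of_sub hsub
  have hmidq : mid v e' ∈ dyc v q'.1 q'.2 := edge_subset_dyc heq' (mid_spec v e').1
  have hEZ : EdgeOf ((m, z), k) (m, Z) := edgeOf_of_mem i1 i2 i3 (hZ hmidq)
  have hxZ : x ∈ dyc v m Z := edge_subset_dyc hEZ hx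
  have hxΩ : x ∈ Ω := hI.sub q hq (edge_subset_dyc heq hx)
  -- the centre of the cube `Z`
  set c : V := fun j => v j + (Z j + 1 / 2) / 2 ^ m with hc
  have h0 : (0:ℝ) < 2 ^ m := by positivity
  have hcj : ∀ j, v j + (Z j : ℝ) / 2 ^ m < c j ∧ c j < v j + (Z j + 1) / 2 ^ m := by
    intro j
    have h2 : (Z j : ℝ) / 2 ^ m < (Z j + 1 / 2) / 2 ^ m := by
      apply div_lt_div_of_pos_right _ h0; linarith
    have h3 : ((Z j : ℝ) + 1 / 2) / 2 ^ m < (Z j + 1) / 2 ^ m := by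
      apply div_lt_div_of_pos_right _ h0; linarith
    constructor
    · show v j + (Z j : ℝ) / 2 ^ m < v j + (Z j + 1 / 2) / 2 ^ m; linarith
    · show v j + ((Z j : ℝ) + 1 / 2) / 2 ^ m < v j + (Z j + 1) / 2 ^ m; linarith
  have hy : ∀ t ∈ Ioc (0:ℝ) 1, x + t • (c - x) ∈ dyo v m Z := by
    intro t ht j
    have a := hxZ j
    have b := hcj j
    simp only [Pi.add_apply, Pi.smul_apply, Pi.sub_apply, smul_eq_mul]
    constructor
    · nlinarith [ht.1, ht.2, a.1, b.1]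
    · nlinarith [ht.1, ht.2, a.2, b.2]
  obtain ⟨ρ, hρ, hb⟩ := Metric.nhds_basis_closedBall.mem_iff.1 (hΩ.mem_nhds hxΩ)
  have hF := hI.fin (closedBall x ρ) hb (isCompact_closedBall x ρ)
  set F : Set Idx := {q | q ∈ I ∧ (dyc v q.1 q.2 ∩ closedBall x ρ).Nonempty} with hFdef
  set F' : Set Idx := {q | q ∈ F ∧ m < q.1 ∧ dyc v q.1 q.2 ⊆ dyc v m Z} with hF'
  have hF'fin : F'.Finite := hF.subset fun q hq => hq.1
  have hclosed : IsClosed (⋃ q ∈ F', dyc v q.1 q.2) := by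
    apply hF'fin.isClosed_biUnion
    intro q _
    have : dyc v q.1 q.2 = ⋂ j, {y : V | v j + q.2 j / 2 ^ q.1 ≤ y j ∧
        y j ≤ v j + (q.2 j + 1) / 2 ^ q.1} := by
      ext y; simp [dyc]
    rw [this]
    refine isClosed_iInter fun j => IsClosed.inter ?_ ?_
    · exact isClosed_le continuous_const (continuous_apply j)
    · exact isClosed_le (continuous_apply j) continuous_const
  have hlim : Tendsto (fun t : ℝ => x + t • (c - x)) (𝓝[>] 0) (𝓝 x) := by
    have h1 : Continuous (fun t : ℝ => x + t • (c - x)) := by fun_prop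
    have h2 := h1.tendsto 0
    simp only [zero_smul, add_zero] at h2
    exact h2.mono_left nhdsWithin_le_nhds
  have hev : ∀ᶠ t : ℝ in 𝓝[>] 0, x + t • (c - x) ∈ ⋃ q ∈ F', dyc v q.1 q.2 := by
    filter_upwards [hlim (closedBall_mem_nhds x hρ), Ioc_mem_nhdsGT (zero_lt_one (α := ℝ))]
      with t h1 h2
    have hyo := hy t h2
    obtain ⟨p, hp, hyp⟩ := hI.cover _ (hb h1)
    refine mem_iUnion₂.2 ⟨p, ⟨⟨hp, ⟨_, hyp, h1⟩⟩, ?_⟩, hyp⟩
    have hmp : m < p.1 := by
      by_contra hcon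
      push Not at hcon
      have s1 : dyc v m Z ⊆ dyc v p.1 p.2 :=
        P073.Net.NC.dyc_sub (P073.Net.NC.fine_sub' hcon hyo hyp)
      have s2 : q' ≠ p := by
        rintro rfl
        omega
      have s3 := hI.disj q' hq' p hp s2
      have s4 : (fun j => v j + (q'.2 j + 1 / 2) / 2 ^ q'.1 : V) ∈ dyo v q'.1 q'.2 := by
        intro j
        have h0' : (0:ℝ) < 2 ^ q'.1 := by positivity
        have h2 : (q'.2 j : ℝ) / 2 ^ q'.1 < (q'.2 j + 1 / 2) / 2 ^ q'.1 := by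
          apply div_lt_div_of_pos_right _ h0'; linarith
        have h3 : ((q'.2 j : ℝ) + 1 / 2) / 2 ^ q'.1 < (q'.2 j + 1) / 2 ^ q'.1 := by
          apply div_lt_div_of_pos_right _ h0'; linarith
        constructor
        · show v j + (q'.2 j : ℝ) / 2 ^ q'.1 < v j + (q'.2 j + 1 / 2) / 2 ^ q'.1; linarith
        · show v j + ((q'.2 j : ℝ) + 1 / 2) / 2 ^ q'.1 < v j + (q'.2 j + 1) / 2 ^ q'.1; linarith
      exact disjoint_left.1 s3 s4 (s1 (hZ fun j => ⟨(s4 j).1.le, (s4 j).2.le⟩))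
    exact ⟨hmp, P073.Net.NC.dyc_sub (P073.Net.NC.fine_sub hmp.le hyo hyp)⟩
  have hxS := hclosed.mem_of_tendsto hlim hev
  obtain ⟨p, hp, hxp⟩ := mem_iUnion₂.1 hxS
  obtain ⟨w, hw1, hw2, hw3⟩ := exists_sub_edge hEZ hp.2.2 hx hxp
  exact ⟨((p.1, w), k), ⟨p, hp.1.1, hw1⟩, hp.2.1, hw2, hw3⟩

/-- every edge of the partition is a finite union of minimal edges -/
theorem exists_cover {Ω : Set V} {v : V} {I : Set Idx} (hΩ : IsOpen Ω) (hI : Part Ω v I)
    {e : Idx × Fin 3} (he : PEdge I e) :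
    ∃ S : Set (Idx × Fin 3), S.Finite ∧ (∀ e' ∈ S, Min v I e') ∧
      edge v e = ⋃ e' ∈ S, edge v e' := by
  have hKΩ : edge v e ⊆ Ω := by
    obtain ⟨q, hq, heq⟩ := he
    exact (edge_subset_dyc heq).trans (hI.sub q hq)
  have hfin := finite_edges hI hKΩ (isCompact_edge v e)
  obtain ⟨N, hN⟩ : ∃ N, ∀ e', PEdge I e' → edge v e' ⊆ edge v e → e'.1.1 ≤ N := by
    obtain ⟨N, hN⟩ := (hfin.image fun e' => e'.1.1).bddAbove
    refine ⟨N, fun e' h1 h2 => hN ⟨e', ⟨h1, ?_⟩, rfl⟩⟩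
    obtain ⟨y, hy⟩ := edge_nonempty v e'
    exact ⟨y, hy, h2 hy⟩
  have key : ∀ d : ℕ, ∀ e', PEdge I e' → edge v e' ⊆ edge v e → N ≤ e'.1.1 + d →
      ∃ S : Set (Idx × Fin 3), S.Finite ∧ (∀ e'' ∈ S, Min v I e'') ∧
        edge v e' = ⋃ e'' ∈ S, edge v e'' := by
    intro d
    induction d with
    | zero =>
      intro e' h1 h2 h3
      refine ⟨{e'}, finite_singleton _, ?_, by simp⟩
      rintro _ rfl
      refine ⟨h1, fun e'' h4 h5 h6 => ?_⟩
      have := hN e'' h4 (h6.trans h2)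
      omega
    | succ d ih =>
      intro e' h1 h2 h3
      by_cases hm : Min v I e'
      · refine ⟨{e'}, finite_singleton _, ?_, by simp⟩
        rintro _ rfl
        exact hm
      · set D : Set (Idx × Fin 3) := {e'' | PEdge I e'' ∧ e'.1.1 < e''.1.1 ∧
          edge v e'' ⊆ edge v e'} with hD
        have hDfin : D.Finite := by
          refine hfin.subset ?_
          rintro e'' ⟨h4, -, h5⟩
          obtain ⟨y, hy⟩ := edge_nonempty v e''
          exact ⟨h4, y, hy, h2 (h5 hy)⟩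
        have h4 : ∀ e'' ∈ D, ∃ S : Set (Idx × Fin 3), S.Finite ∧ (∀ e'' ∈ S, Min v I e'') ∧
            edge v e'' = ⋃ e'' ∈ S, edge v e'' := by
          rintro e'' ⟨h5, h6, h7⟩
          exact ih e'' h5 (h7.trans h2) (by omega)
        choose! S hS1 hS2 hS3 using h4
        refine ⟨⋃ e'' ∈ D, S e'', hDfin.biUnion hS1, ?_, ?_⟩
        · intro e'' he''
          obtain ⟨e3, h5, h6⟩ := mem_iUnion₂.1 he''
          exact hS2 e3 h5 e'' h6
        · apply Subset.antisymm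
          · intro x hx
            obtain ⟨e'', h5, h6, h7, h8⟩ := exists_finer hΩ hI h1 hm hx
            have h9 : e'' ∈ D := ⟨h5, h6, h8⟩
            rw [hS3 e'' h9] at h7
            obtain ⟨e3, h10, h11⟩ := mem_iUnion₂.1 h7
            exact mem_iUnion₂.2 ⟨e3, mem_iUnion₂.2 ⟨e'', h9, h10⟩, h11⟩
          · intro x hx
            obtain ⟨e3, h5, h6⟩ := mem_iUnion₂.1 hx
            obtain ⟨e'', h7, h8⟩ := mem_iUnion₂.1 h5
            apply h7.2.2
            rw [hS3 e'' h7]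
            exact mem_iUnion₂.2 ⟨e3, h8, h6⟩
  exact key N e he (le_refl _) (by omega)

/-- a minimal edge has no other minimal edge through its inner points -/
theorem not_inner {Ω : Set V} {v : V} {I : Set Idx} (_hI : Part Ω v I)
    {e e' : Idx × Fin 3} (he : Min v I e) (he' : Min v I e') (hne : e ≠ e') {x : V}
    (hx : x ∈ edge v e) (hx' : x ∈ edge v e') :
    ¬ (v e.2 + e.1.2 e.2 / 2 ^ e.1.1 < x e.2 ∧ x e.2 < v e.2 + (e.1.2 e.2 + 1) / 2 ^ e.1.1) := by
  rintro ⟨h1, h2⟩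
  obtain ⟨⟨m, z⟩, k⟩ := e
  obtain ⟨⟨m', z'⟩, k'⟩ := e'
  have h0 : (0:ℝ) < 2 ^ m := by positivity
  have h0' : (0:ℝ) < 2 ^ m' := by positivity
  have h1' : v k + (z k : ℝ) / 2 ^ m < x k := h1
  have h2' : x k < v k + ((z k : ℝ) + 1) / 2 ^ m := h2
  rcases lt_or_ge m m' with hlt | hge
  · obtain ⟨q, hq, heq⟩ := he'.1
    have hm' : m' = q.1 := heq.1
    have hxq : x ∈ dyc v q.1 q.2 := edge_subset_dyc heq hx'
    obtain ⟨Z, hZ⟩ := exists_ancestor' v (show m ≤ q.1 by omega) q.2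
    have hEZ := edgeOf_of_mem hx h1 h2 (hZ hxq)
    obtain ⟨w, hw1, -, hw3⟩ := exists_sub_edge hEZ hZ hx hxq
    exact he.2 ((q.1, w), k) ⟨q, hq, hw1⟩ (show m < q.1 by omega) hw3
  · -- `e'` is coarser or of the same generation
    have hx1 := mem_edge.1 hx
    have hx2 := mem_edge.1 hx'
    have hk : k' = k := by
      by_contra hkk
      have a : x k = v k + (z' k : ℝ) / 2 ^ m' := hx2.1 k (Ne.symm hkk)
      have b : (z' k : ℝ) / 2 ^ m' < ((z k : ℝ) + 1) / 2 ^ m := by linarith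
      have := P073.Net.NC.dyB hge b
      linarith
    subst hk
    have c1 : v k' + (z' k' : ℝ) / 2 ^ m' ≤ x k' := hx2.2.1
    have c2 : x k' ≤ v k' + ((z' k' : ℝ) + 1) / 2 ^ m' := hx2.2.2
    have d1 : (z' k' : ℝ) / 2 ^ m' ≤ (z k' : ℝ) / 2 ^ m :=
      P073.Net.NC.dyB hge (by linarith)
    have d2 : ((z k' : ℝ) + 1) / 2 ^ m ≤ ((z' k' : ℝ) + 1) / 2 ^ m' := by
      have := P073.Net.NC.dyA (a := z' k' + 1) (b := z k') hge (by push_cast; linarith)
      push_cast at this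
      exact this
    have hsub : edge v ((m, z), k') ⊆ edge v ((m', z'), k') := by
      intro y hy
      have hy1 := mem_edge.1 hy
      rw [mem_edge]
      refine ⟨fun j hj => ?_, ?_, ?_⟩
      · have e1 : y j = v j + (z j : ℝ) / 2 ^ m := hy1.1 j hj
        have e2 : x j = v j + (z j : ℝ) / 2 ^ m := hx1.1 j hj
        have e3 : x j = v j + (z' j : ℝ) / 2 ^ m' := hx2.1 j hj
        show y j = v j + (z' j : ℝ) / 2 ^ m'
        rw [e1, ← e2, e3]
      · have e1 : v k' + (z k' : ℝ) / 2 ^ m ≤ y k' := hy1.2.1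
        show v k' + (z' k' : ℝ) / 2 ^ m' ≤ y k'
        linarith
      · have e1 : y k' ≤ v k' + ((z k' : ℝ) + 1) / 2 ^ m := hy1.2.2
        show y k' ≤ v k' + ((z' k' : ℝ) + 1) / 2 ^ m'
        linarith
    rcases eq_or_lt_of_le hge with hm | hm
    · subst hm
      apply hne
      have hz : z = z' := by
        funext j
        by_cases hj : j = k'
        · subst hj
          rw [div_le_div_iff_of_pos_right h0] at d1 d2
          have d1' : z' j ≤ z j := by exact_mod_cast d1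
          have d2' : z j + 1 ≤ z' j + 1 := by exact_mod_cast d2
          omega
        · have e2 : x j = v j + (z j : ℝ) / 2 ^ m' := hx1.1 j hj
          have e3 : x j = v j + (z' j : ℝ) / 2 ^ m' := hx2.1 j hj
          have e4 : (z j : ℝ) / 2 ^ m' = z' j / 2 ^ m' := by linarith
          rw [div_left_inj' h0'.ne'] at e4
          exact_mod_cast e4
      rw [hz]
    · exact he'.2 _ he.1 hm hsub

theorem end_of_not_inner {v : V} {e : Idx × Fin 3} {x : V} (hx : x ∈ edge v e)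
    (h : ¬ (v e.2 + e.1.2 e.2 / 2 ^ e.1.1 < x e.2 ∧
      x e.2 < v e.2 + (e.1.2 e.2 + 1) / 2 ^ e.1.1)) :
    x = pt v e.1.1 e.1.2 ∨ x = pt v e.1.1 e.1.2 + (1 / 2 ^ e.1.1 : ℝ) • ev e.2 := by
  obtain ⟨h1, h2, h3⟩ := mem_edge.1 hx
  rcases eq_or_lt_of_le h2 with h4 | h4
  · left
    funext j
    by_cases hj : j = e.2
    · subst hj; exact h4.symm
    · exact h1 j hj
  · right
    have h5 : x e.2 = v e.2 + (e.1.2 e.2 + 1) / 2 ^ e.1.1 := by
      by_contra hne
      exact h ⟨h4, lt_of_le_of_ne h3 hne⟩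
    funext j
    by_cases hj : j = e.2
    · subst hj
      rw [h5]
      simp only [pt, ev, Pi.add_apply, Pi.smul_apply, Pi.single_eq_same, smul_eq_mul, mul_one]
      rw [add_div]; ring
    · rw [h1 j hj]
      simp [pt, ev, hj]

end Gr

/-- **(AB3)** -/
theorem specGraph : SpecGraph := by
  classical
  intro Ω v I hΩ hI
  let ι := {e : Idx × Fin 3 // Gr.Min v I e}
  let G : P073.Net.Graph Ω :=
    { ι := ι
      a := fun e => pt v e.1.1.1 e.1.1.2
      b := fun e => pt v e.1.1.1 e.1.1.2 + (1 / 2 ^ e.1.1.1 : ℝ) • ev e.1.2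
      ne := by
        intro e h
        have h1 := congrFun h e.1.2
        simp only [ev, Pi.add_apply, Pi.smul_apply, Pi.single_eq_same, smul_eq_mul,
          mul_one] at h1
        have : (0:ℝ) < 1 / 2 ^ e.1.1.1 := by positivity
        linarith
      sub := by
        intro e
        obtain ⟨q, hq, heq⟩ := e.2.1
        exact (Gr.edge_subset_dyc heq).trans (hI.sub q hq)
      fin := by
        intro K hK hKc
        have h1 := Gr.finite_edges hI hK hKc
        have h2 : (Subtype.val ⁻¹' {e | Gr.PEdge I e ∧ (edge v e ∩ K).Nonempty} :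
            Set ι).Finite := h1.preimage Subtype.val_injective.injOn
        exact h2.subset fun e he => ⟨e.2.1, he⟩
      meet := by
        intro e e' hne x hx
        have hne' : e.1 ≠ e'.1 := fun h => hne (Subtype.ext h)
        exact ⟨Gr.end_of_not_inner hx.1 (Gr.not_inner hI e.2 e'.2 hne' hx.1 hx.2),
          Gr.end_of_not_inner hx.2 (Gr.not_inner hI e'.2 e.2 hne'.symm hx.2 hx.1)⟩ }
  refine ⟨G, fun e : ι => e.1, Subtype.val_injective, ?_, fun i => ⟨rfl, rfl⟩, fun i => i.2.1, ?_⟩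
  · show Countable ι
    infer_instance
  · intro e he
    obtain ⟨S, hS, hmin, hcov⟩ := Gr.exists_cover hΩ hI he
    have h2 : (Subtype.val ⁻¹' S : Set ι).Finite := hS.preimage Subtype.val_injective.injOn
    refine ⟨h2.toFinset, ?_⟩
    rw [hcov]
    ext x
    simp only [mem_iUnion, exists_prop]
    constructor
    · rintro ⟨e', he', hx⟩
      exact ⟨⟨e', hmin e' he'⟩, h2.mem_toFinset.2 he', hx⟩
    · rintro ⟨e', he', hx⟩
      exact ⟨e'.1, h2.mem_toFinset.1 he', hx⟩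

end Vale.Agent.P073.AB
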