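import Vale.Agent.P073.AB.Spec
import Vale.Agent.P073.Net.NC

/-!
# Block AB, SpecPart: the cell structure of a dyadic partition
-/

namespace Vale.Agent.P073.AB

open MeasureTheory Set Filter Topology Metric Vale.Agent.P073.St
open Vale.Agent.P073.SQ (ev cube Cells)
open P073.Net (IsTile dyc dyo SizeFn)
open P073.Net.NC (dyA dyB fine_sub fine_sub' dyc_sub)
open scoped ContDiff ENNReal

namespace P86

/-! ### Dyadic cubes -/

theorem div_add_one (a : ℝ) (m : ℕ) : (a + 1) / 2 ^ m = a / 2 ^ m + 1 / 2 ^ m := add_div _ _ _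

theorem dyo_sub_dyc {v : V} {m : ℕ} {z : Fin 3 → ℤ} : dyo v m z ⊆ dyc v m z :=
  fun _ hx k => ⟨(hx k).1.le, (hx k).2.le⟩

/-- the centre of a dyadic cube -/
noncomputable def cen (v : V) (m : ℕ) (z : Fin 3 → ℤ) : V := fun k => v k + (z k + 1 / 2) / 2 ^ m

theorem seg_mem {v : V} {m : ℕ} {z : Fin 3 → ℤ} {x : V} (hx : x ∈ dyc v m z) {t : ℝ} (ht : 0 < t)
    (ht1 : t ≤ 1) : x + t • (cen v m z - x) ∈ dyo v m z := by
  intro k
  have h1 := hx k
  have hp : (0:ℝ) < 1 / 2 ^ m := by positivity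
  have h2 : cen v m z k = v k + z k / 2 ^ m + 1 / 2 * (1 / 2 ^ m) := by
    simp only [cen]; rw [add_div]; ring
  have h3 : ((z k : ℝ) + 1) / 2 ^ m = z k / 2 ^ m + 1 / 2 ^ m := add_div _ _ _
  simp only [Pi.add_apply, Pi.smul_apply, Pi.sub_apply, smul_eq_mul]
  rw [h2, h3]
  rw [h3] at h1
  have h4 : 0 < t * (1 / 2 ^ m : ℝ) := by positivity
  have h5 : 0 ≤ (1 - t) * (x k - (v k + z k / 2 ^ m)) :=
    mul_nonneg (by linarith) (by linarith [h1.1])
  have h6 : 0 ≤ (1 - t) * (v k + (z k / 2 ^ m + 1 / 2 ^ m) - x k) :=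
    mul_nonneg (by linarith) (by linarith [h1.2])
  constructor <;> nlinarith

theorem cen_mem (v : V) (m : ℕ) (z : Fin 3 → ℤ) : cen v m z ∈ dyo v m z := by
  intro k
  have hp : (0:ℝ) < 1 / 2 ^ m := by positivity
  have h2 : cen v m z k = v k + z k / 2 ^ m + 1 / 2 * (1 / 2 ^ m) := by
    simp only [cen]; rw [add_div]; ring
  rw [h2, div_add_one]
  constructor <;> linarith

theorem sub_ineq {v : V} {m m' : ℕ} {z z' : Fin 3 → ℤ} (h : dyc v m' z' ⊆ dyc v m z) :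
    ∀ k, (z k : ℝ) / 2 ^ m ≤ z' k / 2 ^ m' ∧ ((z' k : ℝ) + 1) / 2 ^ m' ≤ (z k + 1) / 2 ^ m := by
  intro k
  have hp : (0:ℝ) < 1 / 2 ^ m' := by positivity
  have h1 : (fun k => v k + z' k / 2 ^ m' : V) ∈ dyc v m' z' := fun j =>
    ⟨le_rfl, by rw [div_add_one]; linarith⟩
  have h2 : (fun k => v k + (z' k + 1) / 2 ^ m' : V) ∈ dyc v m' z' := fun j =>
    ⟨by show v j + z' j / 2 ^ m' ≤ v j + (z' j + 1) / 2 ^ m'; rw [div_add_one]; linarith, le_rfl⟩
  have h3 := (h h1 k).1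
  have h4 := (h h2 k).2
  constructor <;> linarith

theorem gen_le {v : V} {m m' : ℕ} {z z' : Fin 3 → ℤ} (h : dyc v m' z' ⊆ dyc v m z) : m ≤ m' := by
  have h1 := sub_ineq h 0
  rw [div_add_one, div_add_one] at h1
  have h2 : (1:ℝ) / 2 ^ m' ≤ 1 / 2 ^ m := by linarith [h1.1, h1.2]
  rw [one_div_le_one_div (by positivity) (by positivity)] at h2
  exact (pow_le_pow_iff_right₀ (by norm_num)).1 h2

theorem eq_of_sub_same {v : V} {m : ℕ} {z z' : Fin 3 → ℤ} (h : dyc v m z' ⊆ dyc v m z) :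
    z' = z := by
  funext k
  have h1 := sub_ineq h k
  have h3 : (0:ℝ) < 2 ^ m := by positivity
  have h4 : (z k : ℝ) ≤ z' k := (div_le_div_iff_of_pos_right h3).1 h1.1
  have h5 : (z' k : ℝ) + 1 ≤ z k + 1 := (div_le_div_iff_of_pos_right h3).1 h1.2
  have h4' : z k ≤ z' k := by exact_mod_cast h4
  have h5' : z' k + 1 ≤ z k + 1 := by exact_mod_cast h5
  omega

theorem isCompact_dyc (v : V) (m : ℕ) (z : Fin 3 → ℤ) : IsCompact (dyc v m z) := by
  have : dyc v m z = Set.pi univ (fun k => Icc (v k + z k / 2 ^ m) (v k + (z k + 1) / 2 ^ m)) := by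
    ext x; exact ⟨fun h k _ => h k, fun h k => h k (mem_univ k)⟩
  rw [this]
  exact isCompact_univ_pi (fun _ => isCompact_Icc)

section

variable {Ω : Set V} {v : V} {I : Set Idx}

theorem eq_of_mem (hI : Part Ω v I) {q q' : Idx} (hq : q ∈ I) (hq' : q' ∈ I) {x : V}
    (hx : x ∈ dyo v q.1 q.2) (hx' : x ∈ dyc v q'.1 q'.2) : q = q' := by
  by_contra hne
  exact Set.disjoint_left.1 (hI.disj q hq q' hq' hne) hx hx'

theorem eq_of_sub (hI : Part Ω v I) {q q' : Idx} (hq : q ∈ I) (hq' : q' ∈ I)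
    (h : dyc v q.1 q.2 ⊆ dyc v q'.1 q'.2) : q = q' :=
  eq_of_mem hI hq hq' (cen_mem v q.1 q.2) (h (dyo_sub_dyc (cen_mem v q.1 q.2)))

/-- near `x` there are only cubes which contain `x` -/
theorem near (hΩ : IsOpen Ω) (hI : Part Ω v I) {x : V} (hx : x ∈ Ω) :
    ∃ N ∈ 𝓝 x, N ⊆ Ω ∧ ∀ q ∈ I, (dyc v q.1 q.2 ∩ N).Nonempty → x ∈ dyc v q.1 q.2 := by
  obtain ⟨K, hK, hKΩ, hKc⟩ := local_compact_nhds (hΩ.mem_nhds hx)
  have h1 : ∀ᶠ y in 𝓝 x, ∀ q ∈ {q | q ∈ I ∧ (dyc v q.1 q.2 ∩ K).Nonempty},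
      y ∈ dyc v q.1 q.2 → x ∈ dyc v q.1 q.2 := by
    rw [eventually_all_finite (hI.fin K hKΩ hKc)]
    intro q _
    by_cases hq : x ∈ dyc v q.1 q.2
    · exact Eventually.of_forall (fun _ _ => hq)
    · filter_upwards [(isCompact_dyc v q.1 q.2).isClosed.isOpen_compl.mem_nhds hq] with y hy hy'
      exact absurd hy' hy
  refine ⟨K ∩ _, inter_mem hK h1, inter_subset_left.trans hKΩ, ?_⟩
  rintro q hq ⟨y, hy, hyK, hy1⟩
  exact hy1 q ⟨hq, y, hy, hyK⟩ hy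

/-- if `x` lies in the dyadic cube `(m, z)` then there is a cube of the partition containing `x`
which overlaps `(m, z)` -/
theorem cross (hΩ : IsOpen Ω) (hI : Part Ω v I) {x : V} (hx : x ∈ Ω) {m : ℕ} {z : Fin 3 → ℤ}
    (hxz : x ∈ dyc v m z) : ∃ q ∈ I, x ∈ dyc v q.1 q.2 ∧ ∃ y ∈ dyo v m z, y ∈ dyc v q.1 q.2 := by
  obtain ⟨N, hN, hNΩ, hN'⟩ := near hΩ hI hx
  have h1 : Tendsto (fun t : ℝ => x + t • (cen v m z - x)) (𝓝[>] 0) (𝓝 x) := by
    have : ContinuousAt (fun t : ℝ => x + t • (cen v m z - x)) 0 := by fun_prop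
    have h2 := this.tendsto
    simp only [zero_smul, add_zero] at h2
    exact h2.mono_left nhdsWithin_le_nhds
  have h2 : ∀ᶠ t in 𝓝[>] (0:ℝ), x + t • (cen v m z - x) ∈ N := h1.eventually hN
  have h3 : ∀ᶠ t in 𝓝[>] (0:ℝ), t ∈ Ioc (0:ℝ) 1 := Ioc_mem_nhdsGT (by norm_num)
  obtain ⟨t, ht, ht'⟩ := (h2.and h3).exists
  obtain ⟨q, hq, hyq⟩ := hI.cover _ (hNΩ ht)
  exact ⟨q, hq, hN' q hq ⟨_, hyq, ht⟩, _, seg_mem hxz ht'.1 ht'.2, hyq⟩

/-! ### Squares -/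

/-- the cube below the square -/
def lo (s : Idx × Fin 3) : Fin 3 → ℤ := Function.update s.1.2 s.2 (s.1.2 s.2 - 1)

theorem lo_same (s : Idx × Fin 3) : lo s s.2 = s.1.2 s.2 - 1 := by simp [lo]

theorem lo_other (s : Idx × Fin 3) {j : Fin 3} (hj : j ≠ s.2) : lo s j = s.1.2 j := by
  simp [lo, hj]

theorem faceOf_iff {s : Idx × Fin 3} {q : Idx} :
    FaceOf s q ↔ q = (s.1.1, s.1.2) ∨ q = (s.1.1, lo s) := by
  constructor
  · rintro ⟨h1, h2 | h2, h3⟩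
    · left
      refine Prod.ext h1.symm ?_
      funext j
      by_cases hj : j = s.2
      · rw [hj]; exact h2.symm
      · exact (h3 j hj).symm
    · right
      refine Prod.ext h1.symm ?_
      funext j
      by_cases hj : j = s.2
      · rw [hj]
        show q.2 s.2 = lo s s.2
        rw [lo_same]; omega
      · show q.2 j = lo s j
        rw [lo_other s hj]; exact (h3 j hj).symm
  · rintro (rfl | rfl)
    · exact ⟨rfl, Or.inl rfl, fun _ _ => rfl⟩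
    · refine ⟨rfl, Or.inr ?_, fun j hj => ?_⟩
      · show s.1.2 s.2 = lo s s.2 + 1
        rw [lo_same]; omega
      · show s.1.2 j = lo s j
        rw [lo_other s hj]

theorem squ_sub_hi {s : Idx × Fin 3} : squ v s ⊆ dyc v s.1.1 s.1.2 := by
  rintro x ⟨h1, h2⟩ k
  by_cases hk : k = s.2
  · subst hk
    have hp : (0:ℝ) < 1 / 2 ^ s.1.1 := by positivity
    rw [h1, div_add_one]
    constructor <;> linarith
  · exact h2 k hk

theorem squ_sub_lo {s : Idx × Fin 3} : squ v s ⊆ dyc v s.1.1 (lo s) := by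
  rintro x ⟨h1, h2⟩ k
  by_cases hk : k = s.2
  · subst hk
    have hp : (0:ℝ) < 1 / 2 ^ s.1.1 := by positivity
    rw [h1, lo_same]
    have h3 : ((s.1.2 s.2 - 1 : ℤ) : ℝ) / 2 ^ s.1.1 = s.1.2 s.2 / 2 ^ s.1.1 - 1 / 2 ^ s.1.1 := by
      push_cast; rw [sub_div]
    have h4 : (((s.1.2 s.2 - 1 : ℤ) : ℝ) + 1) / 2 ^ s.1.1 = s.1.2 s.2 / 2 ^ s.1.1 := by
      push_cast; rw [sub_add_cancel]
    rw [h3, h4]
    constructor <;> linarith
  · rw [lo_other s hk]; exact h2 k hk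

/-- the centre of a square -/
noncomputable def sc (v : V) (s : Idx × Fin 3) : V := fun k =>
  if k = s.2 then v k + s.1.2 k / 2 ^ s.1.1 else v k + (s.1.2 k + 1 / 2) / 2 ^ s.1.1

/-- the relative interior of a square -/
def rel (v : V) (s : Idx × Fin 3) : Set V :=
  {x | x s.2 = v s.2 + s.1.2 s.2 / 2 ^ s.1.1 ∧ ∀ k, k ≠ s.2 →
    v k + s.1.2 k / 2 ^ s.1.1 < x k ∧ x k < v k + (s.1.2 k + 1) / 2 ^ s.1.1}

theorem rel_sub {s : Idx × Fin 3} : rel v s ⊆ squ v s :=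
  fun _ hx => ⟨hx.1, fun k hk => ⟨(hx.2 k hk).1.le, (hx.2 k hk).2.le⟩⟩

theorem sc_mem {s : Idx × Fin 3} : sc v s ∈ rel v s := by
  refine ⟨by simp [sc], fun k hk => ?_⟩
  have hp : (0:ℝ) < 1 / 2 ^ s.1.1 := by positivity
  have h2 : sc v s k = v k + s.1.2 k / 2 ^ s.1.1 + 1 / 2 * (1 / 2 ^ s.1.1) := by
    simp only [sc, if_neg hk]; rw [add_div]; ring
  rw [h2, div_add_one]
  constructor <;> linarith

/-- the two cubes of the partition on the two sides of a square -/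
structure Two (v : V) (I : Set Idx) (s : Idx × Fin 3) (qp qm : Idx) : Prop where
  memp : qp ∈ I
  memm : qm ∈ I
  subp : dyc v s.1.1 s.1.2 ⊆ dyc v qp.1 qp.2
  subm : dyc v s.1.1 (lo s) ⊆ dyc v qm.1 qm.2

theorem two_of_minSq (hΩ : IsOpen Ω) (hI : Part Ω v I) {s : Idx × Fin 3} (hs : MinSq v I s) :
    ∃ qp qm, Two v I s qp qm := by
  obtain ⟨⟨q0, hq0, hf⟩, hmin⟩ := hs
  have hx0 : sc v s ∈ squ v s := rel_sub sc_mem
  rcases faceOf_iff.1 hf with rfl | rfl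
  · have hxΩ : sc v s ∈ Ω := hI.sub _ hq0 (squ_sub_hi hx0)
    obtain ⟨q, hq, hxq, y, hy, hyq⟩ := cross hΩ hI hxΩ (squ_sub_lo hx0)
    refine ⟨_, q, hq0, hq, Subset.rfl, ?_⟩
    rcases le_or_gt q.1 s.1.1 with hle | hgt
    · exact dyc_sub (fine_sub' hle hy hyq)
    · exfalso
      have h1 := fine_sub hgt.le hy hyq
      refine hmin ((q.1, Function.update q.2 s.2 (q.2 s.2 + 1)), s.2)
        ⟨q, hq, rfl, Or.inr (by simp), fun j hj => by simp [show j ≠ s.2 from hj]⟩ hgt rfl ?_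
      have h2 := h1 s.2
      rw [lo_same] at h2
      have h3 := (hxq s.2).2
      rw [hx0.1] at h3
      have h4 : (((s.1.2 s.2 - 1 : ℤ) : ℝ) + 1) / 2 ^ s.1.1 = s.1.2 s.2 / 2 ^ s.1.1 := by
        push_cast; rw [sub_add_cancel]
      rw [h4] at h2
      rintro x ⟨hx1, hx2⟩
      simp only [Function.update_self] at hx1
      refine ⟨?_, fun k hk => ?_⟩
      · rw [hx1]; push_cast; linarith [h2.2]
      · have h5 := hx2 k hk
        simp only [Function.update_of_ne hk] at h5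
        have h6 := h1 k
        rw [lo_other s hk] at h6
        constructor <;> linarith [h5.1, h5.2, h6.1, h6.2]
  · have hxΩ : sc v s ∈ Ω := hI.sub _ hq0 (squ_sub_lo hx0)
    obtain ⟨q, hq, hxq, y, hy, hyq⟩ := cross hΩ hI hxΩ (squ_sub_hi hx0)
    refine ⟨q, _, hq, hq0, ?_, Subset.rfl⟩
    rcases le_or_gt q.1 s.1.1 with hle | hgt
    · exact dyc_sub (fine_sub' hle hy hyq)
    · exfalso
      have h1 := fine_sub hgt.le hy hyq
      refine hmin (q, s.2) ⟨q, hq, rfl, Or.inl rfl, fun j hj => rfl⟩ hgt rfl ?_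
      have h2 := h1 s.2
      have h3 := (hxq s.2).1
      rw [hx0.1] at h3
      rintro x ⟨hx1, hx2⟩
      simp only at hx1
      refine ⟨?_, fun k hk => ?_⟩
      · rw [hx1]; linarith [h2.1]
      · have h5 := hx2 k hk
        have h6 := h1 k
        constructor <;> linarith [h5.1, h5.2, h6.1, h6.2]

/-- inclusions of squares -/
theorem squ_ineq {s s' : Idx × Fin 3} (hk : s'.2 = s.2) (h : squ v s' ⊆ squ v s) :
    (s'.1.2 s.2 : ℝ) / 2 ^ s'.1.1 = s.1.2 s.2 / 2 ^ s.1.1 ∧ ∀ k, k ≠ s.2 →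
      (s.1.2 k : ℝ) / 2 ^ s.1.1 ≤ s'.1.2 k / 2 ^ s'.1.1 ∧
      ((s'.1.2 k : ℝ) + 1) / 2 ^ s'.1.1 ≤ (s.1.2 k + 1) / 2 ^ s.1.1 := by
  have hp : (0:ℝ) < 1 / 2 ^ s'.1.1 := by positivity
  have h1 : (fun k => v k + s'.1.2 k / 2 ^ s'.1.1 : V) ∈ squ v s' :=
    ⟨rfl, fun j _ => ⟨le_rfl, by rw [div_add_one]; linarith⟩⟩
  have h2 : (fun k => if k = s'.2 then v k + s'.1.2 k / 2 ^ s'.1.1 else
      v k + (s'.1.2 k + 1) / 2 ^ s'.1.1 : V) ∈ squ v s' := by
    refine ⟨by simp, fun j hj => ?_⟩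
    simp only [if_neg hj]
    exact ⟨by rw [div_add_one]; linarith, le_rfl⟩
  obtain ⟨h3, h4⟩ := h h1
  obtain ⟨h5, h6⟩ := h h2
  refine ⟨by linarith, fun k hk' => ?_⟩
  have h7 := (h4 k hk').1
  have h8 := (h6 k hk').2
  have h9 : k ≠ s'.2 := by rw [hk]; exact hk'
  simp only [if_neg h9] at h8
  constructor <;> linarith

theorem minSq_of_two (hI : Part Ω v I) {s : Idx × Fin 3} {qp qm : Idx} (h : Two v I s qp qm)
    (hface : ∃ q ∈ I, FaceOf s q) : MinSq v I s := by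
  refine ⟨hface, ?_⟩
  rintro s' ⟨q, hq, hf⟩ hgt hk hsub
  obtain ⟨h1, h2⟩ := squ_ineq hk hsub
  rcases faceOf_iff.1 hf with rfl | rfl
  · -- above
    have h3 : dyc v s'.1.1 s'.1.2 ⊆ dyc v s.1.1 s.1.2 := by
      apply dyc_sub
      intro k
      by_cases hk' : k = s.2
      · subst hk'
        refine ⟨h1.ge, ?_⟩
        rw [div_add_one, div_add_one, h1]
        have : (1:ℝ) / 2 ^ s'.1.1 ≤ 1 / 2 ^ s.1.1 := by
          rw [one_div_le_one_div (by positivity) (by positivity)]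
          exact pow_le_pow_right₀ (by norm_num) hgt.le
        linarith
      · exact h2 k hk'
    have h4 := eq_of_sub hI hq h.memp (h3.trans h.subp)
    have h5 := gen_le h.subp
    rw [← h4] at h5
    exact absurd hgt (not_lt.2 h5)
  · have h3 : dyc v s'.1.1 (lo s') ⊆ dyc v s.1.1 (lo s) := by
      apply dyc_sub
      intro k
      by_cases hk' : k = s.2
      · subst hk'
        have e1 : lo s' s.2 = s'.1.2 s.2 - 1 := by rw [← hk, lo_same]
        rw [lo_same, e1]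
        have e2 : (((s'.1.2 s.2 - 1 : ℤ) : ℝ) + 1) / 2 ^ s'.1.1 = s'.1.2 s.2 / 2 ^ s'.1.1 := by
          push_cast; rw [sub_add_cancel]
        have e3 : (((s.1.2 s.2 - 1 : ℤ) : ℝ) + 1) / 2 ^ s.1.1 = s.1.2 s.2 / 2 ^ s.1.1 := by
          push_cast; rw [sub_add_cancel]
        rw [e2, e3]
        refine ⟨?_, h1.le⟩
        push_cast
        rw [sub_div, sub_div, h1]
        have : (1:ℝ) / 2 ^ s'.1.1 ≤ 1 / 2 ^ s.1.1 := by
          rw [one_div_le_one_div (by positivity) (by positivity)]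
          exact pow_le_pow_right₀ (by norm_num) hgt.le
        linarith
      · have hk'' : k ≠ s'.2 := by rw [hk]; exact hk'
        rw [lo_other s hk', lo_other s' hk'']; exact h2 k hk'
    have h4 := eq_of_sub hI hq h.memm (h3.trans h.subm)
    have h5 := gen_le h.subm
    rw [← h4] at h5
    exact absurd hgt (not_lt.2 h5)

/-- a cube of the partition which contains a point of the relative interior of a two-sided square
is one of the two cubes -/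
theorem rel_mem (hI : Part Ω v I) {s : Idx × Fin 3} {qp qm : Idx} (h : Two v I s qp qm) {x : V}
    (hx : x ∈ rel v s) {r : Idx} (hr : r ∈ I) (hxr : x ∈ dyc v r.1 r.2) : r = qp ∨ r = qm := by
  have h1 : ∀ᶠ t in 𝓝[>] (0:ℝ), ∀ k, (k ≠ s.2 →
      v k + s.1.2 k / 2 ^ s.1.1 < (x + t • (cen v r.1 r.2 - x)) k ∧
      (x + t • (cen v r.1 r.2 - x)) k < v k + (s.1.2 k + 1) / 2 ^ s.1.1) ∧
      |(x + t • (cen v r.1 r.2 - x)) k - x k| < 1 / 2 ^ s.1.1 := by
    rw [eventually_all]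
    intro k
    have hc : ContinuousAt (fun t : ℝ => (x + t • (cen v r.1 r.2 - x)) k) 0 := by
      simp only [Pi.add_apply, Pi.smul_apply, Pi.sub_apply]; fun_prop
    have h0 : (x + (0:ℝ) • (cen v r.1 r.2 - x)) k = x k := by simp
    have e1 : ∀ᶠ t in 𝓝[>] (0:ℝ), |(x + t • (cen v r.1 r.2 - x)) k - x k| < 1 / 2 ^ s.1.1 := by
      have hc' : ContinuousAt (fun t : ℝ => |(x + t • (cen v r.1 r.2 - x)) k - x k|) 0 :=
        (hc.sub continuousAt_const).abs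
      refine (hc'.eventually (gt_mem_nhds ?_)).filter_mono nhdsWithin_le_nhds
      show |(x + (0:ℝ) • (cen v r.1 r.2 - x)) k - x k| < 1 / 2 ^ s.1.1
      rw [h0, sub_self, abs_zero]; positivity
    by_cases hk : k = s.2
    · filter_upwards [e1] with t ht
      exact ⟨fun h => absurd hk h, ht⟩
    · obtain ⟨h2, h3⟩ := hx.2 k hk
      have e2 := (hc.eventually (lt_mem_nhds
        (show v k + s.1.2 k / 2 ^ s.1.1 < (x + (0:ℝ) • (cen v r.1 r.2 - x)) k by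
          rw [h0]; exact h2))).filter_mono (nhdsWithin_le_nhds (s := Ioi 0))
      have e3 := (hc.eventually (gt_mem_nhds
        (show (x + (0:ℝ) • (cen v r.1 r.2 - x)) k < v k + (s.1.2 k + 1) / 2 ^ s.1.1 by
          rw [h0]; exact h3))).filter_mono (nhdsWithin_le_nhds (s := Ioi 0))
      filter_upwards [e1, e2, e3] with t ht1 ht2 ht3
      exact ⟨fun _ => ⟨ht2, ht3⟩, ht1⟩
  have h2 : ∀ᶠ t in 𝓝[>] (0:ℝ), t ∈ Ioc (0:ℝ) 1 := Ioc_mem_nhdsGT (by norm_num)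
  obtain ⟨t, ht, ht'⟩ := (h1.and h2).exists
  set y := x + t • (cen v r.1 r.2 - x) with hy
  have hyr : y ∈ dyo v r.1 r.2 := seg_mem hxr ht'.1 ht'.2
  have hyk := abs_lt.1 (ht s.2).2
  rw [hx.1] at hyk
  rcases le_total (v s.2 + s.1.2 s.2 / 2 ^ s.1.1) (y s.2) with hle | hle
  · left
    apply eq_of_mem hI hr h.memp hyr (h.subp _)
    intro k
    by_cases hk : k = s.2
    · subst hk
      rw [div_add_one]
      exact ⟨hle, by linarith [hyk.2]⟩
    · have := (ht k).1 hk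
      exact ⟨this.1.le, this.2.le⟩
  · right
    apply eq_of_mem hI hr h.memm hyr (h.subm _)
    intro k
    by_cases hk : k = s.2
    · subst hk
      rw [lo_same]
      have h3 : ((s.1.2 s.2 - 1 : ℤ) : ℝ) / 2 ^ s.1.1 = s.1.2 s.2 / 2 ^ s.1.1 - 1 / 2 ^ s.1.1 := by
        push_cast; rw [sub_div]
      have h4 : (((s.1.2 s.2 - 1 : ℤ) : ℝ) + 1) / 2 ^ s.1.1 = s.1.2 s.2 / 2 ^ s.1.1 := by
        push_cast; rw [sub_add_cancel]
      rw [h3, h4]
      exact ⟨by linarith [hyk.1], hle⟩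
    · rw [lo_other s hk]
      have := (ht k).1 hk
      exact ⟨this.1.le, this.2.le⟩


theorem cover_hi (hΩ : IsOpen Ω) (hI : Part Ω v I) {s : Idx × Fin 3} {x : V}
    (hx : x ∈ squ v s) (hq : (s.1.1, s.1.2) ∈ I) :
    ∃ s', MinSq v I s' ∧ x ∈ squ v s' ∧ squ v s' ⊆ squ v s := by
  have hxΩ : x ∈ Ω := hI.sub _ hq (squ_sub_hi hx)
  obtain ⟨q, hqI, hxq, y, hy, hyq⟩ := cross hΩ hI hxΩ (squ_sub_lo hx)
  rcases le_or_gt q.1 s.1.1 with hle | hgt
  · exact ⟨s, minSq_of_two hI ⟨hq, hqI, Subset.rfl, dyc_sub (fine_sub' hle hy hyq)⟩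
      ⟨_, hq, faceOf_iff.2 (Or.inl rfl)⟩, hx, Subset.rfl⟩
  · have h1 := fine_sub hgt.le hy hyq
    set s' : Idx × Fin 3 := ((q.1, Function.update q.2 s.2 (q.2 s.2 + 1)), s.2) with hs'
    have hlo : lo s' = q.2 := by
      funext j
      by_cases hj : j = s.2
      · subst hj; simp [lo, hs']
      · simp [lo, hs', hj]
    have hself : s'.1.2 s.2 = q.2 s.2 + 1 := by simp [hs']
    have hother : ∀ k, k ≠ s.2 → s'.1.2 k = q.2 k := fun k hk => by simp [hs', hk]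
    have h2 := h1 s.2
    rw [lo_same] at h2
    have h4 : (((s.1.2 s.2 - 1 : ℤ) : ℝ) + 1) / 2 ^ s.1.1 = s.1.2 s.2 / 2 ^ s.1.1 := by
      push_cast; rw [sub_add_cancel]
    rw [h4] at h2
    have h3 := (hxq s.2).2
    rw [hx.1] at h3
    have heq : ((s'.1.2 s.2 : ℤ) : ℝ) / 2 ^ q.1 = s.1.2 s.2 / 2 ^ s.1.1 := by
      rw [hself]; push_cast; linarith [h2.2]
    refine ⟨s', ?_, ?_, ?_⟩
    · refine minSq_of_two hI (qp := (s.1.1, s.1.2)) (qm := q) ⟨hq, hqI, ?_, ?_⟩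
        ⟨q, hqI, faceOf_iff.2 (Or.inr ?_)⟩
      · apply dyc_sub
        intro k
        by_cases hk : k = s.2
        · subst hk
          show _ ≤ ((s'.1.2 s.2 : ℤ) : ℝ) / 2 ^ q.1 ∧ (((s'.1.2 s.2 : ℤ) : ℝ) + 1) / 2 ^ q.1 ≤ _
          refine ⟨heq.ge, ?_⟩
          rw [div_add_one, div_add_one, heq]
          have : (1:ℝ) / 2 ^ q.1 ≤ 1 / 2 ^ s.1.1 := by
            rw [one_div_le_one_div (by positivity) (by positivity)]
            exact pow_le_pow_right₀ (by norm_num) hgt.le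
          linarith
        · rw [hother k hk]
          have := h1 k
          rw [lo_other s hk] at this
          exact this
      · show dyc v q.1 (lo s') ⊆ _
        rw [hlo]
      · show q = (q.1, lo s')
        rw [hlo]
    · refine ⟨?_, fun k hk => ?_⟩
      · show x s.2 = v s.2 + ((s'.1.2 s.2 : ℤ) : ℝ) / 2 ^ q.1
        rw [heq]; exact hx.1
      · rw [hother k hk]; exact hxq k
    · rintro w ⟨hw1, hw2⟩
      refine ⟨?_, fun k hk => ?_⟩
      · have : w s.2 = v s.2 + ((s'.1.2 s.2 : ℤ) : ℝ) / 2 ^ q.1 := hw1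
        rw [this, heq]
      · have h5 := hw2 k hk
        rw [hother k hk] at h5
        have h6 := h1 k
        rw [lo_other s hk] at h6
        have h7 : (q.2 k : ℝ) / 2 ^ s'.1.1 = q.2 k / 2 ^ q.1 := rfl
        have h8 : ((q.2 k : ℝ) + 1) / 2 ^ s'.1.1 = (q.2 k + 1) / 2 ^ q.1 := rfl
        rw [h7, h8] at h5
        constructor <;> linarith [h5.1, h5.2, h6.1, h6.2]

theorem cover_lo (hΩ : IsOpen Ω) (hI : Part Ω v I) {s : Idx × Fin 3} {x : V}
    (hx : x ∈ squ v s) (hq : (s.1.1, lo s) ∈ I) :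
    ∃ s', MinSq v I s' ∧ x ∈ squ v s' ∧ squ v s' ⊆ squ v s := by
  have hxΩ : x ∈ Ω := hI.sub _ hq (squ_sub_lo hx)
  obtain ⟨q, hqI, hxq, y, hy, hyq⟩ := cross hΩ hI hxΩ (squ_sub_hi hx)
  rcases le_or_gt q.1 s.1.1 with hle | hgt
  · exact ⟨s, minSq_of_two hI ⟨hqI, hq, dyc_sub (fine_sub' hle hy hyq), Subset.rfl⟩
      ⟨_, hq, faceOf_iff.2 (Or.inr rfl)⟩, hx, Subset.rfl⟩
  · have h1 := fine_sub hgt.le hy hyq
    set s' : Idx × Fin 3 := (q, s.2) with hs'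
    have h2 := h1 s.2
    have h3 := (hxq s.2).1
    rw [hx.1] at h3
    have heq : (q.2 s.2 : ℝ) / 2 ^ q.1 = s.1.2 s.2 / 2 ^ s.1.1 := by linarith [h2.1]
    have hloc : lo s' s.2 = q.2 s.2 - 1 := lo_same s'
    have hloo : ∀ k, k ≠ s.2 → lo s' k = q.2 k := fun k hk => lo_other s' hk
    refine ⟨s', ?_, ?_, ?_⟩
    · refine minSq_of_two hI (qp := q) (qm := (s.1.1, lo s)) ⟨hqI, hq, Subset.rfl, ?_⟩
        ⟨q, hqI, faceOf_iff.2 (Or.inl rfl)⟩
      apply dyc_sub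
      intro k
      show ((lo s k : ℤ) : ℝ) / 2 ^ s.1.1 ≤ ((lo s' k : ℤ) : ℝ) / 2 ^ q.1 ∧
        (((lo s' k : ℤ) : ℝ) + 1) / 2 ^ q.1 ≤ (((lo s k : ℤ) : ℝ) + 1) / 2 ^ s.1.1
      by_cases hk : k = s.2
      · subst hk
        rw [hloc, lo_same]
        have e2 : (((q.2 s.2 - 1 : ℤ) : ℝ) + 1) / 2 ^ q.1 = q.2 s.2 / 2 ^ q.1 := by
          push_cast; rw [sub_add_cancel]
        have e3 : (((s.1.2 s.2 - 1 : ℤ) : ℝ) + 1) / 2 ^ s.1.1 = s.1.2 s.2 / 2 ^ s.1.1 := by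
          push_cast; rw [sub_add_cancel]
        rw [e2, e3]
        refine ⟨?_, heq.le⟩
        push_cast
        rw [sub_div, sub_div, heq]
        have : (1:ℝ) / 2 ^ q.1 ≤ 1 / 2 ^ s.1.1 := by
          rw [one_div_le_one_div (by positivity) (by positivity)]
          exact pow_le_pow_right₀ (by norm_num) hgt.le
        linarith
      · rw [hloo k hk, lo_other s hk]
        exact h1 k
    · exact ⟨by rw [hx.1, ← heq], fun k hk => hxq k⟩
    · rintro w ⟨hw1, hw2⟩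
      refine ⟨?_, fun k hk => ?_⟩
      · have : w s.2 = v s.2 + (q.2 s.2 : ℝ) / 2 ^ q.1 := hw1
        rw [this, heq]
      · have h5 := hw2 k hk
        have h6 := h1 k
        have h7 : (s'.1.2 k : ℝ) / 2 ^ s'.1.1 = q.2 k / 2 ^ q.1 := rfl
        have h8 : ((s'.1.2 k : ℝ) + 1) / 2 ^ s'.1.1 = (q.2 k + 1) / 2 ^ q.1 := rfl
        rw [h7, h8] at h5
        constructor <;> linarith [h5.1, h5.2, h6.1, h6.2]

/-- a point in the boundary of a cube of the partition is in a minimal square in this boundary -/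
theorem bd_cover (hΩ : IsOpen Ω) (hI : Part Ω v I) {q : Idx} (hq : q ∈ I) {x : V}
    (hx : x ∈ dyc v q.1 q.2) {l : Fin 3}
    (hl : x l = v l + q.2 l / 2 ^ q.1 ∨ x l = v l + (q.2 l + 1) / 2 ^ q.1) :
    ∃ s, MinSq v I s ∧ x ∈ squ v s ∧ squ v s ⊆ dyc v q.1 q.2 := by
  rcases hl with hl | hl
  · obtain ⟨s, h1, h2, h3⟩ := cover_hi hΩ hI (s := (q, l)) (x := x) ⟨hl, fun k _ => hx k⟩ hq
    exact ⟨s, h1, h2, h3.trans squ_sub_hi⟩
  · set s0 : Idx × Fin 3 := ((q.1, Function.update q.2 l (q.2 l + 1)), l) with hs0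
    have hlo : lo s0 = q.2 := by
      funext j
      by_cases hj : j = l
      · subst hj; simp [lo, hs0]
      · simp [lo, hs0, hj]
    have hxs : x ∈ squ v s0 := by
      refine ⟨?_, fun k hk => ?_⟩
      · show x l = v l + ((Function.update q.2 l (q.2 l + 1) l : ℤ) : ℝ) / 2 ^ q.1
        rw [Function.update_self, hl]; push_cast; rfl
      · have hk' : k ≠ l := hk
        have : s0.1.2 k = q.2 k := by simp [hs0, hk']
        rw [this]; exact hx k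
    obtain ⟨s, h1, h2, h3⟩ := cover_lo hΩ hI hxs (by show (q.1, lo s0) ∈ I; rw [hlo]; exact hq)
    refine ⟨s, h1, h2, h3.trans ?_⟩
    have := squ_sub_lo (v := v) (s := s0)
    rw [hlo] at this
    exact this

/-- two minimal squares -/
theorem sq_disj (hΩ : IsOpen Ω) (hI : Part Ω v I) {s s' : Idx × Fin 3} (hs : MinSq v I s)
    (hs' : MinSq v I s') {x : V} (hx : x ∈ rel v s) (hx' : x ∈ squ v s') : s = s' := by
  obtain ⟨qp, qm, htwo⟩ := two_of_minSq hΩ hI hs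
  obtain ⟨⟨q0, hq0, hf⟩, hmin⟩ := hs'
  have hxq0 : x ∈ dyc v q0.1 q0.2 := by
    rcases faceOf_iff.1 hf with rfl | rfl
    · exact squ_sub_hi hx'
    · exact squ_sub_lo hx'
  -- the square `s` lies in `q0`
  obtain ⟨zz, hzz, hsub⟩ : ∃ zz : Fin 3 → ℤ, (∀ j, j ≠ s.2 → zz j = s.1.2 j) ∧
      dyc v s.1.1 zz ⊆ dyc v q0.1 q0.2 := by
    rcases rel_mem hI htwo hx hq0 hxq0 with rfl | rfl
    · exact ⟨_, fun j _ => rfl, htwo.subp⟩
    · exact ⟨_, fun j hj => lo_other s hj, htwo.subm⟩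
  have h1 := sub_ineq hsub
  have hk : s'.2 = s.2 := by
    by_contra hk
    have h2 := hx.2 s'.2 hk
    have h3 := h1 s'.2
    rw [hzz _ hk] at h3
    rcases hf.2.1 with h4 | h4
    · have h5 := hx'.1
      rw [h4, hf.1] at h5
      linarith [h2.1, h3.1]
    · have h5 := hx'.1
      rw [h4, hf.1] at h5
      push_cast at h5
      linarith [h2.2, h3.2]
  have hplane : (s.1.2 s.2 : ℝ) / 2 ^ s.1.1 = s'.1.2 s.2 / 2 ^ s'.1.1 := by
    have h2 := hx.1
    have h3 := hx'.1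
    rw [hk] at h3
    linarith
  have hoth : ∀ k, k ≠ s.2 → s'.1.2 k = q0.2 k := fun k hk' => hf.2.2 k (by rw [hk]; exact hk')
  have hle := gen_le hsub
  rcases hle.lt_or_eq with hlt | heq
  · exfalso
    refine hmin s hs.1 (by rw [hf.1]; exact hlt) hk.symm ?_
    rintro w ⟨hw1, hw2⟩
    refine ⟨?_, fun k hk' => ?_⟩
    · rw [hk, hw1, hplane]
    · rw [hk] at hk'
      have h2 := hw2 k hk'
      have h3 := h1 k
      rw [hzz k hk'] at h3
      rw [hoth k hk', hf.1]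
      constructor <;> linarith [h2.1, h2.2, h3.1, h3.2]
  · have h2 : zz = q0.2 := by
      rw [← heq] at hsub
      exact eq_of_sub_same hsub
    have h3 : s.1.1 = s'.1.1 := by rw [hf.1, heq]
    refine Prod.ext (Prod.ext h3 ?_) hk.symm
    funext k
    by_cases hk' : k = s.2
    · subst hk'
      rw [h3] at hplane
      have h4 : (0:ℝ) < 2 ^ s'.1.1 := by positivity
      have h5 := (div_left_inj' h4.ne').1 hplane
      exact_mod_cast h5
    · rw [hoth k hk', ← h2, hzz k hk']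

/-! ### Finiteness -/

theorem finite_face (q : Idx) : {s : Idx × Fin 3 | FaceOf s q}.Finite := by
  refine Set.Finite.subset (Set.Finite.prod (Set.Finite.prod (Set.finite_singleton q.1)
    (Set.Finite.pi' (fun k : Fin 3 => Set.finite_Icc (q.2 k) (q.2 k + 1))))
    (Set.finite_univ (α := Fin 3))) ?_
  rintro s ⟨h1, h2, h3⟩
  refine ⟨⟨h1, ?_⟩, mem_univ _⟩
  intro k
  simp only [Set.mem_Icc]
  by_cases hk : k = s.2
  · subst hk
    rcases h2 with h2 | h2 <;> omega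
  · have := h3 k hk; omega

theorem finite_minSq (hI : Part Ω v I) {q : Idx} (hq : q ∈ I) :
    {s : Idx × Fin 3 | MinSq v I s ∧ squ v s ⊆ dyc v q.1 q.2}.Finite := by
  have h1 := hI.fin (dyc v q.1 q.2) (hI.sub q hq) (isCompact_dyc _ _ _)
  refine (h1.biUnion (fun r _ => finite_face r)).subset ?_
  rintro s ⟨⟨⟨r, hr, hf⟩, -⟩, hsub⟩
  refine mem_biUnion (x := r) ⟨hr, sc v s, ?_, hsub (rel_sub sc_mem)⟩ hf
  rcases faceOf_iff.1 hf with rfl | rfl
  · exact squ_sub_hi (rel_sub sc_mem)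
  · exact squ_sub_lo (rel_sub sc_mem)

/-! ### Centres and half sides -/

theorem absle (w x z : ℝ) (m : ℕ) : |x - (w + (z + 1 / 2) / 2 ^ m)| ≤ 1 / 2 / 2 ^ m ↔
    w + z / 2 ^ m ≤ x ∧ x ≤ w + (z + 1) / 2 ^ m := by
  have h1 : (z + 1 / 2) / 2 ^ m = z / 2 ^ m + 1 / 2 / 2 ^ m := add_div _ _ _
  have h2 : (z + 1) / 2 ^ m = z / 2 ^ m + 1 / 2 / 2 ^ m + 1 / 2 / 2 ^ m := by
    rw [add_div]; ring
  rw [h1, h2, abs_le]
  constructor <;> rintro ⟨h3, h4⟩ <;> constructor <;> linarith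

theorem abslt (w x z : ℝ) (m : ℕ) : |x - (w + (z + 1 / 2) / 2 ^ m)| < 1 / 2 / 2 ^ m ↔
    w + z / 2 ^ m < x ∧ x < w + (z + 1) / 2 ^ m := by
  have h1 : (z + 1 / 2) / 2 ^ m = z / 2 ^ m + 1 / 2 / 2 ^ m := add_div _ _ _
  have h2 : (z + 1) / 2 ^ m = z / 2 ^ m + 1 / 2 / 2 ^ m + 1 / 2 / 2 ^ m := by
    rw [add_div]; ring
  rw [h1, h2, abs_lt]
  constructor <;> rintro ⟨h3, h4⟩ <;> constructor <;> linarith

theorem abseq {w x z : ℝ} {m : ℕ} (h : |x - (w + (z + 1 / 2) / 2 ^ m)| = 1 / 2 / 2 ^ m) :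
    x = w + z / 2 ^ m ∨ x = w + (z + 1) / 2 ^ m := by
  have h1 : (z + 1 / 2) / 2 ^ m = z / 2 ^ m + 1 / 2 / 2 ^ m := add_div _ _ _
  have h2 : (z + 1) / 2 ^ m = z / 2 ^ m + 1 / 2 / 2 ^ m + 1 / 2 / 2 ^ m := by
    rw [add_div]; ring
  rw [h1] at h
  rw [h2]
  rcases abs_cases (x - (w + (z / 2 ^ m + 1 / 2 / 2 ^ m))) with ⟨h3, -⟩ | ⟨h3, -⟩
  · right; linarith
  · left; linarith

theorem cube_eq (v : V) (m : ℕ) (z : Fin 3 → ℤ) : cube (cen v m z) (1 / 2 / 2 ^ m) = dyc v m z := by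
  ext x
  exact forall_congr' (fun k => absle (v k) (x k) (z k) m)

theorem mem_dyo_iff (v : V) (m : ℕ) (z : Fin 3 → ℤ) (x : V) :
    (∀ l, |x l - cen v m z l| < 1 / 2 / 2 ^ m) ↔ x ∈ dyo v m z :=
  forall_congr' (fun k => abslt (v k) (x k) (z k) m)

theorem mem_squ_iff (v : V) (s : Idx × Fin 3) (x : V) :
    (x s.2 = sc v s s.2 ∧ ∀ l, |x l - sc v s l| ≤ 1 / 2 / 2 ^ s.1.1) ↔ x ∈ squ v s := by
  have hp : (0:ℝ) < 1 / 2 / 2 ^ s.1.1 := by positivity
  constructor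
  · rintro ⟨h1, h2⟩
    refine ⟨by simpa [sc] using h1, fun k hk => ?_⟩
    have h3 := h2 k
    simp only [sc, if_neg hk] at h3
    exact (absle (v k) (x k) (s.1.2 k) s.1.1).1 h3
  · rintro ⟨h1, h2⟩
    refine ⟨by simpa [sc] using h1, fun k => ?_⟩
    by_cases hk : k = s.2
    · subst hk
      rw [h1]
      simp only [sc, if_pos, sub_self, abs_zero]
      exact hp.le
    · simp only [sc, if_neg hk]
      exact (absle (v k) (x k) (s.1.2 k) s.1.1).2 (h2 k hk)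

theorem mem_rel_iff (v : V) (s : Idx × Fin 3) (x : V) :
    (x s.2 = sc v s s.2 ∧ ∀ l, l ≠ s.2 → |x l - sc v s l| < 1 / 2 / 2 ^ s.1.1) ↔ x ∈ rel v s := by
  constructor
  · rintro ⟨h1, h2⟩
    refine ⟨by simpa [sc] using h1, fun k hk => ?_⟩
    have h3 := h2 k hk
    simp only [sc, if_neg hk] at h3
    exact (abslt (v k) (x k) (s.1.2 k) s.1.1).1 h3
  · rintro ⟨h1, h2⟩
    refine ⟨by simpa [sc] using h1, fun k hk => ?_⟩
    simp only [sc, if_neg hk]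
    exact (abslt (v k) (x k) (s.1.2 k) s.1.1).2 (h2 k hk)

/-- the thick square lies in the two cubes of the square -/
theorem thick {s : Idx × Fin 3} {qp qm : Idx} (h : Two v I s qp qm) :
    cube (sc v s) (1 / 2 / 2 ^ s.1.1) ⊆ dyc v qp.1 qp.2 ∪ dyc v qm.1 qm.2 := by
  intro x hx
  have hk1 := hx s.2
  have e : sc v s s.2 = v s.2 + s.1.2 s.2 / 2 ^ s.1.1 := by simp [sc]
  rw [e, abs_le] at hk1
  have hp : (0:ℝ) < 1 / 2 / 2 ^ s.1.1 := by positivity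
  have e2 : (1:ℝ) / 2 ^ s.1.1 = 1 / 2 / 2 ^ s.1.1 + 1 / 2 / 2 ^ s.1.1 := by ring
  have hoth : ∀ k, k ≠ s.2 → v k + s.1.2 k / 2 ^ s.1.1 ≤ x k ∧
      x k ≤ v k + (s.1.2 k + 1) / 2 ^ s.1.1 := by
    intro k hk
    have h3 := hx k
    simp only [sc, if_neg hk] at h3
    exact (absle (v k) (x k) (s.1.2 k) s.1.1).1 h3
  rcases le_total (v s.2 + s.1.2 s.2 / 2 ^ s.1.1) (x s.2) with hle | hle
  · left
    apply h.subp
    intro k
    by_cases hk : k = s.2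
    · subst hk
      rw [div_add_one, e2]
      exact ⟨hle, by linarith [hk1.2]⟩
    · exact hoth k hk
  · right
    apply h.subm
    intro k
    by_cases hk : k = s.2
    · subst hk
      rw [lo_same]
      have h3 : ((s.1.2 s.2 - 1 : ℤ) : ℝ) / 2 ^ s.1.1 = s.1.2 s.2 / 2 ^ s.1.1 - 1 / 2 ^ s.1.1 := by
        push_cast; rw [sub_div]
      have h4 : (((s.1.2 s.2 - 1 : ℤ) : ℝ) + 1) / 2 ^ s.1.1 = s.1.2 s.2 / 2 ^ s.1.1 := by
        push_cast; rw [sub_add_cancel]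
      rw [h3, h4, e2]
      exact ⟨by linarith [hk1.1], hle⟩
    · rw [lo_other s hk]
      exact hoth k hk

/-- the position of a minimal square in the boundary of a cube -/
theorem bd_pos (hI : Part Ω v I) {s : Idx × Fin 3} (hs : MinSq v I s) {r : Idx} (hr : r ∈ I)
    (hsub : squ v s ⊆ dyc v r.1 r.2) :
    |sc v s s.2 - cen v r.1 r.2 s.2| = 1 / 2 / 2 ^ r.1 ∧
      ∀ l, l ≠ s.2 → |sc v s l - cen v r.1 r.2 l| + 1 / 2 / 2 ^ s.1.1 ≤ 1 / 2 / 2 ^ r.1 := by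
  have hscr : sc v s ∈ dyc v r.1 r.2 := hsub (rel_sub sc_mem)
  have hp : (0:ℝ) < 1 / 2 ^ s.1.1 := by positivity
  have hoth : ∀ l, l ≠ s.2 → (r.2 l : ℝ) / 2 ^ r.1 ≤ s.1.2 l / 2 ^ s.1.1 ∧
      ((s.1.2 l : ℝ) + 1) / 2 ^ s.1.1 ≤ (r.2 l + 1) / 2 ^ r.1 := by
    intro l hl
    have h1 : (fun k => v k + s.1.2 k / 2 ^ s.1.1 : V) ∈ squ v s :=
      ⟨rfl, fun j _ => ⟨le_rfl, by rw [div_add_one]; linarith⟩⟩
    have h2 : (fun k => if k = s.2 then v k + s.1.2 k / 2 ^ s.1.1 else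
        v k + (s.1.2 k + 1) / 2 ^ s.1.1 : V) ∈ squ v s := by
      refine ⟨by simp, fun j hj => ?_⟩
      simp only [if_neg hj]
      exact ⟨by rw [div_add_one]; linarith, le_rfl⟩
    have h3 := (hsub h1 l).1
    have h4 := (hsub h2 l).2
    simp only [if_neg hl] at h4
    constructor <;> linarith
  have hscl : ∀ l, l ≠ s.2 → sc v s l = v l + (s.1.2 l + 1 / 2) / 2 ^ s.1.1 := by
    intro l hl; simp [sc, hl]
  constructor
  · by_contra hne
    have hle : |sc v s s.2 - cen v r.1 r.2 s.2| ≤ 1 / 2 / 2 ^ r.1 := by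
      have := (cube_eq v r.1 r.2).symm ▸ hscr
      exact this s.2
    have hlt := lt_of_le_of_ne hle hne
    have hopen : sc v s ∈ dyo v r.1 r.2 := by
      intro l
      by_cases hl : l = s.2
      · subst hl
        exact (abslt (v s.2) (sc v s s.2) (r.2 s.2) r.1).1 hlt
      · have h1 := hoth l hl
        have h2 := (sc_mem (v := v) (s := s)).2 l hl
        constructor <;> linarith [h1.1, h1.2, h2.1, h2.2]
    obtain ⟨⟨q0, hq0, hf⟩, -⟩ := hs
    have hxq0 : sc v s ∈ dyc v q0.1 q0.2 := by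
      rcases faceOf_iff.1 hf with rfl | rfl
      · exact squ_sub_hi (rel_sub sc_mem)
      · exact squ_sub_lo (rel_sub sc_mem)
    have h3 := eq_of_mem hI hr hq0 hopen hxq0
    subst h3
    have h4 := hopen s.2
    rw [(sc_mem (v := v) (s := s)).1, hf.1] at h4
    rcases hf.2.1 with h5 | h5
    · rw [h5] at h4; linarith [h4.1]
    · rw [h5] at h4; push_cast at h4; linarith [h4.2]
  · intro l hl
    obtain ⟨h1, h2⟩ := hoth l hl
    rw [hscl l hl]
    simp only [cen]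
    have e1 : ((s.1.2 l : ℝ) + 1 / 2) / 2 ^ s.1.1 = s.1.2 l / 2 ^ s.1.1 + 1 / 2 / 2 ^ s.1.1 :=
      add_div _ _ _
    have e2 : ((r.2 l : ℝ) + 1 / 2) / 2 ^ r.1 = r.2 l / 2 ^ r.1 + 1 / 2 / 2 ^ r.1 := add_div _ _ _
    have e3 : ((s.1.2 l : ℝ) + 1) / 2 ^ s.1.1 =
        s.1.2 l / 2 ^ s.1.1 + 1 / 2 / 2 ^ s.1.1 + 1 / 2 / 2 ^ s.1.1 := by rw [add_div]; ring
    have e4 : ((r.2 l : ℝ) + 1) / 2 ^ r.1 =
        r.2 l / 2 ^ r.1 + 1 / 2 / 2 ^ r.1 + 1 / 2 / 2 ^ r.1 := by rw [add_div]; ring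
    rw [e3, e4] at h2
    rw [e1, e2]
    rcases abs_cases (v l + (s.1.2 l / 2 ^ s.1.1 + 1 / 2 / 2 ^ s.1.1) -
      (v l + (r.2 l / 2 ^ r.1 + 1 / 2 / 2 ^ r.1))) with ⟨h3, -⟩ | ⟨h3, -⟩ <;> rw [h3] <;> linarith

end

/-! ### The cells -/

/-- the index type of the squares -/
abbrev Kap (v : V) (I P : Set Idx) : Type :=
  {s : Idx × Fin 3 // MinSq v I s ∧ ∃ q ∈ I \ P, squ v s ⊆ dyc v q.1 q.2}

theorem finite_bd {Ω : Set V} {v : V} {I : Set Idx} (P : Set Idx) (hI : Part Ω v I) {q : Idx}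
    (hq : q ∈ I) : {s : Kap v I P | squ v s.1 ⊆ dyc v q.1 q.2}.Finite := by
  have := (finite_minSq hI hq).preimage (f := fun s : Kap v I P => s.1)
    (Subtype.val_injective.injOn)
  exact this.subset (fun s hs => ⟨s.2.1, hs⟩)

/-- the cell structure -/
noncomputable def cells {Ω : Set V} {v : V} {I P : Set Idx} (hΩ : IsOpen Ω) (hI : Part Ω v I)
    (hP : P ⊆ I) : Cells Ω (⋃ q ∈ P, dyc v q.1 q.2) where
  ι := {q : Idx // q ∈ I \ P}
  cnt := inferInstance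
  c := fun i => cen v i.1.1 i.1.2
  ρ := fun i => 1 / 2 / 2 ^ i.1.1
  ρpos := fun i => by positivity
  sub := fun i => by rw [cube_eq]; exact hI.sub _ i.2.1
  κ := Kap v I P
  cntκ := by unfold Kap; infer_instance
  a := fun s => sc v s.1
  k := fun s => s.1.2
  σ := fun s => 1 / 2 / 2 ^ s.1.1.1
  σpos := fun s => by positivity
  ctrl := {s | ∃ r ∈ P, squ v s.1 ⊆ dyc v r.1 r.2}
  bd := fun i => (finite_bd P hI i.2.1).toFinset
  disj := by
    intro i j hij x hx hx'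
    rw [mem_dyo_iff] at hx
    have hx'' : x ∈ dyc v j.1.1 j.1.2 := by rw [← cube_eq]; exact hx'
    exact hij (Subtype.ext (eq_of_mem hI i.2.1 j.2.1 hx hx''))
  cover := by
    intro x hx
    obtain ⟨q, hq, hxq⟩ := hI.cover x hx
    by_cases hqP : q ∈ P
    · left; exact mem_biUnion hqP hxq
    · right
      refine mem_iUnion.2 ⟨⟨q, hq, hqP⟩, ?_⟩
      rw [cube_eq]; exact hxq
  miss := by
    intro i x hx hx'
    rw [mem_dyo_iff] at hx'
    obtain ⟨q, hq, hxq⟩ := mem_iUnion₂.1 hx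
    have := eq_of_mem hI i.2.1 (hP hq) hx' hxq
    exact i.2.2 (this ▸ hq)
  fin := by
    intro x hx
    obtain ⟨K, hK, hKΩ, hKc⟩ := local_compact_nhds (hΩ.mem_nhds hx)
    refine ⟨K, hK, ?_⟩
    have := (hI.fin K hKΩ hKc).preimage (f := fun i : {q : Idx // q ∈ I \ P} => i.1)
      (Subtype.val_injective.injOn)
    refine this.subset ?_
    intro i hi
    simp only [Set.mem_ofPred_eq, cube_eq] at hi
    exact ⟨i.2.1, hi⟩
  finκ := by
    intro x hx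
    obtain ⟨K, hK, hKΩ, hKc⟩ := local_compact_nhds (hΩ.mem_nhds hx)
    refine ⟨K, hK, ?_⟩
    refine ((hI.fin K hKΩ hKc).biUnion (fun r hr => finite_bd P hI hr.1)).subset ?_
    rintro s ⟨y, hy, hyK⟩
    obtain ⟨qp, qm, htwo⟩ := two_of_minSq hΩ hI s.2.1
    rcases thick htwo hy with h | h
    · exact mem_biUnion (x := qp) ⟨htwo.memp, y, h, hyK⟩ (squ_sub_hi.trans htwo.subp)
    · exact mem_biUnion (x := qm) ⟨htwo.memm, y, h, hyK⟩ (squ_sub_lo.trans htwo.subm)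
  subκ := by
    intro s y hy
    obtain ⟨qp, qm, htwo⟩ := two_of_minSq hΩ hI s.2.1
    rcases thick htwo hy with h | h
    · exact hI.sub _ htwo.memp h
    · exact hI.sub _ htwo.memm h
  bd_sub := by
    intro i s hs
    rw [Set.Finite.mem_toFinset] at hs
    exact bd_pos hI s.2.1 i.2.1 hs
  bd_cover := by
    rintro i x hx ⟨l, hl⟩
    rw [cube_eq] at hx
    obtain ⟨s, h1, h2, h3⟩ := bd_cover hΩ hI i.2.1 hx (abseq hl)
    exact ⟨⟨s, h1, i.1, i.2, h3⟩, (Set.Finite.mem_toFinset _).2 h3, (mem_squ_iff v s x).2 h2⟩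
  disjκ := by
    rintro s s' hne x hx1 hx2 ⟨hx3, hx4⟩
    apply hne
    apply Subtype.ext
    exact sq_disj hΩ hI s.2.1 s'.2.1 ((mem_rel_iff v s.1 x).1 ⟨hx1, hx2⟩)
      ((mem_squ_iff v s'.1 x).1 ⟨hx3, hx4⟩)
  used := by
    rintro ⟨s, hs, q, hq, hsub⟩
    exact ⟨⟨q, hq⟩, (Set.Finite.mem_toFinset _).2 hsub⟩
  unc := by
    intro s hs x hx1 hx2
    have hxr : x ∈ rel v s.1 := (mem_rel_iff v s.1 x).1 ⟨hx1, hx2⟩
    obtain ⟨qp, qm, htwo⟩ := two_of_minSq hΩ hI s.2.1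
    have hxΩ : x ∈ Ω := hI.sub _ htwo.memp (htwo.subp (squ_sub_hi (rel_sub hxr)))
    obtain ⟨N, hN, -, hN'⟩ := near hΩ hI hxΩ
    refine ⟨N, hN, ?_⟩
    rw [Set.disjoint_left]
    intro y hyN hyR
    obtain ⟨r, hr, hyr⟩ := mem_iUnion₂.1 hyR
    apply hs
    refine ⟨r, hr, ?_⟩
    rcases rel_mem hI htwo hxr (hP hr) (hN' r (hP hr) ⟨y, hyr, hyN⟩) with rfl | rfl
    · exact squ_sub_hi.trans htwo.subp
    · exact squ_sub_lo.trans htwo.subm

end P86

open P86 in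
/-- **(AB2)** -/
theorem specPart : SpecPart := by
  intro Ω v I P hΩ hI hP
  refine ⟨cells hΩ hI hP, fun i => i.1, fun s => s.1, Subtype.val_injective, Subtype.val_injective,
    ?_, ?_, ?_, ?_, ?_⟩
  · exact Subtype.range_coe
  · intro i
    exact ⟨cube_eq v i.1.1 i.1.2, rfl⟩
  · intro s
    refine ⟨s.2.1, rfl, rfl, ?_⟩
    ext x
    exact mem_squ_iff v s.1 x
  · intro s
    exact Iff.rfl
  · intro i s
    exact Set.Finite.mem_toFinset _

end Vale.Agent.P073.AB
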