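import Vale.Agent.P073.SQ.Spec
import Vale.Agent.P073.Net.Defs
import Vale.Agent.P073.HB.Acl2

/-!
# Block AB (analysis assembly): definitions and statements

Everything in `V = Fin 3 → ℝ` with the sup norm.  `cl (F x)` is the weak derivative as a
continuous linear map.
-/

namespace Vale.Agent.P073.AB

open MeasureTheory Set Filter Topology Metric Vale.Agent.P073.St
open Vale.Agent.P073.SQ (ev cube Cells)
open P073.Net (IsTile dyc dyo SizeFn)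
open Vale.Agent.P073.HB (GoodSeg)
open scoped ContDiff ENNReal

/-- a matrix as a continuous linear map of `V` -/
noncomputable def cl (A : Mat) : V →L[ℝ] V :=
  LinearMap.toContinuousLinearMap (Matrix.toLin' (Matrix.of A))

/-! ## The last step -/

/-- Cells, a protected set `R`, and a diffeomorphism `G` which is good on `R` and has small energy
on the net of the cells. -/
def GoodApprox (p ε : ℝ) (Ω Λ : Set V) (f : V → V) (F : V → Mat) : Prop :=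
  ∃ (R : Set V) (W : Cells Ω R) (G : V → V), MeasurableSet R ∧ R ⊆ Ω ∧ IsDiffeo Ω Λ G ∧
    ∑ j, ∫⁻ x in R, ENNReal.ofReal (‖fderiv ℝ G x (ev j) - cl (F x) (ev j)‖ ^ p) ≤
      ENNReal.ofReal ε ∧
    ∑' i, W.en p G i ≤ ENNReal.ofReal ε ∧
    ∑ j, ∫⁻ x in Ω \ R, ENNReal.ofReal (‖cl (F x) (ev j)‖ ^ p) ≤ ENNReal.ofReal ε ∧
    ∃ K ⊆ Ω, MeasurableSet K ∧ volume (Ω \ K) ≤ ENNReal.ofReal ε ∧
      (∀ x ∈ K ∩ R, ‖G x - f x‖ ≤ ε) ∧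
      ∀ i, ∀ x ∈ K ∩ cube (W.c i) (W.ρ i), ∀ y ∈ W.net i, ‖G y - f x‖ ≤ ε

/-- (AB1) the last step, from `SpecSQ` -/
def SpecFinal : Prop :=
  ∀ (p : ℝ) (Ω Λ : Set V) (f : V → V) (F : V → Mat), 1 ≤ p → p < 2 → IsBoundedDomain Ω →
    IsBoundedDomain Λ → IsHomeo Ω Λ f → IsSobolev p Ω f F →
    (∀ ε > 0, GoodApprox p ε Ω Λ f F) → DiffeoApproximable p Ω Λ f F

/-- finite distortion: the derivative vanishes or is invertible, almost everywhere -/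
def FinDist (Ω : Set V) (F : V → Mat) : Prop :=
  ∀ᵐ x ∂(volume : Measure V), x ∈ Ω → (∀ i j, F x i j = 0) ∨ NonSing (F x)

/-- first milestone -/
def SpecFD : Prop :=
  ∀ (p : ℝ) (Ω Λ : Set V) (f : V → V) (F : V → Mat), 1 ≤ p → p < 2 → IsBoundedDomain Ω →
    IsBoundedDomain Λ → IsHomeo Ω Λ f → IsSobolev p Ω f F → FinDist Ω F →
    ∀ ε > 0, GoodApprox p ε Ω Λ f F

/-- the full theorem -/
def SpecAll : Prop :=
  ∀ (p : ℝ) (Ω Λ : Set V) (f : V → V) (F : V → Mat), 1 ≤ p → p < 2 → IsBoundedDomain Ω →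
    IsBoundedDomain Λ → IsHomeo Ω Λ f → IsSobolev p Ω f F →
    ∀ ε > 0, GoodApprox p ε Ω Λ f F

/-! ## Partitions into dyadic cubes -/

/-- index of a dyadic cube: generation and position -/
abbrev Idx : Type := ℕ × (Fin 3 → ℤ)

/-- a locally finite partition of `Ω` into closed dyadic cubes with origin `v` -/
structure Part (Ω : Set V) (v : V) (I : Set Idx) : Prop where
  sub : ∀ q ∈ I, dyc v q.1 q.2 ⊆ Ω
  cover : ∀ x ∈ Ω, ∃ q ∈ I, x ∈ dyc v q.1 q.2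
  disj : ∀ q ∈ I, ∀ q' ∈ I, q ≠ q' → Disjoint (dyo v q.1 q.2) (dyc v q'.1 q'.2)
  fin : ∀ K ⊆ Ω, IsCompact K → {q | q ∈ I ∧ (dyc v q.1 q.2 ∩ K).Nonempty}.Finite

/-- the point with dyadic coordinates -/
noncomputable def pt (v : V) (m : ℕ) (z : Fin 3 → ℤ) : V := fun k => v k + z k / 2 ^ m

/-- dyadic edge of generation `m`, from `pt v m z` in direction `k` -/
def edge (v : V) (e : Idx × Fin 3) : Set V :=
  segment ℝ (pt v e.1.1 e.1.2) (pt v e.1.1 e.1.2 + (1 / 2 ^ e.1.1 : ℝ) • ev e.2)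

/-- `e` is one of the twelve edges of the dyadic cube `q` -/
def EdgeOf (e : Idx × Fin 3) (q : Idx) : Prop :=
  e.1.1 = q.1 ∧ e.1.2 e.2 = q.2 e.2 ∧ ∀ j, j ≠ e.2 → e.1.2 j = q.2 j ∨ e.1.2 j = q.2 j + 1

/-- energy of `H` on the dyadic edge `e` (a true one-dimensional integral) -/
noncomputable def eInt (v : V) (e : Idx × Fin 3) (H : V → ℝ≥0∞) : ℝ≥0∞ :=
  ENNReal.ofReal (1 / 2 ^ e.1.1) *
    ∫⁻ t in Icc (0:ℝ) 1, H (pt v e.1.1 e.1.2 + t • ((1 / 2 ^ e.1.1 : ℝ) • ev e.2))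

/-- a dyadic square: generation, position of its lowest corner, normal direction -/
def squ (v : V) (s : Idx × Fin 3) : Set V :=
  {x | x s.2 = v s.2 + s.1.2 s.2 / 2 ^ s.1.1 ∧ ∀ k, k ≠ s.2 →
    v k + s.1.2 k / 2 ^ s.1.1 ≤ x k ∧ x k ≤ v k + (s.1.2 k + 1) / 2 ^ s.1.1}

/-- `s` is one of the six faces of the dyadic cube `q` -/
def FaceOf (s : Idx × Fin 3) (q : Idx) : Prop :=
  s.1.1 = q.1 ∧ (s.1.2 s.2 = q.2 s.2 ∨ s.1.2 s.2 = q.2 s.2 + 1) ∧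
    ∀ j, j ≠ s.2 → s.1.2 j = q.2 j

/-- `e` is one of the four edges of the square `s` -/
def EdgeOfSq (e s : Idx × Fin 3) : Prop :=
  e.1.1 = s.1.1 ∧ e.2 ≠ s.2 ∧ e.1.2 e.2 = s.1.2 e.2 ∧ e.1.2 s.2 = s.1.2 s.2 ∧
    ∀ j, j ≠ e.2 → j ≠ s.2 → e.1.2 j = s.1.2 j ∨ e.1.2 j = s.1.2 j + 1

/-- `s` is a minimal square of the partition `I`: a face of a cube of `I`, and no face of a
cube of `I` of a higher generation overlaps it -/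
def MinSq (v : V) (I : Set Idx) (s : Idx × Fin 3) : Prop :=
  (∃ q ∈ I, FaceOf s q) ∧
    ∀ s' : Idx × Fin 3, (∃ q ∈ I, FaceOf s' q) → s.1.1 < s'.1.1 → s'.2 = s.2 → ¬ squ v s' ⊆ squ v s

/-- (AB2) the cell structure of a partition `I` with a set `P ⊆ I` of protected cubes.  The squares
are the minimal squares lying in a cube of `I \ P`, the controlled ones also lie in a cube
of `P`. -/
def SpecPart : Prop :=
  ∀ (Ω : Set V) (v : V) (I P : Set Idx), IsOpen Ω → Part Ω v I → P ⊆ I →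
    ∃ (W : Cells Ω (⋃ q ∈ P, dyc v q.1 q.2)) (φ : W.ι → Idx) (ψ : W.κ → Idx × Fin 3),
      Function.Injective φ ∧ Function.Injective ψ ∧ range φ = I \ P ∧
      (∀ i, cube (W.c i) (W.ρ i) = dyc v (φ i).1 (φ i).2 ∧ W.ρ i = 1 / 2 / 2 ^ (φ i).1) ∧
      (∀ q, MinSq v I (ψ q) ∧ W.k q = (ψ q).2 ∧ W.σ q = 1 / 2 / 2 ^ (ψ q).1.1 ∧
        {x | x (W.k q) = W.a q (W.k q) ∧ ∀ l, |x l - W.a q l| ≤ W.σ q} = squ v (ψ q)) ∧
      (∀ q, q ∈ W.ctrl ↔ ∃ r ∈ P, squ v (ψ q) ⊆ dyc v r.1 r.2) ∧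
      ∀ i q, q ∈ W.bd i ↔ squ v (ψ q) ⊆ dyc v (φ i).1 (φ i).2

/-- (AB3) the graph of the edges of a partition -/
def SpecGraph : Prop :=
  ∀ (Ω : Set V) (v : V) (I : Set Idx), IsOpen Ω → Part Ω v I →
    ∃ (G : P073.Net.Graph Ω) (φ : G.ι → Idx × Fin 3), Function.Injective φ ∧ Countable G.ι ∧
      (∀ i, G.a i = pt v (φ i).1.1 (φ i).1.2 ∧
        G.b i = pt v (φ i).1.1 (φ i).1.2 + (1 / 2 ^ (φ i).1.1 : ℝ) • ev (φ i).2) ∧
      (∀ i, ∃ q ∈ I, EdgeOf (φ i) q) ∧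
      ∀ e, (∃ q ∈ I, EdgeOf e q) → ∃ S : Finset G.ι, edge v e = ⋃ i ∈ S, edge v (φ i)

/-- the size function of the domain: cubes of generation `n` in the core -/
noncomputable def rho (Ω : Set V) (n : ℕ) (x : V) : ℝ := min (1 / 2 ^ n) (infDist x Ωᶜ)

/-- the Whitney partition of the domain: generation `n` in the core -/
def tiles (Ω : Set V) (n : ℕ) (v : V) : Set Idx := {q | IsTile (rho Ω n) v q.1 q.2}

/-- (AB4) -/
def SpecTiles : Prop :=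
  ∀ (Ω : Set V) (n : ℕ) (v : V), IsOpen Ω → Bornology.IsBounded Ω → Ω.Nonempty →
    SizeFn Ω (rho Ω n) ∧ Part Ω v (tiles Ω n v) ∧
    (∀ q ∈ tiles Ω n v, n ≤ q.1) ∧
    (∀ q ∈ tiles Ω n v, ∀ x ∈ dyc v q.1 q.2,
      (1 / 2 ^ q.1 : ℝ) ≤ rho Ω n x ∧ rho Ω n x ≤ 4 / 2 ^ q.1) ∧
    (∀ z, (∀ x ∈ dyc v n z, 1 / 2 ^ n ≤ infDist x Ωᶜ) → (n, z) ∈ tiles Ω n v)

/-! ## The choice of the scales and of the good cells (finite distortion) -/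

/-- the dyadic cube `(n, z)` shrunk by `δ` -/
def shrink (v : V) (n : ℕ) (z : Fin 3 → ℤ) (δ : ℝ) : Set V :=
  {x | ∀ k, v k + z k / 2 ^ n + δ ≤ x k ∧ x k ≤ v k + (z k + 1) / 2 ^ n - δ}

/-- `f` is absolutely continuous, with derivative `F`, on all segments with rational end points
(relative to the origin `v`) -/
def RatGood (v : V) (Ω : Set V) (f : V → V) (F : V → Mat) : Prop :=
  ∀ a b : V, (∀ k, ∃ r : ℚ, a k = v k + r) → (∀ k, ∃ r : ℚ, b k = v k + r) →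
    segment ℝ a b ⊆ Ω → GoodSeg f (fun x => cl (F x)) a (b - a)

/-- The choice: origin `v`, coarse generation `n₂`, fine generation `n₀`, good cells `J` of
generation `n₂`, affine maps `A z` with linear part `L z`. `F' x` is the derivative. -/
structure Choice (p ε θ M κ : ℝ) (k₁ k₀ : ℕ) (Ω Λ : Set V) (f : V → V) (F : V → Mat) where
  /-- origin -/
  v : V
  /-- coarse generation -/
  n₂ : ℕ
  /-- fine generation -/
  n₀ : ℕ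
  eqn : n₀ = n₂ + k₁ + k₀
  /-- good cells -/
  J : Finset (Fin 3 → ℤ)
  /-- affine maps -/
  A : (Fin 3 → ℤ) → V → V
  /-- their linear parts -/
  L : (Fin 3 → ℤ) → V →L[ℝ] V
  aff : ∀ z x y, A z y - A z x = L z (y - x)
  below : ∀ z ∈ J, ∀ w, θ * ‖w‖ ≤ ‖L z w‖
  above : ∀ z ∈ J, ∀ w, ‖L z w‖ ≤ M * ‖w‖
  core : ∀ z ∈ J, ∀ x, (∃ y ∈ dyc v n₂ z, ‖x - y‖ ≤ 1 / 2 ^ n₂) → 1 / 2 ^ n₀ ≤ infDist x Ωᶜ
  small : (M + 2) / 2 ^ n₂ ≤ ε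
  rat : RatGood v Ω f F
  fin : ∀ e : Idx × Fin 3, edge v e ⊆ Ω → n₀ ≤ e.1.1 →
    eInt v e (fun x => ENNReal.ofReal (‖cl (F x) (ev e.2)‖ ^ p)) ≠ ⊤
  own : ∀ z ∈ J, ∀ e : Idx × Fin 3, e.1.1 = n₀ → edge v e ⊆ dyc v n₂ z →
    (∀ x ∈ edge v e, ‖f x - A z x‖ ≤ κ / 2 ^ n₀) ∧
    eInt v e (fun x => ENNReal.ofReal (‖cl (F x) (ev e.2) - L z (ev e.2)‖ ^ p)) ≤
      ENNReal.ofReal (κ / 2 ^ n₀)
  foreign : ∀ z ∈ J, ∀ e : Idx × Fin 3, (∃ q ∈ tiles Ω n₀ v, EdgeOf e q) →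
    ¬ edge v e ⊆ dyc v n₂ z → ∀ x ∈ edge v e, f x ∉ A z '' shrink v n₂ z (1 / 2 ^ n₀)
  inside : ∀ z ∈ J, A z '' shrink v n₂ z (1 / 2 ^ n₀) ⊆ Λ
  disj : ∀ z ∈ J, ∀ z' ∈ J, z ≠ z' →
    Disjoint (A z '' shrink v n₂ z (1 / 2 ^ n₀)) (A z' '' shrink v n₂ z' (1 / 2 ^ n₀))
  -- sums
  s1 : ∑ z ∈ J, ∑ j, ∫⁻ x in dyc v n₂ z, ENNReal.ofReal (‖cl (F x) (ev j) - L z (ev j)‖ ^ p) ≤
    ENNReal.ofReal ε
  s2 : ∑ j, ∫⁻ x in Ω \ ⋃ z ∈ J, dyc v n₂ z, ENNReal.ofReal (‖cl (F x) (ev j)‖ ^ p) ≤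
    ENNReal.ofReal ε
  s3 : ∑' e : {e : Idx × Fin 3 // (∃ q ∈ tiles Ω n₀ v, EdgeOf e q) ∧
      ∀ z ∈ J, ¬ edge v e ⊆ dyc v n₂ z},
    ENNReal.ofReal ((1 / 2 ^ e.1.1.1) ^ 2) *
      eInt v e.1 (fun x => ENNReal.ofReal (‖cl (F x) (ev e.1.2)‖ ^ p)) ≤ ENNReal.ofReal ε
  /-- zero order -/
  K : Set V
  Ksub : K ⊆ Ω
  Kcomp : IsCompact K
  Kvol : volume (Ω \ K) ≤ ENNReal.ofReal ε
  osc : ∀ x ∈ K, ∀ y, ‖y - x‖ ≤ 2 / 2 ^ n₂ → y ∈ Ω ∧ ‖f y - f x‖ ≤ ε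

/-- (AB5) the choice, from PACK -/
def SpecChoice : Prop :=
  ∀ (p : ℝ) (Ω Λ : Set V) (f : V → V) (F : V → Mat), 1 ≤ p → p < 2 → IsBoundedDomain Ω →
    IsBoundedDomain Λ → IsHomeo Ω Λ f → IsSobolev p Ω f F → FinDist Ω F →
    ∀ ε > 0, ∃ θ > 0, ∃ M > 0, ∀ k₁ k₀ : ℕ, 1 ≤ k₁ → ∀ κ > 0,
      Nonempty (Choice p ε θ M κ k₁ k₀ Ω Λ f F)

/-- the box `B₁` of the cell `z`: one layer of cubes of side `1 / 2 ^ (n₂ + k₁)` is removed -/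
def boxB (v : V) (n₂ k₁ : ℕ) (z : Fin 3 → ℤ) : Set V := shrink v n₂ z (1 / 2 ^ (n₂ + k₁))

/-- the protected box: two layers are removed -/
def boxR (v : V) (n₂ k₁ : ℕ) (z : Fin 3 → ℤ) : Set V := shrink v n₂ z (2 / 2 ^ (n₂ + k₁))

/-- (AB6) NET + GB + SM: for `k₀` large and `κ` small (depending on `p θ M k₁` only) there is a
diffeomorphism `G`, as close to `f` as we want on the edges outside the boxes `B₁`, as close to
`A z` as we want on the protected boxes and their faces, and with controlled energy on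
the edges of generation `n₂ + k₁` of the gap. `C` depends on `p θ M` only. -/
def SpecGauge : Prop :=
  ∀ (p θ M : ℝ), 1 ≤ p → p < 2 → 0 < θ → 0 < M → ∃ C > 0, ∀ k₁ : ℕ, 3 ≤ k₁ → ∃ k₀ : ℕ, ∃ κ > 0,
    ∀ (ε : ℝ) (Ω Λ : Set V) (f : V → V) (F : V → Mat), 0 < ε → IsBoundedDomain Ω →
    IsBoundedDomain Λ → IsHomeo Ω Λ f → IsSobolev p Ω f F →
    ∀ c : Choice p ε θ M κ k₁ k₀ Ω Λ f F, ∀ δ : Idx × Fin 3 → ℝ, (∀ e, 0 < δ e) → ∀ δ₀ > 0,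
    ∃ G : V → V, IsDiffeo Ω Λ G ∧
      (∀ e : Idx × Fin 3, (∃ q ∈ tiles Ω c.n₀ c.v, EdgeOf e q) →
        (∀ z ∈ c.J, Disjoint (edge c.v e) (interior (boxB c.v c.n₂ k₁ z))) →
        (∀ x ∈ edge c.v e, ‖G x - f x‖ ≤ δ e) ∧
        eInt c.v e (fun x => ENNReal.ofReal (‖fderiv ℝ G x (ev e.2) - cl (F x) (ev e.2)‖ ^ p)) ≤
          ENNReal.ofReal (δ e)) ∧
      ∀ z ∈ c.J,
        (∀ x ∈ boxR c.v c.n₂ k₁ z, ‖G x - c.A z x‖ ≤ δ₀) ∧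
        ∑ j, ∫⁻ x in boxR c.v c.n₂ k₁ z,
          ENNReal.ofReal (‖fderiv ℝ G x (ev j) - c.L z (ev j)‖ ^ p) ≤ ENNReal.ofReal δ₀ ∧
        -- squares of generation `n₂ + k₁` in the surface of the protected box
        (∀ s : Idx × Fin 3, s.1.1 = c.n₂ + k₁ → squ c.v s ⊆ frontier (boxR c.v c.n₂ k₁ z) →
          ∑ j ∈ Finset.univ.erase s.2, ∫⁻ x in dyc c.v s.1.1 s.1.2,
            ENNReal.ofReal (‖fderiv ℝ G (Function.update x s.2 (pt c.v s.1.1 s.1.2 s.2)) (ev j)‖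
              ^ p) ≤ ENNReal.ofReal (C / 2 ^ (3 * (c.n₂ + k₁)))) ∧
        -- edges of generation `n₂ + k₁` of the gap
        ∀ e : Idx × Fin 3, e.1.1 = c.n₂ + k₁ →
          edge c.v e ⊆ boxB c.v c.n₂ k₁ z \ interior (boxR c.v c.n₂ k₁ z) →
          ¬ edge c.v e ⊆ frontier (boxB c.v c.n₂ k₁ z) →
          (∀ x ∈ edge c.v e, ‖G x - c.A z x‖ ≤ 1 / 2 ^ c.n₂) ∧
          eInt c.v e (fun x => ENNReal.ofReal (‖fderiv ℝ G x (ev e.2)‖ ^ p)) ≤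
            ENNReal.ofReal (C / 2 ^ (c.n₂ + k₁))

/-- (AB7) the sum of the energies -/
def SpecSum : Prop := SpecPart → SpecTiles → SpecChoice → SpecGauge → SpecFD

end Vale.Agent.P073.AB
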