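import Vale.Agent.P073.AB.Sum293f

/-!
# SpecSum
-/

namespace Vale.Agent.P073.AB

open MeasureTheory Set Filter Topology Metric Vale.Agent.P073.St
open Vale.Agent.P073.SQ (ev cube Cells dE faceE edgesE)
open P073.Net (IsTile dyc dyo SizeFn)
open scoped ContDiff ENNReal

open S293 in
theorem specFD_of (hCh : SpecChoice) (hGa : SpecGauge) : SpecFD := by
  intro p Ω Λ f F hp hp2 hΩ hΛ hf hF hFD ε hε
  obtain ⟨C₀, hC₀, hgeo⟩ := specGeo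
  have hb := isBounded_of hΩ
  have hfin : volume Ω ≠ ⊤ := hb.measure_lt_top.ne
  set W := (volume Ω).toReal with hWd
  have hW0 : 0 ≤ W := ENNReal.toReal_nonneg
  have hW : volume Ω ≤ ENNReal.ofReal W := (ENNReal.ofReal_toReal hfin).ge
  obtain ⟨ε₁, hε₁, hε₁1, hε₁2⟩ : ∃ ε₁ > 0, ε₁ ≤ ε / 8 ∧ 16 * C₀ * ε₁ ≤ ε / 2 := by
    refine ⟨min (ε / 8) (ε / (32 * C₀)), by positivity, min_le_left _ _, ?_⟩
    calc 16 * C₀ * min (ε / 8) (ε / (32 * C₀)) ≤ 16 * C₀ * (ε / (32 * C₀)) := by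
          gcongr; exact min_le_right _ _
      _ = ε / 2 := by field_simp; ring
  obtain ⟨θ, hθ, M, hM, hch⟩ := hCh p Ω Λ f F hp hp2 hΩ hΛ hf hF hFD ε₁ hε₁
  obtain ⟨C, hC, hga⟩ := hGa p θ M hp hp2 hθ hM
  have hMp : 0 ≤ M ^ p := by positivity
  set Q₁ : ℝ := C₀ * W * (4 * C₀ * (6 + 4 * M ^ p) + (48 * (6 + 4 * M ^ p) + 30 * C)) with hQ₁
  set Q₂ : ℝ := 6 * M ^ p * C₀ * W with hQ₂
  have hQ₁0 : 0 ≤ Q₁ := by positivity
  have hQ₂0 : 0 ≤ Q₂ := by positivity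
  obtain ⟨k₁, hk₁, hkQ⟩ : ∃ k₁ : ℕ, 3 ≤ k₁ ∧ (Q₁ + Q₂) / 2 ^ k₁ ≤ ε / 2 := by
    have h1 : Tendsto (fun k : ℕ => (Q₁ + Q₂) / 2 ^ k) atTop (𝓝 0) := by
      have h2 := tendsto_pow_atTop_nhds_zero_of_lt_one (show (0:ℝ) ≤ 1 / 2 by norm_num)
        (show (1 / 2 : ℝ) < 1 by norm_num)
      have h3 := h2.const_mul (Q₁ + Q₂)
      rw [mul_zero] at h3
      refine h3.congr fun k => ?_
      rw [one_div, inv_pow]; rfl
    have h4 := h1.eventually (ge_mem_nhds (show (0:ℝ) < ε / 2 by positivity))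
    obtain ⟨k, hk1, hk2⟩ := (h4.and (eventually_ge_atTop 3)).exists
    exact ⟨k, hk2, hk1⟩
  obtain ⟨k₀, κ₀, hκ₀, hga'⟩ := hga k₁ hk₁
  obtain ⟨c⟩ := hch k₁ k₀ (by omega) (min κ₀ 1) (by positivity)
  -- the errors on the edges
  obtain ⟨d, hd, hdsum⟩ := ENNReal.exists_pos_sum_of_countable
    (ε := ENNReal.ofReal ε₁) (ENNReal.ofReal_pos.2 hε₁).ne' (Idx × Fin 3)
  set δ : Idx × Fin 3 → ℝ := fun e => min (d e : ℝ) (1 / 2 ^ e.1.1) with hδdef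
  have hδ : ∀ e, 0 < δ e := fun e => lt_min (by exact_mod_cast hd e) (by positivity)
  have hδ1 : ∀ e, δ e ≤ 1 / 2 ^ e.1.1 := fun e => min_le_right _ _
  have hδ2 : ∑' e, ENNReal.ofReal (δ e) ≤ ENNReal.ofReal ε₁ := by
    refine le_trans (ENNReal.tsum_le_tsum fun e => ?_) hdsum.le
    calc ENNReal.ofReal (δ e) ≤ ENNReal.ofReal (d e) := ENNReal.ofReal_le_ofReal (min_le_left _ _)
      _ = d e := ENNReal.ofReal_coe_nnreal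
  set δ₀ : ℝ := ε₁ / (c.J.card + 1) with hδ₀
  have hcard : (0:ℝ) ≤ c.J.card := Nat.cast_nonneg _
  have hδ₀0 : 0 < δ₀ := by positivity
  have hδ₀1 : δ₀ ≤ ε₁ := div_le_self hε₁.le (by linarith)
  have hδ₀2 : c.J.card * δ₀ ≤ ε₁ := by
    rw [hδ₀, ← mul_div_assoc, div_le_iff₀ (by positivity)]
    nlinarith
  obtain ⟨G, hGd, hGe, hGb⟩ := hga' ε₁ Ω Λ f F hε₁ hΩ hΛ hf hF (c.mono (min_le_left _ _)) δ hδ
    δ₀ hδ₀0
  have hkpos : (0:ℝ) < 2 ^ k₁ := by positivity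
  have hq1 : Q₁ / 2 ^ k₁ ≤ ε / 2 := le_trans (by gcongr; linarith) hkQ
  have hq2 : Q₂ / 2 ^ k₁ ≤ ε / 2 := le_trans (by gcongr; linarith) hkQ
  exact goodApprox_of hp hp2 hΩ c (min_le_right _ _) hM hε₁ hk₁ δ hδ hδ1 hδ2 hδ₀0 hδ₀1 hδ₀2 hGd
    hC hGe hGb hC₀ hW hW0 hgeo (by linarith) (by linarith) (by linarith)

/-- **(AB7)** -/
theorem specSum : SpecSum := fun _ _ hCh hGa => specFD_of hCh hGa

end Vale.Agent.P073.AB
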