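import Vale.Agent.P073.AB.SumDefs
import Vale.Agent.P073.SQ.Edge

/-!
# SpecSum: one-dimensional energies
-/

namespace Vale.Agent.P073.AB.S293

open MeasureTheory Set Filter Topology Metric Vale.Agent.P073.St
open Vale.Agent.P073.SQ (ev cube Cells dE faceE edgesE)
open P073.Net (IsTile dyc dyo SizeFn)
open Vale.Agent.P073.HB (GoodSeg)
open scoped ContDiff ENNReal

/-- affine change of variables -/
theorem aff_lintegral {g : ℝ → ℝ≥0∞} (hg : Measurable g) (c : ℝ) {r : ℝ} (hr : 0 < r) :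
    ∫⁻ x in Icc c (c + r), g x = ENNReal.ofReal r * ∫⁻ t in Icc (0:ℝ) 1, g (c + r * t) := by
  have h1 : ∫⁻ x in Icc c (c + r), g x = ∫⁻ x in Icc 0 r, g (c + x) := by
    have h := (measurePreserving_add_left (volume : Measure ℝ) c).setLIntegral_comp_preimage
      (measurableSet_Icc (a := c) (b := c + r)) hg
    rw [← h]
    congr 2
    ext x
    simp [mem_Icc]
  have h2 : ∫⁻ t in Icc (0:ℝ) 1, g (c + r * t) = ENNReal.ofReal r⁻¹ * ∫⁻ x in Icc 0 r, g (c + x) := by
    have hm : Measurable fun x : ℝ => g (c + x) := hg.comp (measurable_const_add c)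
    have h := Real.map_volume_mul_left hr.ne'
    have h3 : ∫⁻ x in Icc 0 r, g (c + x) ∂(Measure.map (r * ·) volume) =
        ∫⁻ t in (r * ·) ⁻¹' Icc 0 r, g (c + r * t) :=
      setLIntegral_map measurableSet_Icc hm (measurable_const_mul r)
    have h4 : (fun t : ℝ => r * t) ⁻¹' Icc 0 r = Icc 0 1 := by
      ext t
      simp only [mem_preimage, mem_Icc]
      constructor
      · rintro ⟨a, b⟩
        exact ⟨nonneg_of_mul_nonneg_right a hr, le_of_mul_le_mul_left (by linarith) hr⟩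
      · rintro ⟨a, b⟩
        exact ⟨mul_nonneg hr.le a, by nlinarith⟩
    rw [h4] at h3
    rw [← h3, h, Measure.restrict_smul, lintegral_smul_measure, abs_of_pos (inv_pos.2 hr)]
    rfl
  rw [h1, h2, ← mul_assoc, ← ENNReal.ofReal_mul hr.le, mul_inv_cancel₀ hr.ne', ENNReal.ofReal_one,
    one_mul]

theorem line_eq (v : V) (m : ℕ) (z : Fin 3 → ℤ) (j : Fin 3) (t : ℝ) :
    pt v m z + t • ((1 / 2 ^ m : ℝ) • ev j) =
      Function.update (pt v m z) j (v j + z j / 2 ^ m + 1 / 2 ^ m * t) := by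
  funext l
  by_cases h : l = j
  · subst h
    simp [ev, pt]; ring
  · simp [ev, Function.update_of_ne h, Pi.single_eq_of_ne h]

theorem eInt_eq (v : V) (e : Idx × Fin 3) {H : V → ℝ≥0∞} (hH : Measurable H) :
    eInt v e H = ∫⁻ t in Icc (v e.2 + e.1.2 e.2 / 2 ^ e.1.1) (v e.2 + (e.1.2 e.2 + 1) / 2 ^ e.1.1),
      H (Function.update (pt v e.1.1 e.1.2) e.2 t) := by
  have hm : Measurable fun t => H (Function.update (pt v e.1.1 e.1.2) e.2 t) :=
    hH.comp (measurable_update _)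
  have h1 : v e.2 + ((e.1.2 e.2 : ℝ) + 1) / 2 ^ e.1.1 = (v e.2 + e.1.2 e.2 / 2 ^ e.1.1) +
      1 / 2 ^ e.1.1 := by ring
  rw [h1, aff_lintegral hm _ (by positivity)]
  unfold eInt
  congr 1
  refine lintegral_congr fun t => ?_
  rw [line_eq]

theorem measurable_dE (p : ℝ) (G : V → V) (j : Fin 3) : Measurable (dE p G j) := by
  have := measurable_fderiv_apply_const ℝ G (ev j)
  exact (this.norm.pow_const p).ennreal_ofReal

/-- **edges of a square** -/
theorem edgesE_eq (p : ℝ) (G : V → V) (v : V) (s : Idx × Fin 3) :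
    edgesE p G (P86.sc v s) s.2 (1 / 2 / 2 ^ s.1.1) =
      ENNReal.ofReal ((1 / 2 ^ s.1.1) ^ 2) * ∑ e ∈ sqE s, eInt v e (dE p G e.2) := by
  rw [sum_sqE, Finset.mul_sum]
  unfold edgesE
  refine Finset.sum_congr rfl fun i hi => ?_
  have hik : i ≠ s.2 := Finset.ne_of_mem_erase hi
  have hsing : (Finset.univ.erase s.2).erase i = {third s.2 i} := by
    have : ∀ k i : Fin 3, i ≠ k → (Finset.univ.erase k).erase i = {third k i} := by decide
    exact this s.2 i hik
  have hρ : (0:ℝ) < 1 / 2 / 2 ^ s.1.1 := by positivity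
  have h2 : (2 * (1 / 2 / 2 ^ s.1.1) : ℝ) = 1 / 2 ^ s.1.1 := by ring
  rw [hsing, Finset.sum_singleton, Finset.sum_pair (by norm_num)]
  have key : ∀ (σ : ℝ) (τ : ℤ), (σ = 1 ∧ τ = 1) ∨ (σ = -1 ∧ τ = 0) →
      ∫⁻ x in cube (P86.sc v s) (1 / 2 / 2 ^ s.1.1), dE p G (third s.2 i)
        (Function.update (Function.update x s.2 (P86.sc v s s.2)) i
          (P86.sc v s i + σ * (1 / 2 / 2 ^ s.1.1))) =
      ENNReal.ofReal ((1 / 2 ^ s.1.1) ^ 2) *
        eInt v (sqEdge s i τ) (dE p G (sqEdge s i τ).2) := by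
    intro σ τ hστ
    rw [SQ.specEdge (P86.sc v s) _ s.2 i (third s.2 i) _ _ hρ (measurable_dE p G _) hik
      (third_ne_right hik) (third_ne_left hik), h2, eInt_eq _ _ (measurable_dE p G _)]
    congr 1
    have hj : third s.2 i ≠ s.2 := third_ne_left hik
    have hji : third s.2 i ≠ i := third_ne_right hik
    have e1 : P86.sc v s (third s.2 i) - 1 / 2 / 2 ^ s.1.1 =
        v (sqEdge s i τ).2 + (sqEdge s i τ).1.2 (sqEdge s i τ).2 / 2 ^ (sqEdge s i τ).1.1 := by
      simp only [P86.sc, if_neg hj, sqEdge, Function.update_of_ne hji]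
      ring
    have e2 : P86.sc v s (third s.2 i) + 1 / 2 / 2 ^ s.1.1 =
        v (sqEdge s i τ).2 +
          ((sqEdge s i τ).1.2 (sqEdge s i τ).2 + 1) / 2 ^ (sqEdge s i τ).1.1 := by
      simp only [P86.sc, if_neg hj, sqEdge, Function.update_of_ne hji]
      ring
    rw [e1, e2]
    refine lintegral_congr fun t => ?_
    congr 1
    show (Function.update (_ : V) (third s.2 i) t : V) = Function.update (_ : V) (third s.2 i) t
    funext l
    by_cases hl : l = third s.2 i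
    · subst hl; simp
    · rw [Function.update_of_ne hl, Function.update_of_ne hl]
      by_cases hli : l = i
      · subst hli
        rw [Function.update_self]
        simp only [P86.sc, if_neg hik, pt, sqEdge, Function.update_self]
        rcases hστ with ⟨rfl, rfl⟩ | ⟨rfl, rfl⟩
        · push_cast; ring
        · push_cast; ring
      · rw [Function.update_of_ne hli]
        have hlk : l = s.2 := by
          have : ∀ k a j : Fin 3, a ≠ k → j ≠ third k a → j ≠ a → j = k := by decide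
          exact this s.2 i l hik hl hli
        subst hlk
        simp only [P86.sc, if_true, pt, sqEdge, Function.update_of_ne hli]
  rw [key 1 1 (Or.inl ⟨rfl, rfl⟩), key (-1) 0 (Or.inr ⟨rfl, rfl⟩), mul_add, add_comm]

/-- energy on a square -/
theorem faceE_eq (p : ℝ) (G : V → V) (v : V) (s : Idx × Fin 3) :
    faceE p G (P86.sc v s) s.2 (1 / 2 / 2 ^ s.1.1) =
      ∑ j ∈ Finset.univ.erase s.2, ∫⁻ x in dyc v s.1.1 s.1.2,
        ENNReal.ofReal (‖fderiv ℝ G (Function.update x s.2 (pt v s.1.1 s.1.2 s.2)) (ev j)‖ ^ p) := by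
  unfold faceE
  refine Finset.sum_congr rfl fun j _ => ?_
  have hρ : (0:ℝ) < 1 / 2 / 2 ^ s.1.1 := by positivity
  have hl : ∀ l, l ≠ s.2 → |P86.sc v s l - P86.cen v s.1.1 s.1.2 l| + 1 / 2 / 2 ^ s.1.1 ≤
      1 / 2 / 2 ^ s.1.1 := by
    intro l hl
    simp [P86.sc, P86.cen, hl]
  have h1 := SQ.specLayer (P86.cen v s.1.1 s.1.2) (P86.sc v s) _ _ s.2 (P86.sc v s s.2) (dE p G j)
    hρ hρ (measurable_dE p G j) hl
  rw [div_self hρ.ne', ENNReal.ofReal_one, one_mul] at h1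
  rw [← h1]
  have h2 : cube (P86.cen v s.1.1 s.1.2) (1 / 2 / 2 ^ s.1.1) ∩
      {x | ∀ l, l ≠ s.2 → |x l - P86.sc v s l| ≤ 1 / 2 / 2 ^ s.1.1} = dyc v s.1.1 s.1.2 := by
    rw [P86.cube_eq]
    refine inter_eq_left.2 fun x hx l hl => ?_
    have h3 : x ∈ cube (P86.cen v s.1.1 s.1.2) (1 / 2 / 2 ^ s.1.1) := by rwa [P86.cube_eq]
    have h4 := h3 l
    have h5 : P86.sc v s l = P86.cen v s.1.1 s.1.2 l := by simp [P86.sc, P86.cen, hl]
    rwa [h5]
  rw [h2]
  have h6 : P86.sc v s s.2 = pt v s.1.1 s.1.2 s.2 := by simp [P86.sc, pt]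
  rw [h6]
  rfl

/-- subdivision of an edge -/
theorem eInt_sub (v : V) (e : Idx × Fin 3) (d : ℕ) {H : V → ℝ≥0∞} (hH : Measurable H) :
    eInt v e H ≤ ∑ j ∈ Finset.range (2 ^ d), eInt v (subEdge e d j) H := by
  have h2 : (0:ℝ) < 2 ^ e.1.1 := by positivity
  have h3 : (0:ℝ) < 2 ^ d := by positivity
  have hs : ∀ j : ℕ, eInt v (subEdge e d j) H = ∫⁻ t in
      Icc (v e.2 + (e.1.2 e.2 + j / 2 ^ d) / 2 ^ e.1.1)
        (v e.2 + (e.1.2 e.2 + (j + 1) / 2 ^ d) / 2 ^ e.1.1),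
      H (Function.update (pt v e.1.1 e.1.2) e.2 t) := by
    intro j
    rw [eInt_eq v _ hH]
    have e1 : v (subEdge e d j).2 + (subEdge e d j).1.2 (subEdge e d j).2 / 2 ^ (subEdge e d j).1.1 =
        v e.2 + (e.1.2 e.2 + j / 2 ^ d) / 2 ^ e.1.1 := by
      simp only [subEdge, if_true, pow_add]
      push_cast
      field_simp
    have e2 : v (subEdge e d j).2 +
        ((subEdge e d j).1.2 (subEdge e d j).2 + 1) / 2 ^ (subEdge e d j).1.1 =
        v e.2 + (e.1.2 e.2 + (j + 1) / 2 ^ d) / 2 ^ e.1.1 := by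
      simp only [subEdge, if_true, pow_add]
      push_cast
      field_simp
      ring
    rw [e1, e2]
    refine lintegral_congr fun t => ?_
    congr 1
    show (Function.update (_ : V) e.2 t : V) = Function.update (_ : V) e.2 t
    funext l
    by_cases hl : l = e.2
    · subst hl; simp
    · rw [Function.update_of_ne hl, Function.update_of_ne hl]
      simp only [pt, subEdge, if_neg hl, pow_add]
      push_cast
      field_simp
  rw [eInt_eq v e hH]
  have hcov : Icc (v e.2 + e.1.2 e.2 / 2 ^ e.1.1) (v e.2 + (e.1.2 e.2 + 1) / 2 ^ e.1.1) ⊆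
      ⋃ j : Fin (2 ^ d), Icc (v e.2 + (e.1.2 e.2 + (j:ℕ) / 2 ^ d) / 2 ^ e.1.1)
        (v e.2 + (e.1.2 e.2 + ((j:ℕ) + 1) / 2 ^ d) / 2 ^ e.1.1) := by
    intro t ht
    -- the position
    set u : ℝ := ((t - v e.2) * 2 ^ e.1.1 - e.1.2 e.2) * 2 ^ d with hu
    have ht' : t = v e.2 + (e.1.2 e.2 + u / 2 ^ d) / 2 ^ e.1.1 := by
      rw [hu]; field_simp; ring
    have hu0 : 0 ≤ u := by
      have h5 : (e.1.2 e.2 : ℝ) ≤ (t - v e.2) * 2 ^ e.1.1 := by
        rw [← div_le_iff₀ h2]; linarith [ht.1]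
      rw [hu]; exact mul_nonneg (by linarith) h3.le
    have hu1 : u ≤ 2 ^ d := by
      have h5 : (t - v e.2) * 2 ^ e.1.1 ≤ (e.1.2 e.2 : ℝ) + 1 := by
        rw [← le_div_iff₀ h2]; linarith [ht.2]
      rw [hu]
      calc ((t - v e.2) * 2 ^ e.1.1 - e.1.2 e.2) * 2 ^ d ≤ 1 * 2 ^ d :=
            mul_le_mul_of_nonneg_right (by linarith) h3.le
        _ = 2 ^ d := one_mul _
    obtain ⟨j, hj, hj1, hj2⟩ : ∃ j : ℕ, j < 2 ^ d ∧ (j:ℝ) ≤ u ∧ u ≤ j + 1 := by
      rcases lt_or_eq_of_le hu1 with h | h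
      · refine ⟨⌊u⌋₊, ?_, Nat.floor_le hu0, (Nat.lt_floor_add_one u).le⟩
        have : (⌊u⌋₊ : ℝ) < 2 ^ d := (Nat.floor_le hu0).trans_lt h
        exact_mod_cast this
      · have hpos : 1 ≤ 2 ^ d := Nat.one_le_two_pow
        refine ⟨2 ^ d - 1, by omega, ?_, ?_⟩
        · rw [h]; push_cast [Nat.cast_sub hpos]; linarith
        · rw [h]; push_cast [Nat.cast_sub hpos]; linarith
    refine mem_iUnion.2 ⟨⟨j, hj⟩, ?_⟩
    rw [ht']
    constructor
    · show v e.2 + (e.1.2 e.2 + (j:ℝ) / 2 ^ d) / 2 ^ e.1.1 ≤ _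
      gcongr
    · show _ ≤ v e.2 + (e.1.2 e.2 + ((j:ℝ) + 1) / 2 ^ d) / 2 ^ e.1.1
      gcongr
  refine (lintegral_mono_set hcov).trans ((lintegral_iUnion_le _ _).trans ?_)
  rw [tsum_fintype, Finset.sum_range]
  exact Finset.sum_le_sum fun j _ => (hs j).ge

end Vale.Agent.P073.AB.S293
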