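import Vale.Agent.P073.AB.Sum293a

/-!
# SpecSum: energies of the edges
-/

namespace Vale.Agent.P073.AB.S293

open MeasureTheory Set Filter Topology Metric Vale.Agent.P073.St
open Vale.Agent.P073.SQ (ev cube Cells dE faceE edgesE)
open P073.Net (IsTile dyc dyo SizeFn)
open Vale.Agent.P073.HB (GoodSeg)
open scoped ContDiff ENNReal

theorem pow_add_le {p a b : ℝ} (hp : 1 ≤ p) (hp2 : p < 2) (ha : 0 ≤ a) (hb : 0 ≤ b) :
    (a + b) ^ p ≤ 2 * (a ^ p + b ^ p) := by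
  have h1 := (convexOn_rpow hp).2 (mem_Ici.2 ha) (mem_Ici.2 hb) (show (0:ℝ) ≤ 1 / 2 by norm_num)
    (show (0:ℝ) ≤ 1 / 2 by norm_num) (by norm_num)
  simp only [smul_eq_mul] at h1
  have h2 : (a + b) ^ p = 2 ^ p * ((1 / 2 * a + 1 / 2 * b) ^ p) := by
    rw [← Real.mul_rpow (by norm_num) (by positivity)]
    congr 1; ring
  have h3 : (2:ℝ) ^ p ≤ 4 := by
    calc (2:ℝ) ^ p ≤ 2 ^ (2:ℝ) := Real.rpow_le_rpow_of_exponent_le (by norm_num) hp2.le
      _ = 4 := by norm_num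
  rw [h2]
  have h4 : 0 ≤ 1 / 2 * a ^ p + 1 / 2 * b ^ p := by positivity
  calc (2:ℝ) ^ p * ((1 / 2 * a + 1 / 2 * b) ^ p) ≤ 2 ^ p * (1 / 2 * a ^ p + 1 / 2 * b ^ p) := by
        gcongr
    _ ≤ 4 * (1 / 2 * a ^ p + 1 / 2 * b ^ p) := by gcongr
    _ = 2 * (a ^ p + b ^ p) := by ring

/-- the basic inequality -/
theorem ofReal_pow_le {p : ℝ} (hp : 1 ≤ p) (hp2 : p < 2) (x y : V) :
    ENNReal.ofReal (‖x‖ ^ p) ≤
      2 * ENNReal.ofReal (‖x - y‖ ^ p) + 2 * ENNReal.ofReal (‖y‖ ^ p) := by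
  have h1 : ‖x‖ ^ p ≤ 2 * (‖x - y‖ ^ p + ‖y‖ ^ p) := by
    refine le_trans ?_ (pow_add_le hp hp2 (norm_nonneg _) (norm_nonneg _))
    refine Real.rpow_le_rpow (norm_nonneg _) ?_ (by linarith)
    calc ‖x‖ = ‖(x - y) + y‖ := by rw [sub_add_cancel]
      _ ≤ _ := norm_add_le _ _
  calc ENNReal.ofReal (‖x‖ ^ p) ≤ ENNReal.ofReal (2 * (‖x - y‖ ^ p + ‖y‖ ^ p)) :=
        ENNReal.ofReal_le_ofReal h1
    _ = _ := by
        rw [ENNReal.ofReal_mul (by norm_num), ENNReal.ofReal_add (by positivity) (by positivity),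
          mul_add]
        norm_num

/-- the parametrisation of an edge -/
noncomputable def gam (v : V) (e : Idx × Fin 3) (t : ℝ) : V :=
  pt v e.1.1 e.1.2 + t • ((1 / 2 ^ e.1.1 : ℝ) • ev e.2)

theorem eInt_mono (v : V) (e : Idx × Fin 3) {H K : V → ℝ≥0∞} (h : ∀ x, H x ≤ K x) :
    eInt v e H ≤ eInt v e K := by
  unfold eInt
  gcongr
  exact h _

theorem eInt_add (v : V) (e : Idx × Fin 3) (H K : V → ℝ≥0∞)
    (hK : AEMeasurable (fun t => K (gam v e t)) (volume.restrict (Icc (0:ℝ) 1))) :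
    eInt v e (fun x => H x + K x) = eInt v e H + eInt v e K := by
  unfold eInt
  rw [← mul_add]
  congr 1
  exact lintegral_add_right' _ hK

theorem eInt_const_mul (v : V) (e : Idx × Fin 3) (a : ℝ≥0∞) (ha : a ≠ ⊤) (H : V → ℝ≥0∞) :
    eInt v e (fun x => a * H x) = a * eInt v e H := by
  unfold eInt
  rw [lintegral_const_mul' _ _ ha]
  ring

theorem eInt_const (v : V) (e : Idx × Fin 3) (a : ℝ≥0∞) :
    eInt v e (fun _ => a) = ENNReal.ofReal (1 / 2 ^ e.1.1) * a := by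
  unfold eInt
  simp

theorem aemeas_F {v : V} {Ω : Set V} {f : V → V} {F : V → Mat} (h : RatGood v Ω f F)
    {e : Idx × Fin 3} (he : edge v e ⊆ Ω) :
    AEStronglyMeasurable (fun t => cl (F (gam v e t)) (ev e.2)) (volume.restrict (Icc (0:ℝ) 1)) := by
  have h1 := h (pt v e.1.1 e.1.2) (pt v e.1.1 e.1.2 + (1 / 2 ^ e.1.1 : ℝ) • ev e.2)
    (fun k => ⟨(e.1.2 k : ℚ) / 2 ^ e.1.1, by simp [pt]⟩)
    (fun k => ⟨(e.1.2 k : ℚ) / 2 ^ e.1.1 + 1 / 2 ^ e.1.1 * (if k = e.2 then 1 else 0), by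
      by_cases hk : k = e.2
      · subst hk; simp [pt, ev]; ring
      · simp [pt, ev, hk]⟩) he
  rw [add_sub_cancel_left] at h1
  have h2 := h1.integrableOn.aestronglyMeasurable
  have h3 : AEStronglyMeasurable (fun t : ℝ => (2 ^ e.1.1 : ℝ) •
      cl (F (pt v e.1.1 e.1.2 + t • ((1 / 2 ^ e.1.1 : ℝ) • ev e.2)))
        ((1 / 2 ^ e.1.1 : ℝ) • ev e.2)) (volume.restrict (Ioc (0:ℝ) 1)) :=
    h2.const_smul (2 ^ e.1.1 : ℝ)
  rw [restrict_Ioc_eq_restrict_Icc] at h3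
  refine h3.congr (Eventually.of_forall fun t => ?_)
  show (2 ^ e.1.1 : ℝ) • cl (F _) ((1 / 2 ^ e.1.1 : ℝ) • ev e.2) = _
  rw [map_smul, smul_smul, mul_one_div_cancel (by positivity), one_smul]
  rfl

theorem aemeas_pow {v : V} {Ω : Set V} {f : V → V} {F : V → Mat} (h : RatGood v Ω f F)
    {e : Idx × Fin 3} (he : edge v e ⊆ Ω) (w : V) (p : ℝ) (a : ℝ≥0∞) :
    AEMeasurable (fun t => a * ENNReal.ofReal (‖cl (F (gam v e t)) (ev e.2) - w‖ ^ p))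
      (volume.restrict (Icc (0:ℝ) 1)) := by
  have h1 := ((aemeas_F h he).sub aestronglyMeasurable_const (g := fun _ => w)).norm.aemeasurable
  exact ((h1.pow_const p).ennreal_ofReal).const_mul a

/-- an edge on which only the energy of `f` is known -/
theorem eInt_G_le {p : ℝ} (hp : 1 ≤ p) (hp2 : p < 2) {v : V} {Ω : Set V} {f : V → V} {F : V → Mat}
    (h : RatGood v Ω f F) {e : Idx × Fin 3} (he : edge v e ⊆ Ω) (G : V → V) {δ : ℝ}
    (hG : eInt v e (fun x => ENNReal.ofReal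
      (‖fderiv ℝ G x (ev e.2) - cl (F x) (ev e.2)‖ ^ p)) ≤ ENNReal.ofReal δ) :
    eInt v e (dE p G e.2) ≤ 2 * ENNReal.ofReal δ +
      2 * eInt v e (fun x => ENNReal.ofReal (‖cl (F x) (ev e.2)‖ ^ p)) := by
  have h1 : eInt v e (dE p G e.2) ≤ eInt v e (fun x =>
      2 * ENNReal.ofReal (‖fderiv ℝ G x (ev e.2) - cl (F x) (ev e.2)‖ ^ p) +
      2 * ENNReal.ofReal (‖cl (F x) (ev e.2)‖ ^ p)) :=
    eInt_mono v e fun x => ofReal_pow_le hp hp2 _ _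
  refine h1.trans ?_
  rw [eInt_add v e _ _ (by simpa using aemeas_pow h he 0 p 2), eInt_const_mul _ _ _ (by norm_num),
    eInt_const_mul _ _ _ (by norm_num)]
  gcongr

/-- an edge on which `f` is nearly affine -/
theorem eInt_G_le' {p : ℝ} (hp : 1 ≤ p) (hp2 : p < 2) {v : V} {Ω : Set V} {f : V → V}
    {F : V → Mat} (h : RatGood v Ω f F) {e : Idx × Fin 3} (he : edge v e ⊆ Ω) (G : V → V)
    {M : ℝ} (hM : 0 < M)
    (hG : eInt v e (fun x => ENNReal.ofReal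
      (‖fderiv ℝ G x (ev e.2) - cl (F x) (ev e.2)‖ ^ p)) ≤ ENNReal.ofReal (1 / 2 ^ e.1.1))
    (L : V →L[ℝ] V) (hL : ‖L (ev e.2)‖ ≤ M)
    (hF : eInt v e (fun x => ENNReal.ofReal (‖cl (F x) (ev e.2) - L (ev e.2)‖ ^ p)) ≤
      ENNReal.ofReal (1 / 2 ^ e.1.1)) :
    eInt v e (dE p G e.2) ≤ ENNReal.ofReal ((6 + 4 * M ^ p) / 2 ^ e.1.1) := by
  refine (eInt_G_le hp hp2 h he G hG).trans ?_
  have h1 : eInt v e (fun x => ENNReal.ofReal (‖cl (F x) (ev e.2)‖ ^ p)) ≤ eInt v e (fun x =>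
      2 * ENNReal.ofReal (‖cl (F x) (ev e.2) - L (ev e.2)‖ ^ p) +
      2 * ENNReal.ofReal (‖L (ev e.2)‖ ^ p)) :=
    eInt_mono v e fun x => ofReal_pow_le hp hp2 _ _
  rw [eInt_add v e _ _ aemeasurable_const, eInt_const_mul _ _ _ (by norm_num), eInt_const] at h1
  have h2 : ENNReal.ofReal (‖L (ev e.2)‖ ^ p) ≤ ENNReal.ofReal (M ^ p) :=
    ENNReal.ofReal_le_ofReal (Real.rpow_le_rpow (norm_nonneg _) hL (by linarith))
  have hpos : (0:ℝ) < 1 / 2 ^ e.1.1 := by positivity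
  calc 2 * ENNReal.ofReal (1 / 2 ^ e.1.1) +
      2 * eInt v e (fun x => ENNReal.ofReal (‖cl (F x) (ev e.2)‖ ^ p))
      ≤ 2 * ENNReal.ofReal (1 / 2 ^ e.1.1) + 2 * (2 * ENNReal.ofReal (1 / 2 ^ e.1.1) +
        ENNReal.ofReal (1 / 2 ^ e.1.1) * (2 * ENNReal.ofReal (M ^ p))) := by
        gcongr
        refine h1.trans ?_
        gcongr
    _ = ENNReal.ofReal ((6 + 4 * M ^ p) / 2 ^ e.1.1) := by
        have e2 : (2:ℝ≥0∞) = ENNReal.ofReal 2 := by norm_num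
        rw [e2, ← ENNReal.ofReal_mul (by norm_num), ← ENNReal.ofReal_mul (by norm_num),
          ← ENNReal.ofReal_mul (by positivity), ← ENNReal.ofReal_add (by positivity) (by positivity),
          ← ENNReal.ofReal_mul (by norm_num), ← ENNReal.ofReal_add (by positivity) (by positivity)]
        congr 1
        ring

/-- multiplication of small numbers -/
theorem ev_norm (j : Fin 3) : ‖ev j‖ = 1 := by
  unfold ev
  rw [Pi.norm_single, norm_one]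

/-- points of an edge composed of subedges -/
theorem mem_subEdge {v : V} {e : Idx × Fin 3} {x : V} (hx : x ∈ edge v e) (d : ℕ) :
    ∃ j < 2 ^ d, x ∈ edge v (subEdge e d j) := by
  have h2 : (0:ℝ) < 2 ^ e.1.1 := by positivity
  have h3 : (0:ℝ) < 2 ^ d := by positivity
  rw [edge, segment_eq_image'] at hx
  obtain ⟨θ, hθ, rfl⟩ := hx
  obtain ⟨j, hj, hj1, hj2⟩ : ∃ j : ℕ, j < 2 ^ d ∧ (j:ℝ) ≤ θ * 2 ^ d ∧ θ * 2 ^ d ≤ j + 1 := by
    have hu0 : 0 ≤ θ * 2 ^ d := mul_nonneg hθ.1 h3.le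
    have hu1 : θ * 2 ^ d ≤ 2 ^ d := by nlinarith [hθ.2]
    rcases lt_or_eq_of_le hu1 with h | h
    · refine ⟨⌊θ * 2 ^ d⌋₊, ?_, Nat.floor_le hu0, (Nat.lt_floor_add_one _).le⟩
      have : (⌊θ * 2 ^ d⌋₊ : ℝ) < 2 ^ d := (Nat.floor_le hu0).trans_lt h
      exact_mod_cast this
    · have hpos : 1 ≤ 2 ^ d := Nat.one_le_two_pow
      refine ⟨2 ^ d - 1, by omega, ?_, ?_⟩
      · rw [h]; push_cast [Nat.cast_sub hpos]; linarith
      · rw [h]; push_cast [Nat.cast_sub hpos]; linarith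
  refine ⟨j, hj, ?_⟩
  rw [edge, segment_eq_image']
  refine ⟨θ * 2 ^ d - j, ⟨by linarith, by linarith⟩, ?_⟩
  funext l
  by_cases hl : l = e.2
  · subst hl
    simp [pt, subEdge, ev, pow_add]
    field_simp
    ring
  · simp [pt, subEdge, ev, hl, pow_add]
    field_simp

end Vale.Agent.P073.AB.S293
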