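import Vale.Agent.P073.AB.Sum293b

/-!
# SpecSum: the energy of the cells
-/

namespace Vale.Agent.P073.AB.S293

open MeasureTheory Set Filter Topology Metric Vale.Agent.P073.St
open Vale.Agent.P073.SQ (ev cube Cells dE faceE edgesE)
open P073.Net (IsTile dyc dyo SizeFn)
open Vale.Agent.P073.HB (GoodSeg)
open scoped ContDiff ENNReal

/-- the bounds of the energy on the edges -/
structure Dat (p B C : ℝ) (Ω : Set V) (v : V) (n₂ k₁ k₀ : ℕ) (J : Finset (Fin 3 → ℤ))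
    (G : V → V) : Prop where
  fine : ∀ e ∈ GE Ω v n₂ k₁ k₀ J, ∀ z ∈ J, edge v e ⊆ dyc v n₂ z →
    eInt v e (dE p G e.2) ≤ ENNReal.ofReal (B / 2 ^ (n₂ + k₁ + k₀))
  gap : ∀ z ∈ J, ∀ e ∈ GapE v n₂ k₁ z,
    eInt v e (dE p G e.2) ≤ ENNReal.ofReal (C / 2 ^ (n₂ + k₁))
  face : ∀ z ∈ J, ∀ s : Idx × Fin 3, s.1.1 = n₂ + k₁ → squ v s ⊆ frontier (boxR v n₂ k₁ z) →
    faceE p G (P86.sc v s) s.2 (1 / 2 / 2 ^ s.1.1) ≤ ENNReal.ofReal (C / 8 ^ (n₂ + k₁))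

variable {p B C : ℝ} {Ω : Set V} {v : V} {n₂ k₁ k₀ : ℕ} {J : Finset (Fin 3 → ℤ)} {G : V → V}

theorem Dat.frE (D : Dat p B C Ω v n₂ k₁ k₀ J G) (hB : 0 ≤ B) {z : Fin 3 → ℤ} (hz : z ∈ J)
    {e : Idx × Fin 3} (he : e ∈ FrE Ω v n₂ k₁ k₀ J z) :
    eInt v e (dE p G e.2) ≤ ENNReal.ofReal (B / 2 ^ (n₂ + k₁)) := by
  refine (eInt_sub v e k₀ (measurable_dE p G e.2)).trans ?_
  calc ∑ j ∈ Finset.range (2 ^ k₀), eInt v (subEdge e k₀ j) (dE p G e.2)
      ≤ ∑ j ∈ Finset.range (2 ^ k₀), ENNReal.ofReal (B / 2 ^ (n₂ + k₁ + k₀)) :=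
        Finset.sum_le_sum fun j hj => D.fine _ (he.2.2 j (Finset.mem_range.1 hj)).1 z hz
          (he.2.2 j (Finset.mem_range.1 hj)).2
    _ = ENNReal.ofReal (B / 2 ^ (n₂ + k₁)) := by
        rw [Finset.sum_const, Finset.card_range, nsmul_eq_mul, ← ENNReal.ofReal_natCast,
          ← ENNReal.ofReal_mul (by positivity)]
        congr 1
        push_cast
        rw [pow_add _ (n₂ + k₁) k₀]
        field_simp

theorem sum_sqE_le {s : Idx × Fin 3} {E : Idx × Fin 3 → ℝ≥0∞} {b : ℝ≥0∞}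
    (h : ∀ e ∈ sqE s, E e ≤ b) : ∑ e ∈ sqE s, E e ≤ 4 * b := by
  calc ∑ e ∈ sqE s, E e ≤ ∑ _e ∈ sqE s, b := Finset.sum_le_sum h
    _ = (sqE s).card * b := by rw [Finset.sum_const, nsmul_eq_mul]
    _ ≤ 4 * b := by
        gcongr
        exact_mod_cast card_sqE_le s

section cells

variable (hΩ : IsOpen Ω) (hI : Part Ω v (newI Ω v n₂ k₁ k₀ J))
  (hP : newP v n₂ k₁ J ⊆ newI Ω v n₂ k₁ k₀ J)

theorem mem_bd (i : (P86.cells hΩ hI hP).ι) (t : (P86.cells hΩ hI hP).κ) :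
    t ∈ (P86.cells hΩ hI hP).bd i ↔ squ v t.1 ⊆ dyc v i.1.1 i.1.2 :=
  Set.Finite.mem_toFinset _

theorem ratio (i t : ℕ) : (1 / 2 / 2 ^ i : ℝ) / (1 / 2 / 2 ^ t) = 2 ^ t / 2 ^ i := by
  field_simp

/-- tiles -/
theorem en_tile (i : (P86.cells hΩ hI hP).ι)
    (hsq : ∀ s, MinSq v (newI Ω v n₂ k₁ k₀ J) s → squ v s ⊆ dyc v i.1.1 i.1.2 →
      i.1.1 ≤ s.1.1 ∧ s.1.1 ≤ i.1.1 + 2 ∧ (∀ r ∈ newP v n₂ k₁ J, ¬ squ v s ⊆ dyc v r.1 r.2) ∧
        ∀ e ∈ sqE s, e ∈ GE Ω v n₂ k₁ k₀ J) :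
    (P86.cells hΩ hI hP).en p G i ≤ ∑ t ∈ (P86.cells hΩ hI hP).bd i, ∑ e ∈ sqE t.1,
      4 * (ENNReal.ofReal ((1 / 2 ^ e.1.1) ^ 2) * eInt v e (dE p G e.2)) := by
  classical
  unfold Cells.en
  refine Finset.sum_le_sum fun t ht => ?_
  rw [mem_bd] at ht
  obtain ⟨h1, h2, h3, h4⟩ := hsq t.1 t.2.1 ht
  have hc : t ∉ (P86.cells hΩ hI hP).ctrl := fun ⟨r, hr, hsub⟩ => h3 r hr hsub
  rw [if_neg hc]
  show ENNReal.ofReal ((1 / 2 / 2 ^ i.1.1 : ℝ) / (1 / 2 / 2 ^ t.1.1.1)) *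
    edgesE p G (P86.sc v t.1) t.1.2 (1 / 2 / 2 ^ t.1.1.1) ≤ _
  rw [edgesE_eq, ratio, ← Finset.mul_sum]
  have e1 : ENNReal.ofReal (2 ^ t.1.1.1 / 2 ^ i.1.1) ≤ 4 := by
    have : (2:ℝ) ^ t.1.1.1 / 2 ^ i.1.1 ≤ 4 := by
      rw [div_le_iff₀ (by positivity)]
      calc (2:ℝ) ^ t.1.1.1 ≤ 2 ^ (i.1.1 + 2) := pow_le_pow_right₀ (by norm_num) h2
        _ = 4 * 2 ^ i.1.1 := by rw [pow_add]; ring
    calc ENNReal.ofReal (2 ^ t.1.1.1 / 2 ^ i.1.1) ≤ ENNReal.ofReal 4 :=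
          ENNReal.ofReal_le_ofReal this
      _ = 4 := by norm_num
  have e2 : ENNReal.ofReal ((1 / 2 ^ t.1.1.1) ^ 2) * ∑ e ∈ sqE t.1, eInt v e (dE p G e.2) =
      ∑ e ∈ sqE t.1, ENNReal.ofReal ((1 / 2 ^ e.1.1) ^ 2) * eInt v e (dE p G e.2) := by
    rw [Finset.mul_sum]
    refine Finset.sum_congr rfl fun e he => ?_
    rw [(mem_sqE.1 he).1]
  rw [e2]
  gcongr

/-- gap cubes -/
theorem en_gap (D : Dat p B C Ω v n₂ k₁ k₀ J G) (hB : 0 ≤ B) (hC : 0 ≤ C)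
    (i : (P86.cells hΩ hI hP).ι) (hi : i.1.1 = n₂ + k₁) {z : Fin 3 → ℤ} (hz : z ∈ J)
    (hsq : ∀ s, MinSq v (newI Ω v n₂ k₁ k₀ J) s → squ v s ⊆ dyc v i.1.1 i.1.2 →
      (s.1.1 = n₂ + k₁ ∧ squ v s ⊆ frontier (boxR v n₂ k₁ z) ∧
        ∃ r ∈ newP v n₂ k₁ J, squ v s ⊆ dyc v r.1 r.2) ∨
      ((∀ r ∈ newP v n₂ k₁ J, ¬ squ v s ⊆ dyc v r.1 r.2) ∧
        ((s.1.1 = n₂ + k₁ + k₀ ∧
          ∀ e ∈ sqE s, e ∈ GE Ω v n₂ k₁ k₀ J ∧ edge v e ⊆ dyc v n₂ z) ∨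
        (s.1.1 = n₂ + k₁ ∧ ∀ e ∈ sqE s, e ∈ GapE v n₂ k₁ z ∨ e ∈ FrE Ω v n₂ k₁ k₀ J z))))
    (hc1 : (((P86.cells hΩ hI hP).bd i).filter fun t => t.1.1.1 = n₂ + k₁ + k₀).card ≤ 6 * 4 ^ k₀)
    (hc2 : (((P86.cells hΩ hI hP).bd i).filter fun t => t.1.1.1 = n₂ + k₁).card ≤ 6) :
    (P86.cells hΩ hI hP).en p G i ≤ ENNReal.ofReal ((48 * B + 30 * C) / 8 ^ (n₂ + k₁)) := by
  classical
  set a₁ : ℝ := 2 ^ k₀ * (4 * B / 8 ^ (n₂ + k₁ + k₀)) with ha₁
  set a₂ : ℝ := (C + 4 * (B + C)) / 8 ^ (n₂ + k₁) with ha₂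
  have ha₁0 : 0 ≤ a₁ := by positivity
  have ha₂0 : 0 ≤ a₂ := by positivity
  have h8 : ∀ n : ℕ, ((1 / 2 ^ n : ℝ)) ^ 2 * (1 / 2 ^ n) = 1 / 8 ^ n := by
    intro n
    rw [← pow_succ, div_pow, one_pow, ← pow_mul, mul_comm n, pow_mul]; norm_num
  unfold Cells.en
  calc _ ≤ ∑ t ∈ (P86.cells hΩ hI hP).bd i,
      ((if t.1.1.1 = n₂ + k₁ + k₀ then ENNReal.ofReal a₁ else 0) +
        (if t.1.1.1 = n₂ + k₁ then ENNReal.ofReal a₂ else 0)) := by
        refine Finset.sum_le_sum fun t ht => ?_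
        rw [mem_bd] at ht
        show ENNReal.ofReal ((1 / 2 / 2 ^ i.1.1 : ℝ) / (1 / 2 / 2 ^ t.1.1.1)) *
          (if t ∈ (P86.cells hΩ hI hP).ctrl then
            faceE p G (P86.sc v t.1) t.1.2 (1 / 2 / 2 ^ t.1.1.1)
          else edgesE p G (P86.sc v t.1) t.1.2 (1 / 2 / 2 ^ t.1.1.1)) ≤ _
        rw [ratio]
        rcases hsq t.1 t.2.1 ht with ⟨h1, h2, h3⟩ | ⟨h1, h2⟩
        · -- controlled
          have hc : t ∈ (P86.cells hΩ hI hP).ctrl := h3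
          rw [if_pos hc]
          refine le_trans ?_ (le_add_of_nonneg_left zero_le)
          rw [if_pos h1, h1, hi, div_self (by positivity), ENNReal.ofReal_one, one_mul]
          have h4 := D.face z hz t.1 h1 h2
          rw [h1] at h4
          refine h4.trans (ENNReal.ofReal_le_ofReal ?_)
          rw [ha₂]
          gcongr
          linarith
        · have hc : t ∉ (P86.cells hΩ hI hP).ctrl := fun ⟨r, hr, hsub⟩ => h1 r hr hsub
          rw [if_neg hc, edgesE_eq]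
          rcases h2 with ⟨h2, h3⟩ | ⟨h2, h3⟩
          · refine le_trans ?_ (le_add_of_nonneg_right zero_le)
            rw [if_pos h2, h2, hi]
            have h4 : ∑ e ∈ sqE t.1, eInt v e (dE p G e.2) ≤
                4 * ENNReal.ofReal (B / 2 ^ (n₂ + k₁ + k₀)) :=
              sum_sqE_le fun e he => D.fine e (h3 e he).1 z hz (h3 e he).2
            calc ENNReal.ofReal (2 ^ (n₂ + k₁ + k₀) / 2 ^ (n₂ + k₁)) *
                (ENNReal.ofReal ((1 / 2 ^ (n₂ + k₁ + k₀)) ^ 2) *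
                  ∑ e ∈ sqE t.1, eInt v e (dE p G e.2))
                ≤ ENNReal.ofReal (2 ^ (n₂ + k₁ + k₀) / 2 ^ (n₂ + k₁)) *
                (ENNReal.ofReal ((1 / 2 ^ (n₂ + k₁ + k₀)) ^ 2) *
                  (4 * ENNReal.ofReal (B / 2 ^ (n₂ + k₁ + k₀)))) := by gcongr
              _ = ENNReal.ofReal a₁ := by
                  have e4 : (4:ℝ≥0∞) = ENNReal.ofReal 4 := by norm_num
                  rw [e4, ← ENNReal.ofReal_mul (by norm_num), ← ENNReal.ofReal_mul (by positivity),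
                    ← ENNReal.ofReal_mul (by positivity)]
                  congr 1
                  have e5 : (2:ℝ) ^ (n₂ + k₁ + k₀) / 2 ^ (n₂ + k₁) = 2 ^ k₀ := by
                    rw [pow_add _ (n₂ + k₁) k₀]; field_simp
                  rw [e5, ha₁]
                  have := h8 (n₂ + k₁ + k₀)
                  calc (2:ℝ) ^ k₀ * ((1 / 2 ^ (n₂ + k₁ + k₀)) ^ 2 * (4 * (B / 2 ^ (n₂ + k₁ + k₀))))
                      = 2 ^ k₀ * (4 * B) *
                        ((1 / 2 ^ (n₂ + k₁ + k₀)) ^ 2 * (1 / 2 ^ (n₂ + k₁ + k₀))) := by ring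
                    _ = 2 ^ k₀ * (4 * B / 8 ^ (n₂ + k₁ + k₀)) := by rw [this]; ring
          · refine le_trans ?_ (le_add_of_nonneg_left zero_le)
            rw [if_pos h2, h2, hi, div_self (by positivity), ENNReal.ofReal_one, one_mul]
            have h4 : ∑ e ∈ sqE t.1, eInt v e (dE p G e.2) ≤
                4 * ENNReal.ofReal ((B + C) / 2 ^ (n₂ + k₁)) := by
              refine sum_sqE_le fun e he => ?_
              rcases h3 e he with h | h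
              · refine (D.gap z hz e h).trans (ENNReal.ofReal_le_ofReal ?_)
                gcongr; linarith
              · refine (D.frE hB hz h).trans (ENNReal.ofReal_le_ofReal ?_)
                gcongr; linarith
            calc ENNReal.ofReal ((1 / 2 ^ (n₂ + k₁)) ^ 2) *
                  ∑ e ∈ sqE t.1, eInt v e (dE p G e.2)
                ≤ ENNReal.ofReal ((1 / 2 ^ (n₂ + k₁)) ^ 2) *
                  (4 * ENNReal.ofReal ((B + C) / 2 ^ (n₂ + k₁))) := by gcongr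
              _ ≤ ENNReal.ofReal a₂ := by
                  have e4 : (4:ℝ≥0∞) = ENNReal.ofReal 4 := by norm_num
                  rw [e4, ← ENNReal.ofReal_mul (by norm_num), ← ENNReal.ofReal_mul (by positivity)]
                  refine ENNReal.ofReal_le_ofReal ?_
                  rw [ha₂]
                  have := h8 (n₂ + k₁)
                  calc ((1 / 2 ^ (n₂ + k₁) : ℝ)) ^ 2 * (4 * ((B + C) / 2 ^ (n₂ + k₁)))
                      = (4 * (B + C)) *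
                        ((1 / 2 ^ (n₂ + k₁)) ^ 2 * (1 / 2 ^ (n₂ + k₁))) := by ring
                    _ = (4 * (B + C)) / 8 ^ (n₂ + k₁) := by rw [this]; ring
                    _ ≤ (C + 4 * (B + C)) / 8 ^ (n₂ + k₁) := by gcongr; linarith
    _ = (((P86.cells hΩ hI hP).bd i).filter fun t => t.1.1.1 = n₂ + k₁ + k₀).card *
          ENNReal.ofReal a₁ +
        (((P86.cells hΩ hI hP).bd i).filter fun t => t.1.1.1 = n₂ + k₁).card *
          ENNReal.ofReal a₂ := by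
        rw [Finset.sum_add_distrib, ← Finset.sum_filter, ← Finset.sum_filter, Finset.sum_const,
          Finset.sum_const, nsmul_eq_mul, nsmul_eq_mul]
    _ ≤ ENNReal.ofReal (6 * 4 ^ k₀) * ENNReal.ofReal a₁ + ENNReal.ofReal 6 * ENNReal.ofReal a₂ := by
        gcongr
        · rw [← ENNReal.ofReal_natCast]
          exact ENNReal.ofReal_le_ofReal (by exact_mod_cast hc1)
        · rw [← ENNReal.ofReal_natCast]
          exact ENNReal.ofReal_le_ofReal (by exact_mod_cast hc2)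
    _ = ENNReal.ofReal ((48 * B + 30 * C) / 8 ^ (n₂ + k₁)) := by
        rw [← ENNReal.ofReal_mul (by positivity), ← ENNReal.ofReal_mul (by positivity),
          ← ENNReal.ofReal_add (by positivity) (by positivity)]
        congr 1
        rw [ha₁, ha₂, pow_add _ (n₂ + k₁) k₀]
        have e8 : (8:ℝ) ^ k₀ = 4 ^ k₀ * 2 ^ k₀ := by rw [← mul_pow]; norm_num
        rw [e8]
        field_simp
        ring

end cells

end Vale.Agent.P073.AB.S293
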