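import Vale.Agent.P073.AB.Sum293c

/-!
# SpecSum: the total energy of the cells
-/

namespace Vale.Agent.P073.AB.S293

open MeasureTheory Set Filter Topology Metric Vale.Agent.P073.St
open Vale.Agent.P073.SQ (ev cube Cells dE faceE edgesE)
open P073.Net (IsTile dyc dyo SizeFn)
open Vale.Agent.P073.HB (GoodSeg)
open scoped ContDiff ENNReal

variable {p B C : ℝ} {Ω : Set V} {v : V} {n₂ k₁ k₀ : ℕ} {J : Finset (Fin 3 → ℤ)} {G : V → V}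

/-- the sum over the good edges -/
theorem sum_GE (D : Dat p B C Ω v n₂ k₁ k₀ J G) (hB : 0 ≤ B) (e₀ : ℝ) (he₀ : 0 ≤ e₀)
    (H : Idx × Fin 3 → ℝ≥0∞) (δ : Idx × Fin 3 → ℝ≥0∞)
    (hG : ∀ e ∈ GE Ω v n₂ k₁ k₀ J, eInt v e (dE p G e.2) ≤ 2 * δ e + 2 * H e)
    (hδ : ∑' e, δ e ≤ ENNReal.ofReal e₀)
    (h3 : ∑' e : {e : Idx × Fin 3 // (∃ q ∈ tiles Ω (n₂ + k₁ + k₀) v, EdgeOf e q) ∧
      ∀ z ∈ J, ¬ edge v e ⊆ dyc v n₂ z}, ENNReal.ofReal ((1 / 2 ^ e.1.1.1) ^ 2) * H e.1 ≤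
        ENNReal.ofReal e₀)
    {N : ℝ} (hN : 0 ≤ N)
    (h4 : ∀ z ∈ J, {e | e ∈ GE Ω v n₂ k₁ k₀ J ∧ edge v e ⊆ dyc v n₂ z}.Finite ∧
        ({e | e ∈ GE Ω v n₂ k₁ k₀ J ∧ edge v e ⊆ dyc v n₂ z}.ncard : ℝ) ≤ N)
    (h5 : ∀ e ∈ GE Ω v n₂ k₁ k₀ J, ∀ z ∈ J, edge v e ⊆ dyc v n₂ z → e.1.1 = n₂ + k₁ + k₀) :
    ∑' e : GE Ω v n₂ k₁ k₀ J,
      4 * (ENNReal.ofReal ((1 / 2 ^ e.1.1.1) ^ 2) * eInt v e.1 (dE p G e.1.2)) ≤
      ENNReal.ofReal (16 * e₀ + J.card * (N * (4 * B / 8 ^ (n₂ + k₁ + k₀)))) := by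
  classical
  set K : ℝ := 4 * B / 8 ^ (n₂ + k₁ + k₀) with hK
  have hK0 : 0 ≤ K := by positivity
  set A : Set (Idx × Fin 3) := {e | (∃ q ∈ tiles Ω (n₂ + k₁ + k₀) v, EdgeOf e q) ∧
      ∀ z ∈ J, ¬ edge v e ⊆ dyc v n₂ z} with hA
  have hpt : ∀ e : GE Ω v n₂ k₁ k₀ J,
      4 * (ENNReal.ofReal ((1 / 2 ^ e.1.1.1) ^ 2) * eInt v e.1 (dE p G e.1.2)) ≤
      8 * δ e.1 + A.indicator (fun e => 8 * (ENNReal.ofReal ((1 / 2 ^ e.1.1) ^ 2) * H e)) e.1 +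
        ∑ z ∈ J, ({e | e ∈ GE Ω v n₂ k₁ k₀ J ∧ edge v e ⊆ dyc v n₂ z}).indicator
          (fun _ => ENNReal.ofReal K) e.1 := by
    intro e
    have hle1 : ENNReal.ofReal ((1 / 2 ^ e.1.1.1) ^ 2) ≤ 1 := by
      rw [← ENNReal.ofReal_one]
      refine ENNReal.ofReal_le_ofReal ?_
      have : (1:ℝ) / 2 ^ e.1.1.1 ≤ 1 := by
        rw [div_le_one (by positivity)]; exact one_le_pow₀ (by norm_num)
      exact pow_le_one₀ (by positivity) this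
    by_cases h : ∀ z ∈ J, ¬ edge v e.1 ⊆ dyc v n₂ z
    · have heA : e.1 ∈ A := ⟨e.2.1, h⟩
      rw [indicator_of_mem heA]
      refine le_trans ?_ (le_add_of_nonneg_right zero_le)
      calc 4 * (ENNReal.ofReal ((1 / 2 ^ e.1.1.1) ^ 2) * eInt v e.1 (dE p G e.1.2))
          ≤ 4 * (ENNReal.ofReal ((1 / 2 ^ e.1.1.1) ^ 2) * (2 * δ e.1 + 2 * H e.1)) := by
            gcongr; exact hG e.1 e.2
        _ = 8 * (ENNReal.ofReal ((1 / 2 ^ e.1.1.1) ^ 2) * δ e.1) +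
            8 * (ENNReal.ofReal ((1 / 2 ^ e.1.1.1) ^ 2) * H e.1) := by ring
        _ ≤ _ := by
            gcongr
            calc ENNReal.ofReal ((1 / 2 ^ e.1.1.1) ^ 2) * δ e.1 ≤ 1 * δ e.1 := by gcongr
              _ = δ e.1 := one_mul _
    · push Not at h
      obtain ⟨z, hz, hsub⟩ := h
      refine le_trans ?_ (le_add_of_nonneg_left zero_le)
      refine le_trans ?_ (Finset.single_le_sum (f := fun z =>
        ({e | e ∈ GE Ω v n₂ k₁ k₀ J ∧ edge v e ⊆ dyc v n₂ z}).indicator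
          (fun _ => ENNReal.ofReal K) e.1) (fun _ _ => zero_le) hz)
      have hmem : e.1 ∈ {e | e ∈ GE Ω v n₂ k₁ k₀ J ∧ edge v e ⊆ dyc v n₂ z} := ⟨e.2, hsub⟩
      show _ ≤ indicator _ _ _
      rw [indicator_of_mem hmem]
      calc 4 * (ENNReal.ofReal ((1 / 2 ^ e.1.1.1) ^ 2) * eInt v e.1 (dE p G e.1.2))
          ≤ 4 * (ENNReal.ofReal ((1 / 2 ^ e.1.1.1) ^ 2) *
            ENNReal.ofReal (B / 2 ^ (n₂ + k₁ + k₀))) := by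
            gcongr; exact D.fine e.1 e.2 z hz hsub
        _ = ENNReal.ofReal K := by
            have e4 : (4:ℝ≥0∞) = ENNReal.ofReal 4 := by norm_num
            rw [e4, h5 e.1 e.2 z hz hsub, ← ENNReal.ofReal_mul (by positivity),
              ← ENNReal.ofReal_mul (by norm_num)]
            congr 1
            have h8 : ((1 / 2 ^ (n₂ + k₁ + k₀) : ℝ)) ^ 2 * (1 / 2 ^ (n₂ + k₁ + k₀)) =
                1 / 8 ^ (n₂ + k₁ + k₀) := by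
              rw [← pow_succ, div_pow, one_pow, ← pow_mul, mul_comm _ (2 + 1), pow_mul]; norm_num
            calc (4:ℝ) * ((1 / 2 ^ (n₂ + k₁ + k₀)) ^ 2 * (B / 2 ^ (n₂ + k₁ + k₀))) =
                  4 * B * ((1 / 2 ^ (n₂ + k₁ + k₀)) ^ 2 * (1 / 2 ^ (n₂ + k₁ + k₀))) := by ring
              _ = K := by rw [h8, hK]; ring
  refine (ENNReal.tsum_le_tsum hpt).trans ?_
  rw [ENNReal.tsum_add, ENNReal.tsum_add]
  have s1 : ∑' e : GE Ω v n₂ k₁ k₀ J, 8 * δ e.1 ≤ ENNReal.ofReal (8 * e₀) := by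
    rw [ENNReal.tsum_mul_left, ENNReal.ofReal_mul (by norm_num)]
    have := ENNReal.tsum_comp_le_tsum_of_injective
      (f := fun e : GE Ω v n₂ k₁ k₀ J => e.1) Subtype.val_injective δ
    have e8 : (8:ℝ≥0∞) = ENNReal.ofReal 8 := by norm_num
    rw [e8]
    gcongr
    exact this.trans hδ
  have s2 : ∑' e : GE Ω v n₂ k₁ k₀ J,
      A.indicator (fun e => 8 * (ENNReal.ofReal ((1 / 2 ^ e.1.1) ^ 2) * H e)) e.1 ≤
      ENNReal.ofReal (8 * e₀) := by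
    refine (ENNReal.tsum_comp_le_tsum_of_injective
      (f := fun e : GE Ω v n₂ k₁ k₀ J => e.1) Subtype.val_injective
      (A.indicator (fun e => 8 * (ENNReal.ofReal ((1 / 2 ^ e.1.1) ^ 2) * H e)))).trans ?_
    rw [← tsum_subtype A, ENNReal.tsum_mul_left, ENNReal.ofReal_mul (by norm_num)]
    have e8 : (8:ℝ≥0∞) = ENNReal.ofReal 8 := by norm_num
    rw [e8]
    gcongr
    exact h3
  have s3 : ∑' e : GE Ω v n₂ k₁ k₀ J, ∑ z ∈ J,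
      ({e | e ∈ GE Ω v n₂ k₁ k₀ J ∧ edge v e ⊆ dyc v n₂ z}).indicator
        (fun _ => ENNReal.ofReal K) e.1 ≤ ENNReal.ofReal (J.card * (N * K)) := by
    rw [Summable.tsum_finsetSum (fun _ _ => ENNReal.summable)]
    calc _ ≤ ∑ z ∈ J, ENNReal.ofReal (N * K) := by
          refine Finset.sum_le_sum fun z hz => ?_
          refine (ENNReal.tsum_comp_le_tsum_of_injective
            (f := fun e : GE Ω v n₂ k₁ k₀ J => e.1) Subtype.val_injective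
            (({e | e ∈ GE Ω v n₂ k₁ k₀ J ∧ edge v e ⊆ dyc v n₂ z}).indicator
              (fun _ => ENNReal.ofReal K))).trans ?_
          rw [← tsum_subtype, ENNReal.tsum_set_const, ← (h4 z hz).1.cast_ncard_eq]
          obtain ⟨hfin, hcard⟩ := h4 z hz
          simp only [ENat.toENNReal_coe]
          rw [← ENNReal.ofReal_natCast, ← ENNReal.ofReal_mul (by positivity)]
          exact ENNReal.ofReal_le_ofReal (mul_le_mul_of_nonneg_right hcard hK0)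
      _ = ENNReal.ofReal (J.card * (N * K)) := by
          rw [Finset.sum_const, nsmul_eq_mul, ← ENNReal.ofReal_natCast,
            ← ENNReal.ofReal_mul (by positivity)]
  calc _ ≤ ENNReal.ofReal (8 * e₀) + ENNReal.ofReal (8 * e₀) + ENNReal.ofReal (J.card * (N * K)) :=
        add_le_add (add_le_add s1 s2) s3
    _ = ENNReal.ofReal (16 * e₀ + J.card * (N * K)) := by
        rw [← ENNReal.ofReal_add (by positivity) (by positivity),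
          ← ENNReal.ofReal_add (by positivity) (by positivity)]
        congr 1; ring

/-- **total energy** -/
theorem sum_en {C₀ W : ℝ} (hC₀ : 0 < C₀) (hW : volume Ω ≤ ENNReal.ofReal W) (hW0 : 0 ≤ W)
    (hΩ : IsOpen Ω) (hI : Part Ω v (newI Ω v n₂ k₁ k₀ J))
    (hP : newP v n₂ k₁ J ⊆ newI Ω v n₂ k₁ k₀ J)
    (D : Dat p B C Ω v n₂ k₁ k₀ J G) (hB : 0 ≤ B) (hC : 0 ≤ C) (e₀ : ℝ) (he₀ : 0 ≤ e₀)
    (H : Idx × Fin 3 → ℝ≥0∞) (δ : Idx × Fin 3 → ℝ≥0∞)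
    (hG : ∀ e ∈ GE Ω v n₂ k₁ k₀ J, eInt v e (dE p G e.2) ≤ 2 * δ e + 2 * H e)
    (hδ : ∑' e, δ e ≤ ENNReal.ofReal e₀)
    (h3 : ∑' e : {e : Idx × Fin 3 // (∃ q ∈ tiles Ω (n₂ + k₁ + k₀) v, EdgeOf e q) ∧
      ∀ z ∈ J, ¬ edge v e ⊆ dyc v n₂ z}, ENNReal.ofReal ((1 / 2 ^ e.1.1.1) ^ 2) * H e.1 ≤
        ENNReal.ofReal e₀)
    (g1 : ∀ q ∈ newI Ω v n₂ k₁ k₀ J \ newP v n₂ k₁ J, q ∈ IT Ω v n₂ k₁ k₀ J → ∀ s,
        MinSq v (newI Ω v n₂ k₁ k₀ J) s → squ v s ⊆ dyc v q.1 q.2 →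
        q.1 ≤ s.1.1 ∧ s.1.1 ≤ q.1 + 2 ∧ (∀ r ∈ newP v n₂ k₁ J, ¬ squ v s ⊆ dyc v r.1 r.2) ∧
        ∀ e ∈ sqE s, e ∈ GE Ω v n₂ k₁ k₀ J)
    (g2 : ∀ q ∈ newI Ω v n₂ k₁ k₀ J \ newP v n₂ k₁ J, q ∉ IT Ω v n₂ k₁ k₀ J → q.1 = n₂ + k₁ ∧
        ∃ z ∈ J, dyc v q.1 q.2 ⊆ boxB v n₂ k₁ z ∧ ∀ s,
        MinSq v (newI Ω v n₂ k₁ k₀ J) s → squ v s ⊆ dyc v q.1 q.2 →
        (s.1.1 = n₂ + k₁ ∧ squ v s ⊆ frontier (boxR v n₂ k₁ z) ∧
          ∃ r ∈ newP v n₂ k₁ J, squ v s ⊆ dyc v r.1 r.2) ∨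
        ((∀ r ∈ newP v n₂ k₁ J, ¬ squ v s ⊆ dyc v r.1 r.2) ∧
          ((s.1.1 = n₂ + k₁ + k₀ ∧
            ∀ e ∈ sqE s, e ∈ GE Ω v n₂ k₁ k₀ J ∧ edge v e ⊆ dyc v n₂ z) ∨
          (s.1.1 = n₂ + k₁ ∧ ∀ e ∈ sqE s, e ∈ GapE v n₂ k₁ z ∨ e ∈ FrE Ω v n₂ k₁ k₀ J z))))
    (g3 : ∀ e ∈ GE Ω v n₂ k₁ k₀ J, ∀ z ∈ J, edge v e ⊆ dyc v n₂ z → e.1.1 = n₂ + k₁ + k₀)
    (g4 : ∀ g : Idx × Fin 3 → ℝ≥0∞,
        ∑' i : {i : (P86.cells hΩ hI hP).ι // i.1 ∈ IT Ω v n₂ k₁ k₀ J},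
          ∑ t ∈ (P86.cells hΩ hI hP).bd i.1, ∑ e ∈ sqE t.1, g e ≤
        ENNReal.ofReal C₀ * ∑' e : GE Ω v n₂ k₁ k₀ J, g e.1)
    (g5 : ∀ i : (P86.cells hΩ hI hP).ι, i.1.1 = n₂ + k₁ →
        (((P86.cells hΩ hI hP).bd i).filter fun t => t.1.1.1 = n₂ + k₁ + k₀).card ≤ 6 * 4 ^ k₀ ∧
        (((P86.cells hΩ hI hP).bd i).filter fun t => t.1.1.1 = n₂ + k₁).card ≤ 6)
    (g6 : {q | q ∈ newI Ω v n₂ k₁ k₀ J \ newP v n₂ k₁ J ∧ q ∉ IT Ω v n₂ k₁ k₀ J}.Finite ∧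
        ({q | q ∈ newI Ω v n₂ k₁ k₀ J \ newP v n₂ k₁ J ∧ q ∉ IT Ω v n₂ k₁ k₀ J}.ncard : ℝ) ≤
          C₀ * J.card * 4 ^ k₁)
    (g7 : ∀ z ∈ J, {e | e ∈ GE Ω v n₂ k₁ k₀ J ∧ edge v e ⊆ dyc v n₂ z}.Finite ∧
        ({e | e ∈ GE Ω v n₂ k₁ k₀ J ∧ edge v e ⊆ dyc v n₂ z}.ncard : ℝ) ≤
          C₀ * 8 ^ (k₁ + k₀) / 2 ^ k₁)
    (g8 : ENNReal.ofReal (J.card / 8 ^ n₂) ≤ volume Ω) :
    ∑' i, (P86.cells hΩ hI hP).en p G i ≤
      ENNReal.ofReal (16 * C₀ * e₀ + C₀ * W * (4 * C₀ * B + (48 * B + 30 * C)) / 2 ^ k₁) := by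
  classical
  have hJW : (J.card : ℝ) / 8 ^ n₂ ≤ W := (ENNReal.ofReal_le_ofReal_iff hW0).1 (g8.trans hW)
  set S : Set (P86.cells hΩ hI hP).ι := {i | i.1 ∈ IT Ω v n₂ k₁ k₀ J} with hS
  have hsplit := ENNReal.summable.tsum_add_tsum_compl (s := S)
    (f := (P86.cells hΩ hI hP).en p G) ENNReal.summable
  rw [← hsplit]
  have t1 : ∑' i : S, (P86.cells hΩ hI hP).en p G i ≤
      ENNReal.ofReal (16 * C₀ * e₀ + C₀ * W * (4 * C₀ * B) / 2 ^ k₁) := by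
    calc ∑' i : S, (P86.cells hΩ hI hP).en p G i
        ≤ ∑' i : S, ∑ t ∈ (P86.cells hΩ hI hP).bd i.1, ∑ e ∈ sqE t.1,
          4 * (ENNReal.ofReal ((1 / 2 ^ e.1.1) ^ 2) * eInt v e (dE p G e.2)) :=
          ENNReal.tsum_le_tsum fun i => en_tile hΩ hI hP i.1 (g1 i.1.1 i.1.2 i.2)
      _ ≤ ENNReal.ofReal C₀ * ∑' e : GE Ω v n₂ k₁ k₀ J,
          4 * (ENNReal.ofReal ((1 / 2 ^ e.1.1.1) ^ 2) * eInt v e.1 (dE p G e.1.2)) :=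
          g4 fun e => 4 * (ENNReal.ofReal ((1 / 2 ^ e.1.1) ^ 2) * eInt v e (dE p G e.2))
      _ ≤ ENNReal.ofReal C₀ * ENNReal.ofReal (16 * e₀ + J.card *
          (C₀ * 8 ^ (k₁ + k₀) / 2 ^ k₁ * (4 * B / 8 ^ (n₂ + k₁ + k₀)))) := by
          gcongr
          exact sum_GE D hB e₀ he₀ H δ hG hδ h3 (by positivity) g7 g3
      _ ≤ _ := by
          rw [← ENNReal.ofReal_mul hC₀.le]
          refine ENNReal.ofReal_le_ofReal ?_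
          have e1 : (J.card : ℝ) * (C₀ * 8 ^ (k₁ + k₀) / 2 ^ k₁ * (4 * B / 8 ^ (n₂ + k₁ + k₀))) =
              J.card / 8 ^ n₂ * (4 * C₀ * B) / 2 ^ k₁ := by
            rw [add_assoc n₂ k₁ k₀, pow_add _ n₂ (k₁ + k₀)]
            field_simp
          rw [e1]
          have e2 : (J.card : ℝ) / 8 ^ n₂ * (4 * C₀ * B) / 2 ^ k₁ ≤ W * (4 * C₀ * B) / 2 ^ k₁ := by
            gcongr
          calc C₀ * (16 * e₀ + (J.card : ℝ) / 8 ^ n₂ * (4 * C₀ * B) / 2 ^ k₁)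
              ≤ C₀ * (16 * e₀ + W * (4 * C₀ * B) / 2 ^ k₁) := by gcongr
            _ = _ := by ring
  have t2 : ∑' i : ↑Sᶜ, (P86.cells hΩ hI hP).en p G i ≤
      ENNReal.ofReal (C₀ * W * (48 * B + 30 * C) / 2 ^ k₁) := by
    set T : Set Idx := {q | q ∈ newI Ω v n₂ k₁ k₀ J \ newP v n₂ k₁ J ∧ q ∉ IT Ω v n₂ k₁ k₀ J}
      with hT
    calc ∑' i : ↑Sᶜ, (P86.cells hΩ hI hP).en p G i
        ≤ ∑' _i : ↑Sᶜ, ENNReal.ofReal ((48 * B + 30 * C) / 8 ^ (n₂ + k₁)) := by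
          refine ENNReal.tsum_le_tsum fun i => ?_
          obtain ⟨h1, z, hz, h2, h3⟩ := g2 i.1.1 i.1.2 i.2
          exact en_gap hΩ hI hP D hB hC i.1 h1 hz h3 (g5 i.1 h1).1 (g5 i.1 h1).2
      _ ≤ ∑' _q : T, ENNReal.ofReal ((48 * B + 30 * C) / 8 ^ (n₂ + k₁)) := by
          refine ENNReal.tsum_comp_le_tsum_of_injective (f := fun i : ↑Sᶜ =>
            (⟨i.1.1, i.1.2, i.2⟩ : T)) (fun i j hij => ?_)
            (fun _ => ENNReal.ofReal ((48 * B + 30 * C) / 8 ^ (n₂ + k₁)))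
          have := congrArg (fun q : T => q.1) hij
          exact Subtype.ext (Subtype.ext this)
      _ = ENNReal.ofReal (T.ncard * ((48 * B + 30 * C) / 8 ^ (n₂ + k₁))) := by
          rw [ENNReal.tsum_set_const, ← g6.1.cast_ncard_eq, ENat.toENNReal_coe,
            ← ENNReal.ofReal_natCast, ← ENNReal.ofReal_mul (by positivity)]
      _ ≤ _ := by
          refine ENNReal.ofReal_le_ofReal ?_
          calc (T.ncard : ℝ) * ((48 * B + 30 * C) / 8 ^ (n₂ + k₁))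
              ≤ C₀ * J.card * 4 ^ k₁ * ((48 * B + 30 * C) / 8 ^ (n₂ + k₁)) := by
                gcongr; exact g6.2
            _ = C₀ * (J.card / 8 ^ n₂) * (48 * B + 30 * C) / 2 ^ k₁ := by
                have e8 : (8:ℝ) ^ k₁ = 4 ^ k₁ * 2 ^ k₁ := by rw [← mul_pow]; norm_num
                rw [pow_add, e8]
                field_simp
            _ ≤ C₀ * W * (48 * B + 30 * C) / 2 ^ k₁ := by gcongr
  refine (add_le_add t1 t2).trans ?_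
  rw [← ENNReal.ofReal_add (by positivity) (by positivity)]
  refine ENNReal.ofReal_le_ofReal (le_of_eq ?_)
  ring

end Vale.Agent.P073.AB.S293
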