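import Vale.Agent.P073.AB.Sum293d
import Vale.Agent.P073.AB.Graph907

/-!
# SpecSum: assembly
-/

namespace Vale.Agent.P073.AB.S293

open MeasureTheory Set Filter Topology Metric Vale.Agent.P073.St
open Vale.Agent.P073.SQ (ev cube Cells dE faceE edgesE)
open P073.Net (IsTile dyc dyo SizeFn)
open Vale.Agent.P073.HB (GoodSeg)
open scoped ContDiff ENNReal

theorem isBounded_of {Ω : Set V} (h : IsBoundedDomain Ω) : Bornology.IsBounded Ω := by
  obtain ⟨_, _, R, hR⟩ := h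
  refine (isBounded_iff_forall_norm_le).2 ⟨R, fun x hx => le_trans ?_ (hR x hx)⟩
  unfold euc
  refine (pi_norm_le_iff_of_nonneg (Real.sqrt_nonneg _)).2 fun i => ?_
  rw [Real.norm_eq_abs, ← Real.sqrt_sq_eq_abs]
  exact Real.sqrt_le_sqrt (Finset.single_le_sum (f := fun i => x i ^ 2)
    (fun _ _ => sq_nonneg _) (Finset.mem_univ i))

section choice

variable {p ε θ M κ : ℝ} {k₁ k₀ : ℕ} {Ω Λ : Set V} {f : V → V} {F : V → Mat}

/-- weakening of `κ` -/
def _root_.Vale.Agent.P073.AB.Choice.mono {κ' : ℝ} (c : Choice p ε θ M κ k₁ k₀ Ω Λ f F)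
    (h : κ ≤ κ') : Choice p ε θ M κ' k₁ k₀ Ω Λ f F :=
  { c with
    own := fun z hz e he hs => ⟨fun x hx => ((c.own z hz e he hs).1 x hx).trans
      (div_le_div_of_nonneg_right h (by positivity)),
      ((c.own z hz e he hs).2).trans (ENNReal.ofReal_le_ofReal
        (div_le_div_of_nonneg_right h (by positivity)))⟩ }

variable (c : Choice p ε θ M κ k₁ k₀ Ω Λ f F)

theorem core' : Core Ω c.v c.n₂ k₁ k₀ c.J := by
  intro z hz x hx
  have := c.core z hz x hx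
  rwa [c.eqn] at this

theorem dist_dyc {v : V} {m : ℕ} {z : Fin 3 → ℤ} {x y : V} (hx : x ∈ dyc v m z)
    (hy : y ∈ dyc v m z) : ‖x - y‖ ≤ 1 / 2 ^ m := P073.Net.NC.dist_le hx hy

theorem pt_mem (v : V) (m : ℕ) (z : Fin 3 → ℤ) : pt v m z ∈ dyc v m z := by
  intro k
  refine ⟨le_rfl, ?_⟩
  show v k + (z k : ℝ) / 2 ^ m ≤ v k + (z k + 1) / 2 ^ m
  gcongr
  linarith

/-- `A z y` is close to `f x` for `x ∈ K`, `x`, `y` in the cell `z` -/
theorem near_aff (hκ : κ ≤ 1) (hM : 0 < M) {z : Fin 3 → ℤ} (hz : z ∈ c.J) {x y : V}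
    (hxK : x ∈ c.K) (hx : x ∈ dyc c.v c.n₂ z) (hy : y ∈ dyc c.v c.n₂ z) :
    ‖c.A z y - f x‖ ≤ (M + 1) / 2 ^ c.n₂ + ε := by
  have h2 : (0:ℝ) < 2 ^ c.n₂ := by positivity
  set e : Idx × Fin 3 := ((c.n₂ + (k₁ + k₀), fun l => 2 ^ (k₁ + k₀) * z l), 0) with he
  have hpe : pt c.v e.1.1 e.1.2 = pt c.v c.n₂ z := by
    funext l
    simp only [pt, he, pow_add]
    push_cast
    field_simp
  have hsub : edge c.v e ⊆ dyc c.v c.n₂ z := by
    intro w hw j
    rw [Gr.mem_edge] at hw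
    obtain ⟨h3, h4, h5⟩ := hw
    have hj : (e.1.2 j : ℝ) / 2 ^ e.1.1 = z j / 2 ^ c.n₂ := by
      have := congrFun hpe j
      simp only [pt] at this
      linarith
    have hle : (1:ℝ) / 2 ^ e.1.1 ≤ 1 / 2 ^ c.n₂ := by
      apply one_div_le_one_div_of_le h2
      exact pow_le_pow_right₀ (by norm_num) (Nat.le_add_right _ _)
    by_cases hj0 : j = e.2
    · subst hj0
      rw [add_div, hj] at h5
      rw [hj] at h4
      refine ⟨h4, ?_⟩
      rw [add_div]; linarith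
    · rw [h3 j hj0, hj]
      refine ⟨le_rfl, ?_⟩
      have : (0:ℝ) ≤ 1 / 2 ^ c.n₂ := by positivity
      rw [add_div]; linarith
  have hw : pt c.v c.n₂ z ∈ edge c.v e := by
    rw [edge, ← hpe]; exact left_mem_segment ℝ _ _
  have hgen : e.1.1 = c.n₀ := by rw [c.eqn]; simp [he, add_assoc]
  have h3 := (c.own z hz e hgen hsub).1 _ hw
  have hwz := pt_mem c.v c.n₂ z
  have h4 := (c.osc x hxK (pt c.v c.n₂ z) ((dist_dyc hwz hx).trans (by gcongr; norm_num))).2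
  have h5 : ‖c.A z y - c.A z (pt c.v c.n₂ z)‖ ≤ M * (1 / 2 ^ c.n₂) := by
    rw [c.aff]
    exact (c.above z hz _).trans (mul_le_mul_of_nonneg_left (dist_dyc hy hwz) hM.le)
  have h6 : κ / 2 ^ c.n₀ ≤ 1 / 2 ^ c.n₂ := by
    have h7 : (1:ℝ) / 2 ^ c.n₀ ≤ 1 / 2 ^ c.n₂ := by
      apply one_div_le_one_div_of_le h2
      exact pow_le_pow_right₀ (by norm_num) (by rw [c.eqn, add_assoc]; exact Nat.le_add_right _ _)
    refine le_trans ?_ h7
    gcongr
  calc ‖c.A z y - f x‖ = ‖(c.A z y - c.A z (pt c.v c.n₂ z)) -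
        (f (pt c.v c.n₂ z) - c.A z (pt c.v c.n₂ z)) + (f (pt c.v c.n₂ z) - f x)‖ := by
        congr 1; abel
    _ ≤ ‖c.A z y - c.A z (pt c.v c.n₂ z)‖ + ‖f (pt c.v c.n₂ z) - c.A z (pt c.v c.n₂ z)‖ +
        ‖f (pt c.v c.n₂ z) - f x‖ := (norm_add_le _ _).trans (by gcongr; exact norm_sub_le _ _)
    _ ≤ M * (1 / 2 ^ c.n₂) + 1 / 2 ^ c.n₂ + ε := by linarith
    _ = (M + 1) / 2 ^ c.n₂ + ε := by ring

end choice

/-! ### Integrals over the boxes -/

theorem setLIntegral_biUnion_le {ι : Type*} (J : Finset ι) (S : ι → Set V) (h : V → ℝ≥0∞) :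
    ∫⁻ x in ⋃ z ∈ J, S z, h x ≤ ∑ z ∈ J, ∫⁻ x in S z, h x := by
  classical
  induction J using Finset.induction_on with
  | empty => simp
  | insert a J ha ih =>
    rw [Finset.sum_insert ha]
    have e : (⋃ z ∈ insert a J, S z) = S a ∪ ⋃ z ∈ J, S z := by
      ext x; simp
    rw [e]
    exact (lintegral_union_le _ _ _).trans (by gcongr)

/-- comparison with an affine map, measurable first function -/
theorem int_le_G {p : ℝ} (hp : 1 ≤ p) (hp2 : p < 2) (G : V → V) (F : V → Mat) (L : V →L[ℝ] V)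
    (j : Fin 3) (S : Set V) :
    ∫⁻ x in S, ENNReal.ofReal (‖fderiv ℝ G x (ev j) - cl (F x) (ev j)‖ ^ p) ≤
      2 * (∫⁻ x in S, ENNReal.ofReal (‖fderiv ℝ G x (ev j) - L (ev j)‖ ^ p)) +
      2 * (∫⁻ x in S, ENNReal.ofReal (‖cl (F x) (ev j) - L (ev j)‖ ^ p)) := by
  have hm : Measurable fun x => 2 * ENNReal.ofReal (‖fderiv ℝ G x (ev j) - L (ev j)‖ ^ p) := by
    have := (measurable_fderiv_apply_const ℝ G (ev j)).sub_const (L (ev j))
    exact ((this.norm.pow_const p).ennreal_ofReal).const_mul 2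
  rw [← lintegral_const_mul' _ _ (by norm_num), ← lintegral_const_mul' _ _ (by norm_num),
    ← lintegral_add_left hm]
  refine lintegral_mono fun x => ?_
  have h := ofReal_pow_le hp hp2 (fderiv ℝ G x (ev j) - cl (F x) (ev j))
    (L (ev j) - cl (F x) (ev j))
  rw [sub_sub_sub_cancel_right] at h
  have e : ‖L (ev j) - cl (F x) (ev j)‖ = ‖cl (F x) (ev j) - L (ev j)‖ := norm_sub_rev _ _
  rw [e] at h
  exact h

theorem int_le_F {p : ℝ} (hp : 1 ≤ p) (hp2 : p < 2) (F : V → Mat) (L : V →L[ℝ] V) {M : ℝ}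
    (j : Fin 3) (hL : ‖L (ev j)‖ ≤ M) (S : Set V) :
    ∫⁻ x in S, ENNReal.ofReal (‖cl (F x) (ev j)‖ ^ p) ≤
      2 * (∫⁻ x in S, ENNReal.ofReal (‖cl (F x) (ev j) - L (ev j)‖ ^ p)) +
      2 * ENNReal.ofReal (M ^ p) * volume S := by
  have h1 : ∫⁻ x in S, ENNReal.ofReal (‖cl (F x) (ev j)‖ ^ p) ≤
      ∫⁻ x in S, (2 * ENNReal.ofReal (‖cl (F x) (ev j) - L (ev j)‖ ^ p) +
        2 * ENNReal.ofReal (M ^ p)) := by
    refine lintegral_mono fun x => (ofReal_pow_le hp hp2 _ (L (ev j))).trans ?_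
    gcongr
  rw [lintegral_add_right _ measurable_const, lintegral_const_mul' _ _ (by norm_num),
    setLIntegral_const] at h1
  exact h1

end Vale.Agent.P073.AB.S293
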