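import Vale.Agent.P073.AB.Sum308c

/-!
# Block AB, SpecSum, geometry: volumes, and the theorem `specGeo`
-/

namespace Vale.Agent.P073.AB.S308

open MeasureTheory Set Filter Topology Metric Vale.Agent.P073.St
open Vale.Agent.P073.AB
open Vale.Agent.P073.SQ (ev cube Cells)
open P073.Net (IsTile dyc dyo SizeFn)
open P86
open scoped ContDiff ENNReal

variable {v : V} {N m n : ℕ} {w z a b c : Fin 3 → ℤ} {x : V}

theorem volume_gbox (v : V) (N : ℕ) (a b : Fin 3 → ℤ) :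
    volume (gbox v N a b) = ∏ k, ENNReal.ofReal ((b k - a k) / 2 ^ N) := by
  rw [gbox_eq_pi, volume_pi_pi]
  refine Finset.prod_congr rfl fun k _ => ?_
  rw [Real.volume_Icc]
  congr 1
  ring

theorem volume_obox (v : V) (N : ℕ) (a b : Fin 3 → ℤ) :
    volume (obox v N a b) = ∏ k, ENNReal.ofReal ((b k - a k) / 2 ^ N) := by
  have : obox v N a b = Set.pi univ (fun k => Ioo (v k + a k / 2 ^ N) (v k + b k / 2 ^ N)) := by
    ext x; exact ⟨fun h k _ => h k, fun h k => h k (mem_univ k)⟩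
  rw [this, volume_pi_pi]
  refine Finset.prod_congr rfl fun k _ => ?_
  rw [Real.volume_Ioo]
  congr 1
  ring

theorem volume_dyc (v : V) (m : ℕ) (z : Fin 3 → ℤ) :
    volume (dyc v m z) = ENNReal.ofReal (1 / 8 ^ m) := by
  rw [dyc_eq_gbox, volume_gbox]
  have : ∀ k, (((z k + 1 : ℤ) : ℝ) - z k) / 2 ^ m = 1 / 2 ^ m := by
    intro k; push_cast; ring
  simp only [this, Finset.prod_const, Finset.card_univ, Fintype.card_fin]
  rw [← ENNReal.ofReal_pow (by positivity)]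
  congr 1
  rw [div_pow, one_pow, ← pow_mul, mul_comm m 3, pow_mul]
  norm_num

theorem dyo_eq_obox (v : V) (m : ℕ) (z : Fin 3 → ℤ) : dyo v m z = obox v m z (fun k => z k + 1) := by
  ext x
  simp only [dyo, obox, Set.mem_ofPred_eq, Int.cast_add, Int.cast_one]

theorem isOpen_obox (v : V) (N : ℕ) (a b : Fin 3 → ℤ) : IsOpen (obox v N a b) := by
  rw [← interior_gbox]; exact isOpen_interior

theorem volume_dyo (v : V) (m : ℕ) (z : Fin 3 → ℤ) :
    volume (dyo v m z) = ENNReal.ofReal (1 / 8 ^ m) := by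
  rw [← volume_dyc v m z, dyo_eq_obox, volume_obox, dyc_eq_gbox, volume_gbox]

section sit

variable {Ω : Set V} {n₂ k₁ k₀ : ℕ} {J : Finset (Fin 3 → ℤ)}

/-- (v) -/
theorem card_le_volume (h : Sit Ω v n₂ k₁ k₀ J) :
    ENNReal.ofReal (J.card / 8 ^ n₂) ≤ volume Ω := by
  have h1 : volume (⋃ z ∈ J, dyo v n₂ z) = ENNReal.ofReal (J.card / 8 ^ n₂) := by
    rw [measure_biUnion_finset]
    · simp only [volume_dyo, Finset.sum_const, nsmul_eq_mul]
      rw [div_eq_mul_one_div (J.card : ℝ), ENNReal.ofReal_mul (by positivity),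
        ENNReal.ofReal_natCast]
    · intro a _ b _ hab
      exact dyo_disj hab
    · intro z _
      rw [dyo_eq_obox]
      exact (isOpen_obox _ _ _ _).measurableSet
  rw [← h1]
  apply measure_mono
  refine iUnion₂_subset fun z hz => ?_
  exact dyo_sub_dyc.trans (h.dyc_sub hz)

theorem volume_boxR (hk : 3 ≤ k₁) : volume (boxR v n₂ k₁ z) =
    ENNReal.ofReal ((1 - 4 / 2 ^ k₁) ^ 3 / 8 ^ n₂) := by
  have h8 : (8:ℝ) ≤ 2 ^ k₁ := by
    calc (8:ℝ) = 2 ^ 3 := by norm_num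
      _ ≤ 2 ^ k₁ := pow_le_pow_right₀ (by norm_num) hk
  rw [boxR_eq, volume_gbox]
  have : ∀ k, ((((z k + 1) * 2 ^ k₁ - 2 : ℤ) : ℝ) - ((z k * 2 ^ k₁ + 2 : ℤ) : ℝ)) / 2 ^ (n₂ + k₁) =
      (1 - 4 / 2 ^ k₁) / 2 ^ n₂ := by
    intro k
    push_cast
    rw [pow_add]
    field_simp
    ring
  simp only [this, Finset.prod_const, Finset.card_univ, Fintype.card_fin]
  have h4 : (0:ℝ) ≤ 1 - 4 / 2 ^ k₁ := by
    rw [sub_nonneg, div_le_one (by positivity)]
    linarith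
  rw [← ENNReal.ofReal_pow (by positivity)]
  congr 1
  rw [div_pow, ← pow_mul, mul_comm n₂ 3, pow_mul]
  norm_num

theorem volume_diff (hk : 3 ≤ k₁) : volume (dyc v n₂ z \ boxR v n₂ k₁ z) ≤
    ENNReal.ofReal (12 / 2 ^ k₁ / 8 ^ n₂) := by
  have h8 : (8:ℝ) ≤ 2 ^ k₁ := by
    calc (8:ℝ) = 2 ^ 3 := by norm_num
      _ ≤ 2 ^ k₁ := pow_le_pow_right₀ (by norm_num) hk
  have h4 : (0:ℝ) ≤ 1 - 4 / 2 ^ k₁ := by
    rw [sub_nonneg, div_le_one (by positivity)]
    linarith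
  have hm : MeasurableSet (boxR v n₂ k₁ z) := by
    rw [boxR_eq]; exact (isClosed_gbox _ _ _ _).measurableSet
  have hfin : volume (boxR v n₂ k₁ z) ≠ ⊤ := by
    rw [volume_boxR hk]; exact ENNReal.ofReal_ne_top
  rw [measure_diff ((boxR_sub_boxB z).trans (boxB_sub_dyc z)) hm.nullMeasurableSet hfin,
    volume_dyc, volume_boxR hk, ← ENNReal.ofReal_sub _ (by positivity)]
  apply ENNReal.ofReal_le_ofReal
  rw [← sub_div]
  apply div_le_div_of_nonneg_right _ (by positivity)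
  set u : ℝ := 4 / 2 ^ k₁ with hu
  have hu0 : 0 ≤ u := by positivity
  have hu2 : (12:ℝ) / 2 ^ k₁ = 3 * u := by rw [hu]; ring
  rw [hu2]
  nlinarith [mul_nonneg hu0 hu0, mul_nonneg (mul_nonneg hu0 hu0) h4]

end sit

end S308

open S308 P86 in
open MeasureTheory Set Filter Topology Metric Vale.Agent.P073.St in
open P073.Net (IsTile dyc dyo SizeFn) in
open scoped ENNReal in
/-- **(GEO)** -/
theorem specGeo : SpecGeo := by
  refine ⟨144, by norm_num, ?_⟩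
  intro Ω v n₂ k₁ k₀ J hΩ hb hne hk hcore
  have h : Sit Ω v n₂ k₁ k₀ J := ⟨hΩ, hb, hne, hk, hcore⟩
  refine ⟨h.part, newP_sub, hΩ, union_newP hk, fun z _ z' _ hzz => boxB_disj hzz,
    fun z hz => h.dyc_sub hz, fun q _ hqT s hs hsub => class_tile h hqT hs hsub,
    fun q hq hqT => class_gap h hq hqT, fun e he z hz hsub => gen_GE h he hz hsub,
    fun e he => sub_GE h he, ?_, ?_, ?_, ?_, card_le_volume h, ?_⟩
  · intro g
    refine (mult h h.part newP_sub hΩ g).trans ?_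
    gcongr
    rw [show (12 : ℝ≥0∞) = ENNReal.ofReal 12 by simp]
    exact ENNReal.ofReal_le_ofReal (by norm_num)
  · intro i hi
    refine ⟨card_bd h.part newP_sub hΩ k₀ i hi, ?_⟩
    have := card_bd h.part newP_sub hΩ 0 i hi
    simpa using this
  · obtain ⟨h1, h2⟩ := card_gap (Ω := Ω) (v := v) (n₂ := n₂) (k₁ := k₁) (k₀ := k₀) (J := J)
    refine ⟨h1, ?_⟩
    have h3 : ({q | q ∈ newI Ω v n₂ k₁ k₀ J \ newP v n₂ k₁ J ∧ q ∉ IT Ω v n₂ k₁ k₀ J}.ncard : ℝ) ≤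
        ((6 * J.card * 4 ^ k₁ : ℕ) : ℝ) := by exact_mod_cast h2
    refine h3.trans ?_
    push_cast
    have : (0:ℝ) ≤ J.card * 4 ^ k₁ := by positivity
    nlinarith
  · intro z hz
    obtain ⟨h1, h2⟩ := card_GE h hz
    refine ⟨h1, ?_⟩
    have h3 : ({e | e ∈ GE Ω v n₂ k₁ k₀ J ∧ edge v e ⊆ dyc v n₂ z}.ncard : ℝ) ≤
        ((144 * 2 ^ k₀ * (2 ^ (k₁ + k₀)) ^ 2 : ℕ) : ℝ) := by exact_mod_cast h2
    refine h3.trans (le_of_eq ?_)
    push_cast
    have h8 : (8:ℝ) ^ (k₁ + k₀) = (2 ^ (k₁ + k₀)) ^ 2 * (2 ^ k₁ * 2 ^ k₀) := by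
      rw [← pow_add, show (8:ℝ) = 2 ^ 3 by norm_num, ← pow_mul, ← pow_mul, ← pow_add]
      congr 1
      ring
    rw [h8]
    field_simp
  · intro z _
    refine (volume_diff hk).trans (ENNReal.ofReal_le_ofReal ?_)
    gcongr
    norm_num

end Vale.Agent.P073.AB
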