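import Vale.Agent.P073.AB.Sum293e
import Vale.Agent.P073.AB.Sum308d

/-!
# SpecSum: the final theorem
-/

namespace Vale.Agent.P073.AB.S293

open MeasureTheory Set Filter Topology Metric Vale.Agent.P073.St
open Vale.Agent.P073.SQ (ev cube Cells dE faceE edgesE)
open P073.Net (IsTile dyc dyo SizeFn)
open Vale.Agent.P073.HB (GoodSeg)
open scoped ContDiff ENNReal

variable {p ε ε₁ θ M κ : ℝ} {k₁ k₀ : ℕ} {Ω Λ : Set V} {f : V → V} {F : V → Mat}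

theorem boxR_sub_cell (v : V) (n₂ k₁ : ℕ) (z : Fin 3 → ℤ) : boxR v n₂ k₁ z ⊆ dyc v n₂ z := by
  intro x hx k
  have h := hx k
  have : (0:ℝ) ≤ 2 / 2 ^ (n₂ + k₁) := by positivity
  exact ⟨by linarith [h.1], by linarith [h.2]⟩

theorem boxB_sub_cell (v : V) (n₂ k₁ : ℕ) (z : Fin 3 → ℤ) : boxB v n₂ k₁ z ⊆ dyc v n₂ z := by
  intro x hx k
  have h := hx k
  have : (0:ℝ) ≤ 1 / 2 ^ (n₂ + k₁) := by positivity
  exact ⟨by linarith [h.1], by linarith [h.2]⟩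

theorem isClosed_shrink (v : V) (n : ℕ) (z : Fin 3 → ℤ) (δ : ℝ) : IsClosed (shrink v n z δ) := by
  have : shrink v n z δ = ⋂ k, {x : V | v k + z k / 2 ^ n + δ ≤ x k ∧
      x k ≤ v k + (z k + 1) / 2 ^ n - δ} := by
    ext x; simp [shrink]
  rw [this]
  exact isClosed_iInter fun k => (isClosed_le continuous_const (continuous_apply k)).inter
    (isClosed_le (continuous_apply k) continuous_const)

/-- a point of the boundary of a square is on one of the four edges -/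
theorem mem_sqE_of {v : V} {s : Idx × Fin 3} {y : V} (hy : y ∈ squ v s) {l : Fin 3}
    (hl : l ≠ s.2) (hb : |y l - P86.sc v s l| = 1 / 2 / 2 ^ s.1.1) :
    ∃ e ∈ sqE s, y ∈ edge v e := by
  have e1 : P86.sc v s l = v l + (s.1.2 l + 1 / 2) / 2 ^ s.1.1 := by simp [P86.sc, hl]
  rw [e1] at hb
  have hmem : ∀ τ : ℤ, τ = 0 ∨ τ = 1 → y l = v l + (s.1.2 l + τ) / 2 ^ s.1.1 →
      ∃ e ∈ sqE s, y ∈ edge v e := by
    intro τ hτ hyl
    refine ⟨sqEdge s l τ, ?_, ?_⟩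
    · simp only [sqE, Finset.mem_biUnion, Finset.mem_erase, Finset.mem_univ, and_true,
        Finset.mem_insert, Finset.mem_singleton]
      exact ⟨l, hl, by rcases hτ with rfl | rfl <;> simp⟩
    · rw [Gr.mem_edge]
      have ht1 : third s.2 l ≠ s.2 := third_ne_left hl
      have ht2 : third s.2 l ≠ l := third_ne_right hl
      have h3 := hy.2 (third s.2 l) ht1
      refine ⟨fun j hj => ?_, ?_, ?_⟩
      · by_cases hjl : j = l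
        · subst hjl
          simp only [sqEdge, Function.update_self]
          push_cast
          exact hyl
        · have hjk : j = s.2 := by
            have : ∀ k a j : Fin 3, a ≠ k → j ≠ third k a → j ≠ a → j = k := by decide
            exact this s.2 l j hl hj hjl
          subst hjk
          simp only [sqEdge, Function.update_of_ne hjl]
          exact hy.1
      · simp only [sqEdge, Function.update_of_ne ht2]; exact h3.1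
      · simp only [sqEdge, Function.update_of_ne ht2]; exact h3.2
  rcases P86.abseq hb with h | h
  · exact hmem 0 (Or.inl rfl) (by rw [h]; push_cast; ring)
  · exact hmem 1 (Or.inr rfl) (by rw [h]; push_cast; ring)

theorem goodApprox_of (hp : 1 ≤ p) (hp2 : p < 2) (hΩb : IsBoundedDomain Ω)
    (c : Choice p ε₁ θ M κ k₁ k₀ Ω Λ f F)
    (hκ : κ ≤ 1) (hM : 0 < M) (hε₁ : 0 < ε₁) (hk₁ : 3 ≤ k₁) (δ : Idx × Fin 3 → ℝ)
    (hδ : ∀ e, 0 < δ e) (hδ1 : ∀ e, δ e ≤ 1 / 2 ^ e.1.1)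
    (hδ2 : ∑' e, ENNReal.ofReal (δ e) ≤ ENNReal.ofReal ε₁) {δ₀ : ℝ} (hδ₀ : 0 < δ₀)
    (hδ₀1 : δ₀ ≤ ε₁) (hδ₀2 : c.J.card * δ₀ ≤ ε₁) {G : V → V} (hG : IsDiffeo Ω Λ G) {C : ℝ}
    (hC : 0 < C)
    (hGe : ∀ e : Idx × Fin 3, (∃ q ∈ tiles Ω c.n₀ c.v, EdgeOf e q) →
        (∀ z ∈ c.J, Disjoint (edge c.v e) (interior (boxB c.v c.n₂ k₁ z))) →
        (∀ x ∈ edge c.v e, ‖G x - f x‖ ≤ δ e) ∧
        eInt c.v e (fun x => ENNReal.ofReal (‖fderiv ℝ G x (ev e.2) - cl (F x) (ev e.2)‖ ^ p)) ≤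
          ENNReal.ofReal (δ e))
    (hGb : ∀ z ∈ c.J,
        (∀ x ∈ boxR c.v c.n₂ k₁ z, ‖G x - c.A z x‖ ≤ δ₀) ∧
        ∑ j, ∫⁻ x in boxR c.v c.n₂ k₁ z,
          ENNReal.ofReal (‖fderiv ℝ G x (ev j) - c.L z (ev j)‖ ^ p) ≤ ENNReal.ofReal δ₀ ∧
        (∀ s : Idx × Fin 3, s.1.1 = c.n₂ + k₁ → squ c.v s ⊆ frontier (boxR c.v c.n₂ k₁ z) →
          ∑ j ∈ Finset.univ.erase s.2, ∫⁻ x in dyc c.v s.1.1 s.1.2,
            ENNReal.ofReal (‖fderiv ℝ G (Function.update x s.2 (pt c.v s.1.1 s.1.2 s.2)) (ev j)‖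
              ^ p) ≤ ENNReal.ofReal (C / 2 ^ (3 * (c.n₂ + k₁)))) ∧
        ∀ e : Idx × Fin 3, e.1.1 = c.n₂ + k₁ →
          edge c.v e ⊆ boxB c.v c.n₂ k₁ z \ interior (boxR c.v c.n₂ k₁ z) →
          ¬ edge c.v e ⊆ frontier (boxB c.v c.n₂ k₁ z) →
          (∀ x ∈ edge c.v e, ‖G x - c.A z x‖ ≤ 1 / 2 ^ c.n₂) ∧
          eInt c.v e (fun x => ENNReal.ofReal (‖fderiv ℝ G x (ev e.2)‖ ^ p)) ≤
            ENNReal.ofReal (C / 2 ^ (c.n₂ + k₁)))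
    {C₀ W : ℝ} (hC₀ : 0 < C₀) (hW : volume Ω ≤ ENNReal.ofReal W) (hW0 : 0 ≤ W)
    (hgeo : ∀ (Ω : Set V) (v : V) (n₂ k₁ k₀ : ℕ) (J : Finset (Fin 3 → ℤ)),
    IsOpen Ω → Bornology.IsBounded Ω → Ω.Nonempty → 3 ≤ k₁ → Core Ω v n₂ k₁ k₀ J →
    ∃ (hI : Part Ω v (newI Ω v n₂ k₁ k₀ J)) (hP : newP v n₂ k₁ J ⊆ newI Ω v n₂ k₁ k₀ J)
      (hΩ : IsOpen Ω),
      (⋃ q ∈ newP v n₂ k₁ J, dyc v q.1 q.2 = ⋃ z ∈ J, boxR v n₂ k₁ z) ∧
      (∀ z ∈ J, ∀ z' ∈ J, z ≠ z' → Disjoint (boxB v n₂ k₁ z) (boxB v n₂ k₁ z')) ∧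
      (∀ z ∈ J, dyc v n₂ z ⊆ Ω) ∧
      (∀ q ∈ newI Ω v n₂ k₁ k₀ J \ newP v n₂ k₁ J, q ∈ IT Ω v n₂ k₁ k₀ J → ∀ s,
        MinSq v (newI Ω v n₂ k₁ k₀ J) s → squ v s ⊆ dyc v q.1 q.2 →
        q.1 ≤ s.1.1 ∧ s.1.1 ≤ q.1 + 2 ∧ (∀ r ∈ newP v n₂ k₁ J, ¬ squ v s ⊆ dyc v r.1 r.2) ∧
        ∀ e ∈ sqE s, e ∈ GE Ω v n₂ k₁ k₀ J) ∧
      (∀ q ∈ newI Ω v n₂ k₁ k₀ J \ newP v n₂ k₁ J, q ∉ IT Ω v n₂ k₁ k₀ J → q.1 = n₂ + k₁ ∧
        ∃ z ∈ J, dyc v q.1 q.2 ⊆ boxB v n₂ k₁ z ∧ ∀ s,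
        MinSq v (newI Ω v n₂ k₁ k₀ J) s → squ v s ⊆ dyc v q.1 q.2 →
        (s.1.1 = n₂ + k₁ ∧ squ v s ⊆ frontier (boxR v n₂ k₁ z) ∧
          ∃ r ∈ newP v n₂ k₁ J, squ v s ⊆ dyc v r.1 r.2) ∨
        ((∀ r ∈ newP v n₂ k₁ J, ¬ squ v s ⊆ dyc v r.1 r.2) ∧
          ((s.1.1 = n₂ + k₁ + k₀ ∧
            ∀ e ∈ sqE s, e ∈ GE Ω v n₂ k₁ k₀ J ∧ edge v e ⊆ dyc v n₂ z) ∨
          (s.1.1 = n₂ + k₁ ∧ ∀ e ∈ sqE s, e ∈ GapE v n₂ k₁ z ∨ e ∈ FrE Ω v n₂ k₁ k₀ J z)))) ∧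
      (∀ e ∈ GE Ω v n₂ k₁ k₀ J, ∀ z ∈ J, edge v e ⊆ dyc v n₂ z → e.1.1 = n₂ + k₁ + k₀) ∧
      (∀ e ∈ GE Ω v n₂ k₁ k₀ J, edge v e ⊆ Ω ∧ n₂ + k₁ + k₀ ≤ e.1.1) ∧
      (∀ g : Idx × Fin 3 → ℝ≥0∞,
        ∑' i : {i : (P86.cells hΩ hI hP).ι // i.1 ∈ IT Ω v n₂ k₁ k₀ J},
          ∑ t ∈ (P86.cells hΩ hI hP).bd i.1, ∑ e ∈ sqE t.1, g e ≤
        ENNReal.ofReal C₀ * ∑' e : GE Ω v n₂ k₁ k₀ J, g e.1) ∧
      (∀ i : (P86.cells hΩ hI hP).ι, i.1.1 = n₂ + k₁ →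
        (((P86.cells hΩ hI hP).bd i).filter fun t => t.1.1.1 = n₂ + k₁ + k₀).card ≤ 6 * 4 ^ k₀ ∧
        (((P86.cells hΩ hI hP).bd i).filter fun t => t.1.1.1 = n₂ + k₁).card ≤ 6) ∧
      ({q | q ∈ newI Ω v n₂ k₁ k₀ J \ newP v n₂ k₁ J ∧ q ∉ IT Ω v n₂ k₁ k₀ J}.Finite ∧
        ({q | q ∈ newI Ω v n₂ k₁ k₀ J \ newP v n₂ k₁ J ∧ q ∉ IT Ω v n₂ k₁ k₀ J}.ncard : ℝ) ≤
          C₀ * J.card * 4 ^ k₁) ∧
      (∀ z ∈ J, {e | e ∈ GE Ω v n₂ k₁ k₀ J ∧ edge v e ⊆ dyc v n₂ z}.Finite ∧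
        ({e | e ∈ GE Ω v n₂ k₁ k₀ J ∧ edge v e ⊆ dyc v n₂ z}.ncard : ℝ) ≤
          C₀ * 8 ^ (k₁ + k₀) / 2 ^ k₁) ∧
      ENNReal.ofReal (J.card / 8 ^ n₂) ≤ volume Ω ∧
      (∀ z ∈ J, volume (dyc v n₂ z \ boxR v n₂ k₁ z) ≤ ENNReal.ofReal (C₀ / 2 ^ k₁ / 8 ^ n₂)))
    (num1 : 4 * ε₁ ≤ ε)
    (num2 : 16 * C₀ * ε₁ + C₀ * W * (4 * C₀ * (6 + 4 * M ^ p) + (48 * (6 + 4 * M ^ p) + 30 * C)) /
      2 ^ k₁ ≤ ε)
    (num3 : 3 * ε₁ + 6 * M ^ p * C₀ * W / 2 ^ k₁ ≤ ε) : GoodApprox p ε Ω Λ f F := by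
  classical
  have hb := isBounded_of hΩb
  obtain ⟨hI, hP, hΩ, gR, gdis, gsub, g1, g2, g3, g3', g4, g5, g6, g7, g8, g9⟩ :=
    hgeo Ω c.v c.n₂ k₁ k₀ c.J hΩb.1 hb hΩb.2.1.nonempty hk₁ (core' c)
  have hn := c.eqn
  have hMp : 0 ≤ M ^ p := by positivity
  have hL : ∀ z ∈ c.J, ∀ j, ‖c.L z (ev j)‖ ≤ M := fun z hz j => by
    have := c.above z hz (ev j)
    rwa [ev_norm, mul_one] at this
  -- good edges
  have hGE : ∀ e ∈ GE Ω c.v c.n₂ k₁ k₀ c.J, (∀ x ∈ edge c.v e, ‖G x - f x‖ ≤ δ e) ∧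
      eInt c.v e (fun x => ENNReal.ofReal (‖fderiv ℝ G x (ev e.2) - cl (F x) (ev e.2)‖ ^ p)) ≤
        ENNReal.ofReal (δ e) := by
    intro e he
    refine hGe e ?_ he.2
    rw [hn]; exact he.1
  have D : Dat p (6 + 4 * M ^ p) C Ω c.v c.n₂ k₁ k₀ c.J G := by
    refine ⟨fun e he z hz hsub => ?_, fun z hz e he => ?_, fun z hz s hs hfr => ?_⟩
    · have hgen := g3 e he z hz hsub
      have hown := (c.own z hz e (by rw [hn]; exact hgen) hsub).2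
      rw [← hgen]
      refine eInt_G_le' hp hp2 c.rat (g3' e he).1 G hM
        ((hGE e he).2.trans (ENNReal.ofReal_le_ofReal (hδ1 e))) (c.L z) (hL z hz _)
        (hown.trans (ENNReal.ofReal_le_ofReal ?_))
      rw [hn, hgen]
      gcongr
    · exact ((hGb z hz).2.2.2 e he.1 he.2.1 he.2.2).2
    · have := (hGb z hz).2.2.1 s hs hfr
      rw [faceE_eq]
      refine this.trans (ENNReal.ofReal_le_ofReal (le_of_eq ?_))
      rw [pow_mul]; norm_num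
  -- energy
  have hen := sum_en (G := G) hC₀ hW hW0 hΩ hI hP D (by positivity) hC.le ε₁ hε₁.le
    (fun e => eInt c.v e (fun x => ENNReal.ofReal (‖cl (F x) (ev e.2)‖ ^ p)))
    (fun e => ENNReal.ofReal (δ e))
    (fun e he => eInt_G_le hp hp2 c.rat (g3' e he).1 G (hGE e he).2) hδ2
    (by have h3 := c.s3; rw [hn] at h3; exact h3) g1 g2 g3 g4 g5 g6 g7 g8
  have hJW : (c.J.card : ℝ) / 8 ^ c.n₂ ≤ W := (ENNReal.ofReal_le_ofReal_iff hW0).1 (g8.trans hW)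
  refine ⟨_, P86.cells hΩ hI hP, G, ?_, ?_, hG, ?_, ?_, ?_, c.K, c.Ksub, c.Kcomp.measurableSet,
    c.Kvol.trans (ENNReal.ofReal_le_ofReal (by linarith)), ?_, ?_⟩
  · rw [gR]
    exact MeasurableSet.biUnion c.J.countable_toSet fun z _ => (isClosed_shrink _ _ _ _).measurableSet
  · rw [gR]
    exact iUnion₂_subset fun z hz => (boxR_sub_cell _ _ _ _).trans (gsub z hz)
  · -- derivative on `R`
    rw [gR]
    calc ∑ j, ∫⁻ x in ⋃ z ∈ c.J, boxR c.v c.n₂ k₁ z,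
          ENNReal.ofReal (‖fderiv ℝ G x (ev j) - cl (F x) (ev j)‖ ^ p)
        ≤ ∑ j, ∑ z ∈ c.J, ∫⁻ x in boxR c.v c.n₂ k₁ z,
          ENNReal.ofReal (‖fderiv ℝ G x (ev j) - cl (F x) (ev j)‖ ^ p) :=
          Finset.sum_le_sum fun j _ => setLIntegral_biUnion_le _ _ _
      _ ≤ ∑ j, ∑ z ∈ c.J,
          (2 * (∫⁻ x in boxR c.v c.n₂ k₁ z,
            ENNReal.ofReal (‖fderiv ℝ G x (ev j) - c.L z (ev j)‖ ^ p)) +
          2 * (∫⁻ x in dyc c.v c.n₂ z,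
            ENNReal.ofReal (‖cl (F x) (ev j) - c.L z (ev j)‖ ^ p))) := by
          refine Finset.sum_le_sum fun j _ => Finset.sum_le_sum fun z _ =>
            (int_le_G hp hp2 G F (c.L z) j _).trans ?_
          gcongr
          exact boxR_sub_cell _ _ _ _
      _ = 2 * (∑ z ∈ c.J, ∑ j, ∫⁻ x in boxR c.v c.n₂ k₁ z,
            ENNReal.ofReal (‖fderiv ℝ G x (ev j) - c.L z (ev j)‖ ^ p)) +
          2 * (∑ z ∈ c.J, ∑ j, ∫⁻ x in dyc c.v c.n₂ z,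
            ENNReal.ofReal (‖cl (F x) (ev j) - c.L z (ev j)‖ ^ p)) := by
          rw [Finset.sum_comm]
          simp only [Finset.mul_sum, Finset.sum_add_distrib]
      _ ≤ 2 * (∑ _z ∈ c.J, ENNReal.ofReal δ₀) + 2 * ENNReal.ofReal ε₁ := by
          gcongr with z hz
          · exact (hGb z hz).2.1
          · exact c.s1
      _ ≤ 2 * ENNReal.ofReal ε₁ + 2 * ENNReal.ofReal ε₁ := by
          gcongr
          rw [Finset.sum_const, nsmul_eq_mul, ← ENNReal.ofReal_natCast,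
            ← ENNReal.ofReal_mul (by positivity)]
          exact ENNReal.ofReal_le_ofReal hδ₀2
      _ ≤ ENNReal.ofReal ε := by
          have e2 : (2:ℝ≥0∞) = ENNReal.ofReal 2 := by norm_num
          rw [e2, ← ENNReal.ofReal_mul (by norm_num), ← ENNReal.ofReal_add (by positivity)
            (by positivity)]
          exact ENNReal.ofReal_le_ofReal (by linarith)
  · exact hen.trans (ENNReal.ofReal_le_ofReal num2)
  · -- the energy of `f` off `R`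
    rw [gR]
    have hsub : Ω \ (⋃ z ∈ c.J, boxR c.v c.n₂ k₁ z) ⊆ (Ω \ ⋃ z ∈ c.J, dyc c.v c.n₂ z) ∪
        ⋃ z ∈ c.J, (dyc c.v c.n₂ z \ boxR c.v c.n₂ k₁ z) := by
      rintro x ⟨hx, hxR⟩
      by_cases h : x ∈ ⋃ z ∈ c.J, dyc c.v c.n₂ z
      · right
        obtain ⟨z, hz, hxz⟩ := mem_iUnion₂.1 h
        exact mem_iUnion₂.2 ⟨z, hz, hxz, fun h => hxR (mem_iUnion₂.2 ⟨z, hz, h⟩)⟩
      · exact Or.inl ⟨hx, h⟩
    calc ∑ j, ∫⁻ x in Ω \ (⋃ z ∈ c.J, boxR c.v c.n₂ k₁ z),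
          ENNReal.ofReal (‖cl (F x) (ev j)‖ ^ p)
        ≤ ∑ j, ((∫⁻ x in Ω \ ⋃ z ∈ c.J, dyc c.v c.n₂ z,
            ENNReal.ofReal (‖cl (F x) (ev j)‖ ^ p)) +
          ∑ z ∈ c.J, ∫⁻ x in dyc c.v c.n₂ z \ boxR c.v c.n₂ k₁ z,
            ENNReal.ofReal (‖cl (F x) (ev j)‖ ^ p)) := by
          refine Finset.sum_le_sum fun j _ => ?_
          refine (lintegral_mono_set hsub).trans ((lintegral_union_le _ _ _).trans ?_)
          gcongr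
          exact setLIntegral_biUnion_le _ _ _
      _ ≤ ∑ j, ((∫⁻ x in Ω \ ⋃ z ∈ c.J, dyc c.v c.n₂ z,
            ENNReal.ofReal (‖cl (F x) (ev j)‖ ^ p)) +
          ∑ z ∈ c.J, (2 * (∫⁻ x in dyc c.v c.n₂ z,
            ENNReal.ofReal (‖cl (F x) (ev j) - c.L z (ev j)‖ ^ p)) +
            2 * ENNReal.ofReal (M ^ p) * ENNReal.ofReal (C₀ / 2 ^ k₁ / 8 ^ c.n₂))) := by
          gcongr with j _ z hz
          refine (int_le_F hp hp2 F (c.L z) j (hL z hz j) _).trans ?_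
          gcongr
          · exact sdiff_subset
          · exact g9 z hz
      _ = (∑ j, ∫⁻ x in Ω \ ⋃ z ∈ c.J, dyc c.v c.n₂ z,
            ENNReal.ofReal (‖cl (F x) (ev j)‖ ^ p)) +
          (2 * (∑ z ∈ c.J, ∑ j, ∫⁻ x in dyc c.v c.n₂ z,
            ENNReal.ofReal (‖cl (F x) (ev j) - c.L z (ev j)‖ ^ p)) +
          3 * (c.J.card * (2 * ENNReal.ofReal (M ^ p) *
            ENNReal.ofReal (C₀ / 2 ^ k₁ / 8 ^ c.n₂)))) := by
          rw [Finset.sum_add_distrib]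
          congr 1
          rw [Finset.sum_comm (s := c.J)]
          simp only [Finset.mul_sum, Finset.sum_add_distrib, Finset.sum_const, nsmul_eq_mul,
            Finset.card_univ, Fintype.card_fin]
          push_cast
          rfl
      _ ≤ ENNReal.ofReal ε₁ + (2 * ENNReal.ofReal ε₁ +
          ENNReal.ofReal (6 * M ^ p * C₀ * W / 2 ^ k₁)) := by
          gcongr
          · exact c.s2
          · exact c.s1
          · have e2 : (2:ℝ≥0∞) = ENNReal.ofReal 2 := by norm_num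
            have e3 : (3:ℝ≥0∞) = ENNReal.ofReal 3 := by norm_num
            rw [e2, e3, ← ENNReal.ofReal_mul (by norm_num), ← ENNReal.ofReal_mul (by positivity),
              ← ENNReal.ofReal_natCast, ← ENNReal.ofReal_mul (by positivity),
              ← ENNReal.ofReal_mul (by norm_num)]
            refine ENNReal.ofReal_le_ofReal ?_
            calc 3 * (c.J.card * (2 * M ^ p * (C₀ / 2 ^ k₁ / 8 ^ c.n₂))) =
                  6 * M ^ p * C₀ * (c.J.card / 8 ^ c.n₂) / 2 ^ k₁ := by field_simp; ring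
              _ ≤ 6 * M ^ p * C₀ * W / 2 ^ k₁ := by gcongr
      _ ≤ ENNReal.ofReal ε := by
          have e2 : (2:ℝ≥0∞) = ENNReal.ofReal 2 := by norm_num
          rw [e2, ← ENNReal.ofReal_mul (by norm_num), ← ENNReal.ofReal_add (by positivity)
            (by positivity), ← ENNReal.ofReal_add (by positivity) (by positivity)]
          exact ENNReal.ofReal_le_ofReal (by linarith)
  · -- zero order on `R`
    rintro x ⟨hxK, hxR⟩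
    rw [gR] at hxR
    obtain ⟨z, hz, hxz⟩ := mem_iUnion₂.1 hxR
    have h1 := (hGb z hz).1 x hxz
    have hcell := boxR_sub_cell _ _ _ _ hxz
    have h2 := near_aff c hκ hM hz hxK hcell hcell
    have h3 : (M + 1) / 2 ^ c.n₂ ≤ ε₁ := le_trans (by gcongr; norm_num) c.small
    calc ‖G x - f x‖ ≤ ‖G x - c.A z x‖ + ‖c.A z x - f x‖ := norm_sub_le_norm_sub_add_norm_sub _ _ _
      _ ≤ ε := by linarith
  · -- zero order off `R`
    rintro i x ⟨hxK, hxi⟩ y ⟨t, ht, hyk, hyl, hyt⟩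
    have hxi' : x ∈ dyc c.v i.1.1 i.1.2 := by rw [← P86.cube_eq]; exact hxi
    rw [mem_bd] at ht
    have hysq : y ∈ squ c.v t.1 := (P86.mem_squ_iff c.v t.1 y).1 ⟨hyk, hyl⟩
    have hyi : y ∈ dyc c.v i.1.1 i.1.2 := ht hysq
    have hxy := dist_dyc hyi hxi'
    have hgood : c.n₂ ≤ i.1.1 → ∀ e ∈ GE Ω c.v c.n₂ k₁ k₀ c.J, y ∈ edge c.v e →
        ‖G y - f x‖ ≤ ε := by
      intro hgen e he hye
      have h1 := (hGE e he).1 y hye
      have h2 : δ e ≤ ε₁ := by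
        have := (ENNReal.le_tsum e).trans hδ2
        exact (ENNReal.ofReal_le_ofReal_iff hε₁.le).1 this
      have h3 : ‖y - x‖ ≤ 2 / 2 ^ c.n₂ := by
        refine hxy.trans ?_
        have : (1:ℝ) / 2 ^ i.1.1 ≤ 1 / 2 ^ c.n₂ :=
          one_div_le_one_div_of_le (by positivity) (pow_le_pow_right₀ (by norm_num) hgen)
        refine this.trans ?_
        gcongr; norm_num
      have h4 := (c.osc x hxK y h3).2
      calc ‖G y - f x‖ ≤ ‖G y - f y‖ + ‖f y - f x‖ := norm_sub_le_norm_sub_add_norm_sub _ _ _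
        _ ≤ ε := by linarith
    have hedge : t ∉ (P86.cells hΩ hI hP).ctrl → ∃ e ∈ sqE t.1, y ∈ edge c.v e := by
      intro hc
      rcases hyt with h | ⟨l, hl, hb⟩
      · exact absurd h hc
      · exact mem_sqE_of hysq hl hb
    by_cases hIT : i.1 ∈ IT Ω c.v c.n₂ k₁ k₀ c.J
    · obtain ⟨h1, h2, h3, h4⟩ := g1 i.1 i.2 hIT t.1 t.2.1 ht
      obtain ⟨e, he, hye⟩ := hedge fun ⟨r, hr, hsub⟩ => h3 r hr hsub
      have hgen : c.n₂ ≤ i.1.1 := by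
        obtain ⟨-, -, h5, -⟩ := specTiles Ω (c.n₂ + k₁ + k₀) c.v hΩ hb hΩb.2.1.nonempty
        have h6 := (specTiles Ω (c.n₂ + k₁ + k₀) c.v hΩ hb hΩb.2.1.nonempty).2.2.1 i.1 hIT.1
        omega
      exact hgood hgen e (h4 e he) hye
    · obtain ⟨hi1, z, hz, hiB, hsq⟩ := g2 i.1 i.2 hIT
      have hgen : c.n₂ ≤ i.1.1 := by omega
      have hxcell : x ∈ dyc c.v c.n₂ z := boxB_sub_cell _ _ _ _ (hiB hxi')
      have hycell : y ∈ dyc c.v c.n₂ z := boxB_sub_cell _ _ _ _ (hiB hyi)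
      have h2 := near_aff c hκ hM hz hxK hxcell hycell
      have h3 : (M + 2) / 2 ^ c.n₂ ≤ ε₁ := c.small
      have h3' : (M + 1) / 2 ^ c.n₂ + 1 / 2 ^ c.n₂ = (M + 2) / 2 ^ c.n₂ := by ring
      have hpos : (0:ℝ) < 1 / 2 ^ c.n₂ := by positivity
      have haff : ‖G y - c.A z y‖ ≤ max δ₀ (1 / 2 ^ c.n₂) → ‖G y - f x‖ ≤ ε := by
        intro h
        have h5 : max δ₀ (1 / 2 ^ c.n₂) ≤ ε₁ + 1 / 2 ^ c.n₂ :=
          max_le (by linarith) (by linarith)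
        calc ‖G y - f x‖ ≤ ‖G y - c.A z y‖ + ‖c.A z y - f x‖ :=
              norm_sub_le_norm_sub_add_norm_sub _ _ _
          _ ≤ ε := by linarith
      rcases hsq t.1 t.2.1 ht with ⟨h4, h5, h6⟩ | ⟨h4, h5⟩
      · have hyR : y ∈ boxR c.v c.n₂ k₁ z := by
          have := h5 hysq
          exact (isClosed_shrink _ _ _ _).frontier_subset this
        exact haff (((hGb z hz).1 y hyR).trans (le_max_left _ _))
      · obtain ⟨e, he, hye⟩ := hedge fun ⟨r, hr, hsub⟩ => h4 r hr hsub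
        rcases h5 with ⟨h6, h7⟩ | ⟨h6, h7⟩
        · exact hgood hgen e (h7 e he).1 hye
        · rcases h7 e he with h8 | h8
          · exact haff ((((hGb z hz).2.2.2 e h8.1 h8.2.1 h8.2.2).1 y hye).trans (le_max_right _ _))
          · obtain ⟨j, hj, hyj⟩ := mem_subEdge hye k₀
            exact hgood hgen _ (h8.2.2 j hj).1 hyj

end Vale.Agent.P073.AB.S293
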