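import Vale.Agent.P073.AB.SumDefs

/-!
# Block AB, SpecSum, geometry: the new partition

The tiles inside the boxes `boxB` are replaced by the dyadic cubes of generation `n₂ + k₁`.
-/

namespace Vale.Agent.P073.AB.S308

open MeasureTheory Set Filter Topology Metric Vale.Agent.P073.St
open Vale.Agent.P073.AB
open Vale.Agent.P073.SQ (ev cube Cells)
open P073.Net (IsTile dyc dyo SizeFn)
open P073.Net.NC (dyA dyB fine_sub fine_sub' dyc_sub dist_le)
open P86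
open scoped ContDiff ENNReal

/-! ### Grid boxes -/

/-- the closed box with corners `a / 2 ^ N`, `b / 2 ^ N` -/
def gbox (v : V) (N : ℕ) (a b : Fin 3 → ℤ) : Set V :=
  {x | ∀ k, v k + a k / 2 ^ N ≤ x k ∧ x k ≤ v k + b k / 2 ^ N}

/-- the open box -/
def obox (v : V) (N : ℕ) (a b : Fin 3 → ℤ) : Set V :=
  {x | ∀ k, v k + a k / 2 ^ N < x k ∧ x k < v k + b k / 2 ^ N}

variable {v : V} {N m n : ℕ} {a b a' b' w z : Fin 3 → ℤ} {x : V}

theorem gbox_eq_pi (v : V) (N : ℕ) (a b : Fin 3 → ℤ) :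
    gbox v N a b = Set.pi univ (fun k => Icc (v k + a k / 2 ^ N) (v k + b k / 2 ^ N)) := by
  ext x; exact ⟨fun h k _ => h k, fun h k => h k (mem_univ k)⟩

theorem interior_gbox (v : V) (N : ℕ) (a b : Fin 3 → ℤ) : interior (gbox v N a b) = obox v N a b := by
  rw [gbox_eq_pi, interior_pi_set finite_univ]
  ext x
  simp only [interior_Icc, Set.mem_pi, mem_univ, true_implies, Set.mem_Ioo]
  rfl

theorem isClosed_gbox (v : V) (N : ℕ) (a b : Fin 3 → ℤ) : IsClosed (gbox v N a b) := by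
  rw [gbox_eq_pi]
  exact isClosed_set_pi (fun _ _ => isClosed_Icc)

theorem isCompact_gbox (v : V) (N : ℕ) (a b : Fin 3 → ℤ) : IsCompact (gbox v N a b) := by
  rw [gbox_eq_pi]
  exact isCompact_univ_pi (fun _ => isCompact_Icc)

theorem frontier_gbox (v : V) (N : ℕ) (a b : Fin 3 → ℤ) :
    frontier (gbox v N a b) = gbox v N a b \ obox v N a b := by
  rw [(isClosed_gbox v N a b).frontier_eq, interior_gbox]

theorem dyc_eq_gbox (v : V) (m : ℕ) (z : Fin 3 → ℤ) : dyc v m z = gbox v m z (fun k => z k + 1) := by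
  ext x
  simp only [dyc, gbox, Set.mem_ofPred_eq, Int.cast_add, Int.cast_one]

/-- refinement of the grid -/
theorem gbox_refine (v : V) (N d : ℕ) (a b : Fin 3 → ℤ) :
    gbox v (N + d) (fun k => a k * 2 ^ d) (fun k => b k * 2 ^ d) = gbox v N a b := by
  have h : ∀ c : ℤ, ((c * 2 ^ d : ℤ) : ℝ) / 2 ^ (N + d) = c / 2 ^ N := by
    intro c
    push_cast
    rw [pow_add]
    field_simp
  ext x
  simp only [gbox, Set.mem_ofPred_eq, h]

theorem obox_refine (v : V) (N d : ℕ) (a b : Fin 3 → ℤ) :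
    obox v (N + d) (fun k => a k * 2 ^ d) (fun k => b k * 2 ^ d) = obox v N a b := by
  rw [← interior_gbox, gbox_refine, interior_gbox]

theorem dyc_coarse (v : V) (n d : ℕ) (z : Fin 3 → ℤ) :
    dyc v n z = gbox v (n + d) (fun k => z k * 2 ^ d) (fun k => (z k + 1) * 2 ^ d) := by
  rw [dyc_eq_gbox, ← gbox_refine v n d]

theorem pow_pos' (N : ℕ) : (0:ℝ) < 2 ^ N := by positivity

theorem cast_div_le {N : ℕ} {c d : ℤ} : (c : ℝ) / 2 ^ N ≤ d / 2 ^ N ↔ c ≤ d := by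
  rw [div_le_div_iff_of_pos_right (pow_pos' N)]
  exact Int.cast_le

theorem cast_div_lt {N : ℕ} {c d : ℤ} : (c : ℝ) / 2 ^ N < d / 2 ^ N ↔ c < d := by
  rw [div_lt_div_iff_of_pos_right (pow_pos' N)]
  exact Int.cast_lt

/-- inclusion of boxes of the same grid -/
theorem gbox_sub_iff (hab : ∀ k, a k ≤ b k) :
    gbox v N a b ⊆ gbox v N a' b' ↔ ∀ k, a' k ≤ a k ∧ b k ≤ b' k := by
  constructor
  · intro h k
    have h1 : (fun k => v k + a k / 2 ^ N : V) ∈ gbox v N a b := fun j =>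
      ⟨le_rfl, by
        have := (cast_div_le (N := N)).2 (hab j)
        show v j + a j / 2 ^ N ≤ v j + b j / 2 ^ N
        linarith⟩
    have h2 : (fun k => v k + b k / 2 ^ N : V) ∈ gbox v N a b := fun j =>
      ⟨by
        have := (cast_div_le (N := N)).2 (hab j)
        show v j + a j / 2 ^ N ≤ v j + b j / 2 ^ N
        linarith, le_rfl⟩
    have h3 := (h h1 k).1
    have h4 := (h h2 k).2
    constructor
    · exact (cast_div_le (N := N)).1 (by linarith)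
    · exact (cast_div_le (N := N)).1 (by linarith)
  · intro h x hx k
    have h1 := hx k
    have h2 := (cast_div_le (N := N)).2 (h k).1
    have h3 := (cast_div_le (N := N)).2 (h k).2
    constructor <;> linarith [h1.1, h1.2]

theorem dyc_sub_gbox_iff : dyc v N w ⊆ gbox v N a b ↔ ∀ k, a k ≤ w k ∧ w k + 1 ≤ b k := by
  rw [dyc_eq_gbox, gbox_sub_iff (fun k => by omega)]

/-- a finer cube which meets the open box lies in the closed box -/
theorem dyc_sub_of_mem_obox (h : N ≤ m) (hx : x ∈ dyc v m w) (hx' : x ∈ obox v N a b) :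
    dyc v m w ⊆ gbox v N a b := by
  intro y hy k
  have h1 := hx k
  have h2 := hx' k
  have h3 := hy k
  constructor
  · have := dyB (a := a k) (b := w k) h (by linarith [h1.2, h2.1])
    linarith [h3.1]
  · have := dyA (a := b k) (b := w k) h (by linarith [h1.1, h2.2])
    linarith [h3.2]

/-- a finer open cube which meets the closed box lies in the closed box -/
theorem dyc_sub_of_mem_dyo (h : N ≤ m) (hx : x ∈ dyo v m w) (hx' : x ∈ gbox v N a b) :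
    dyc v m w ⊆ gbox v N a b := by
  intro y hy k
  have h1 := hx k
  have h2 := hx' k
  have h3 := hy k
  constructor
  · have := dyB (a := a k) (b := w k) h (by linarith [h1.2, h2.1])
    linarith [h3.1]
  · have := dyA (a := b k) (b := w k) h (by linarith [h1.1, h2.2])
    linarith [h3.2]

/-- ancestor of a cube -/
def anc (d : ℕ) (w : Fin 3 → ℤ) : Fin 3 → ℤ := fun k => w k / 2 ^ d

theorem dyc_sub_anc (v : V) (n d : ℕ) (w : Fin 3 → ℤ) : dyc v (n + d) w ⊆ dyc v n (anc d w) := by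
  rw [dyc_coarse v n d, dyc_sub_gbox_iff]
  intro k
  have h2 : (0:ℤ) < 2 ^ d := by positivity
  have h3 := Int.mul_ediv_add_emod (w k) (2 ^ d)
  have h4 := Int.emod_nonneg (w k) h2.ne'
  have h5 := Int.emod_lt_of_pos (w k) h2
  simp only [anc]
  constructor
  · nlinarith
  · nlinarith

theorem anc_sub_gbox {d : ℕ} (h : dyc v (N + d) w ⊆ gbox v N a b) :
    dyc v N (anc d w) ⊆ gbox v N a b := by
  rw [← gbox_refine v N d, dyc_sub_gbox_iff] at h
  rw [dyc_sub_gbox_iff]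
  intro k
  have h2 : (0:ℤ) < 2 ^ d := by positivity
  obtain ⟨h3, h4⟩ := h k
  simp only [anc]
  constructor
  · exact Int.le_ediv_of_mul_le h2 h3
  · have : w k / 2 ^ d < b k := Int.ediv_lt_of_lt_mul h2 (by omega)
    omega

/-- a point of a fat box lies in a cube of the box -/
theorem exists_dyc_of_mem_gbox (hab : ∀ k, a k < b k) (hx : x ∈ gbox v N a b) :
    ∃ w, x ∈ dyc v N w ∧ dyc v N w ⊆ gbox v N a b := by
  have h2 := pow_pos' N
  refine ⟨fun k => min ⌊(x k - v k) * 2 ^ N⌋ (b k - 1), ?_, ?_⟩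
  · intro k
    obtain ⟨h3, h4⟩ := hx k
    have h5 : (x k - v k) ≤ b k / 2 ^ N := by linarith
    have h6 : (a k : ℝ) / 2 ^ N ≤ x k - v k := by linarith
    rw [le_div_iff₀ h2] at h5
    rw [div_le_iff₀ h2] at h6
    have h7 := Int.floor_le ((x k - v k) * 2 ^ N)
    have h8 := Int.lt_floor_add_one ((x k - v k) * 2 ^ N)
    constructor
    · have : ((min ⌊(x k - v k) * 2 ^ N⌋ (b k - 1) : ℤ) : ℝ) / 2 ^ N ≤ x k - v k := by
        rw [div_le_iff₀ h2]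
        refine le_trans ?_ h7
        exact_mod_cast min_le_left _ _
      linarith
    · have : x k - v k ≤ (((min ⌊(x k - v k) * 2 ^ N⌋ (b k - 1) : ℤ) : ℝ) + 1) / 2 ^ N := by
        rw [le_div_iff₀ h2]
        rcases min_cases ⌊(x k - v k) * 2 ^ N⌋ (b k - 1) with h | h
        · rw [h.1]; exact h8.le
        · rw [h.1]; push_cast; linarith
      linarith
  · rw [dyc_sub_gbox_iff]
    intro k
    obtain ⟨h3, h4⟩ := hx k
    have h6 : (a k : ℝ) / 2 ^ N ≤ x k - v k := by linarith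
    rw [div_le_iff₀ h2] at h6
    have h7 : a k ≤ ⌊(x k - v k) * 2 ^ N⌋ := Int.le_floor.2 h6
    have := hab k
    omega

/-! ### The boxes of a cell -/

section boxes

variable {n₂ k₁ : ℕ}

theorem shrink_eq (v : V) (n₂ k₁ : ℕ) (z : Fin 3 → ℤ) (c : ℤ) :
    shrink v n₂ z (c / 2 ^ (n₂ + k₁)) =
      gbox v (n₂ + k₁) (fun k => z k * 2 ^ k₁ + c) (fun k => (z k + 1) * 2 ^ k₁ - c) := by
  have h1 : ∀ k, ((z k * 2 ^ k₁ + c : ℤ) : ℝ) / 2 ^ (n₂ + k₁) = z k / 2 ^ n₂ + c / 2 ^ (n₂ + k₁) := by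
    intro k
    push_cast
    rw [add_div, pow_add]
    congr 1
    field_simp
  have h2 : ∀ k, (((z k + 1) * 2 ^ k₁ - c : ℤ) : ℝ) / 2 ^ (n₂ + k₁) =
      (z k + 1) / 2 ^ n₂ - c / 2 ^ (n₂ + k₁) := by
    intro k
    push_cast
    rw [sub_div, pow_add]
    congr 1
    field_simp
  ext x
  simp only [shrink, gbox, Set.mem_ofPred_eq, h1, h2, add_sub_assoc, add_assoc]

theorem boxB_eq (v : V) (n₂ k₁ : ℕ) (z : Fin 3 → ℤ) : boxB v n₂ k₁ z =
    gbox v (n₂ + k₁) (fun k => z k * 2 ^ k₁ + 1) (fun k => (z k + 1) * 2 ^ k₁ - 1) := by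
  have := shrink_eq v n₂ k₁ z 1
  rw [Int.cast_one] at this
  exact this

theorem boxR_eq (v : V) (n₂ k₁ : ℕ) (z : Fin 3 → ℤ) : boxR v n₂ k₁ z =
    gbox v (n₂ + k₁) (fun k => z k * 2 ^ k₁ + 2) (fun k => (z k + 1) * 2 ^ k₁ - 2) := by
  have := shrink_eq v n₂ k₁ z 2
  rw [Int.cast_ofNat] at this
  exact this

theorem eight_le (h : 3 ≤ k₁) : (8:ℤ) ≤ 2 ^ k₁ := by
  calc (8:ℤ) = 2 ^ 3 := by norm_num
    _ ≤ 2 ^ k₁ := pow_le_pow_right₀ (by norm_num) h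

theorem boxB_sub_dyo (z : Fin 3 → ℤ) : boxB v n₂ k₁ z ⊆ dyo v n₂ z := by
  intro x hx k
  have h := hx k
  have : (0:ℝ) < 1 / 2 ^ (n₂ + k₁) := by positivity
  constructor <;> linarith [h.1, h.2]

theorem boxB_sub_dyc (z : Fin 3 → ℤ) : boxB v n₂ k₁ z ⊆ dyc v n₂ z :=
  (boxB_sub_dyo z).trans dyo_sub_dyc

theorem boxR_sub_int (z : Fin 3 → ℤ) : boxR v n₂ k₁ z ⊆ interior (boxB v n₂ k₁ z) := by
  rw [boxB_eq, interior_gbox, boxR_eq]
  intro x hx k
  have h := hx k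
  have h1 : ((z k * 2 ^ k₁ + 1 : ℤ) : ℝ) / 2 ^ (n₂ + k₁) < ((z k * 2 ^ k₁ + 2 : ℤ) : ℝ) / 2 ^ (n₂ + k₁) :=
    cast_div_lt.2 (by omega)
  have h2 : (((z k + 1) * 2 ^ k₁ - 2 : ℤ) : ℝ) / 2 ^ (n₂ + k₁) <
    (((z k + 1) * 2 ^ k₁ - 1 : ℤ) : ℝ) / 2 ^ (n₂ + k₁) := cast_div_lt.2 (by omega)
  constructor <;> linarith [h.1, h.2]

theorem boxR_sub_boxB (z : Fin 3 → ℤ) : boxR v n₂ k₁ z ⊆ boxB v n₂ k₁ z :=
  (boxR_sub_int z).trans interior_subset

theorem dyo_disj {z z' : Fin 3 → ℤ} (h : z ≠ z') : Disjoint (dyo v m z) (dyo v m z') := by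
  rw [Set.disjoint_left]
  intro x hx hx'
  exact h (eq_of_sub_same (v := v) (dyc_sub (fine_sub le_rfl hx' (dyo_sub_dyc hx))))

theorem boxB_disj {z z' : Fin 3 → ℤ} (h : z ≠ z') : Disjoint (boxB v n₂ k₁ z) (boxB v n₂ k₁ z') :=
  (dyo_disj h).mono (boxB_sub_dyo z) (boxB_sub_dyo z')

theorem eq_of_mem_boxB {z z' : Fin 3 → ℤ} (h : x ∈ boxB v n₂ k₁ z) (h' : x ∈ boxB v n₂ k₁ z') :
    z = z' := by
  by_contra hne
  exact Set.disjoint_left.1 (boxB_disj hne) h h'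

/-- a cube of generation at least `n₂ + k₁` is contained in the box or disjoint from its
interior -/
theorem disj_int_boxB {q : Idx} (hq : n₂ + k₁ ≤ q.1) (h : ¬ dyc v q.1 q.2 ⊆ boxB v n₂ k₁ z) :
    Disjoint (dyc v q.1 q.2) (interior (boxB v n₂ k₁ z)) := by
  rw [Set.disjoint_left]
  intro x hx hx'
  apply h
  rw [boxB_eq] at hx' ⊢
  rw [interior_gbox] at hx'
  exact dyc_sub_of_mem_obox hq hx hx'

theorem disj_int_boxR {q : Idx} (hq : n₂ + k₁ ≤ q.1) (h : ¬ dyc v q.1 q.2 ⊆ boxR v n₂ k₁ z) :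
    Disjoint (dyc v q.1 q.2) (interior (boxR v n₂ k₁ z)) := by
  rw [Set.disjoint_left]
  intro x hx hx'
  apply h
  rw [boxR_eq] at hx' ⊢
  rw [interior_gbox] at hx'
  exact dyc_sub_of_mem_obox hq hx hx'

end boxes

/-! ### The situation -/

/-- the geometric data of a choice -/
structure Sit (Ω : Set V) (v : V) (n₂ k₁ k₀ : ℕ) (J : Finset (Fin 3 → ℤ)) : Prop where
  op : IsOpen Ω
  bd : Bornology.IsBounded Ω
  ne : Ω.Nonempty
  k3 : 3 ≤ k₁
  core : Core Ω v n₂ k₁ k₀ J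

section sit

variable {Ω : Set V} {n₂ k₁ k₀ : ℕ} {J : Finset (Fin 3 → ℤ)}

theorem Sit.part0 (h : Sit Ω v n₂ k₁ k₀ J) : Part Ω v (tiles Ω (n₂ + k₁ + k₀) v) :=
  (specTiles Ω (n₂ + k₁ + k₀) v h.op h.bd h.ne).2.1

theorem Sit.gen (h : Sit Ω v n₂ k₁ k₀ J) {q : Idx} (hq : q ∈ tiles Ω (n₂ + k₁ + k₀) v) :
    n₂ + k₁ + k₀ ≤ q.1 :=
  (specTiles Ω (n₂ + k₁ + k₀) v h.op h.bd h.ne).2.2.1 q hq

theorem Sit.gen' (h : Sit Ω v n₂ k₁ k₀ J) {q : Idx} (hq : q ∈ tiles Ω (n₂ + k₁ + k₀) v) :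
    n₂ + k₁ ≤ q.1 := by
  have := h.gen hq
  omega

theorem Sit.mem_of_near (h : Sit Ω v n₂ k₁ k₀ J) (hz : z ∈ J) {y : V} (hy : y ∈ dyc v n₂ z)
    (hxy : ‖x - y‖ ≤ 1 / 2 ^ n₂) : x ∈ Ω := by
  by_contra hx
  have h1 := h.core z hz x ⟨y, hy, hxy⟩
  rw [infDist_zero_of_mem (show x ∈ Ωᶜ from hx)] at h1
  have : (0:ℝ) < 1 / 2 ^ (n₂ + k₁ + k₀) := by positivity
  linarith

theorem Sit.dyc_sub (h : Sit Ω v n₂ k₁ k₀ J) (hz : z ∈ J) : dyc v n₂ z ⊆ Ω := by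
  intro x hx
  exact h.mem_of_near hz hx (by rw [sub_self, norm_zero]; positivity)

/-- (G3) the cubes of generation `n₀` which meet a good cell are tiles -/
theorem Sit.tile_of_meet (h : Sit Ω v n₂ k₁ k₀ J) (hz : z ∈ J) {w : Fin 3 → ℤ}
    (hx : x ∈ dyc v n₂ z) (hw : x ∈ dyc v (n₂ + k₁ + k₀) w) :
    (n₂ + k₁ + k₀, w) ∈ tiles Ω (n₂ + k₁ + k₀) v := by
  refine (specTiles Ω (n₂ + k₁ + k₀) v h.op h.bd h.ne).2.2.2.2 w (fun y hy => ?_)
  refine h.core z hz y ⟨x, hx, (dist_le hy hw).trans ?_⟩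
  rw [one_div_le_one_div (by positivity) (by positivity)]
  exact pow_le_pow_right₀ (by norm_num) (by omega)

/-- a tile which meets a good cell has generation `n₀` -/
theorem Sit.gen_of_meet (h : Sit Ω v n₂ k₁ k₀ J) (hz : z ∈ J) {q : Idx}
    (hq : q ∈ tiles Ω (n₂ + k₁ + k₀) v) (hx : x ∈ dyc v n₂ z) (hxq : x ∈ dyc v q.1 q.2) :
    q.1 = n₂ + k₁ + k₀ := by
  obtain ⟨d, hd⟩ := Nat.exists_eq_add_of_le (h.gen hq)
  have h1 : dyc v q.1 q.2 ⊆ dyc v (n₂ + k₁ + k₀) (anc d q.2) := by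
    rw [hd]; exact dyc_sub_anc v (n₂ + k₁ + k₀) d q.2
  have h2 := h.tile_of_meet hz hx (h1 hxq)
  have h3 := eq_of_sub h.part0 hq h2 h1
  exact congrArg Prod.fst h3

/-- (G1) -/
theorem Sit.part (h : Sit Ω v n₂ k₁ k₀ J) : Part Ω v (newI Ω v n₂ k₁ k₀ J) := by
  have hT := h.part0
  have h1k := eight_le h.k3
  refine ⟨?_, ?_, ?_, ?_⟩
  · rintro q (⟨hq, -⟩ | ⟨-, z, hz, hq⟩)
    · exact hT.sub q hq
    · exact hq.trans ((boxB_sub_dyc z).trans (h.dyc_sub hz))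
  · intro x hx
    obtain ⟨q, hq, hxq⟩ := hT.cover x hx
    by_cases hc : ∀ z ∈ J, ¬ dyc v q.1 q.2 ⊆ boxB v n₂ k₁ z
    · exact ⟨q, Or.inl ⟨hq, hc⟩, hxq⟩
    · push Not at hc
      obtain ⟨z, hz, hsub⟩ := hc
      have hxB := hsub hxq
      have hxB' := hxB
      rw [boxB_eq] at hxB'
      obtain ⟨w, hw, hw'⟩ := exists_dyc_of_mem_gbox (fun k => by nlinarith) hxB'
      refine ⟨(n₂ + k₁, w), Or.inr ⟨rfl, z, hz, ?_⟩, hw⟩
      rw [boxB_eq]; exact hw'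
  · rintro q (⟨hq, hq1⟩ | ⟨hq, z, hz, hq1⟩) q' (⟨hq', hq1'⟩ | ⟨hq', z', hz', hq1'⟩) hne
    · exact hT.disj q hq q' hq' hne
    · rw [Set.disjoint_left]
      intro x hx hx'
      refine hq1 z' hz' ?_
      rw [boxB_eq] at hq1' ⊢
      exact dyc_sub_of_mem_dyo (h.gen' hq) hx (hq1' hx')
    · rw [Set.disjoint_left]
      intro x hx hx'
      refine hq1' z hz ((P073.Net.NC.dyc_sub (fine_sub ?_ hx hx')).trans hq1)
      rw [hq]; exact h.gen' hq'
    · rw [Set.disjoint_left]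
      intro x hx hx'
      apply hne
      obtain ⟨m, w⟩ := q
      obtain ⟨m', w'⟩ := q'
      simp only at hq hq' hx hx'
      subst hq hq'
      have := eq_of_sub_same (v := v) (P073.Net.NC.dyc_sub (fine_sub' le_rfl hx hx'))
      rw [this]
  · intro K hK hKc
    have h2 : {q : Idx | q.1 = n₂ + k₁ ∧ ∃ z ∈ J, dyc v q.1 q.2 ⊆ boxB v n₂ k₁ z}.Finite := by
      have h3 : (⋃ z ∈ J, {q : Idx | q.1 = n₂ + k₁ ∧ dyc v q.1 q.2 ⊆ boxB v n₂ k₁ z}).Finite := by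
        refine Set.Finite.biUnion (Finset.finite_toSet J) (fun z _ => ?_)
        refine Set.Finite.subset (Set.Finite.prod (Set.finite_singleton (n₂ + k₁))
          (Set.Finite.pi' (fun k : Fin 3 => Set.finite_Icc (z k * 2 ^ k₁ + 1)
            ((z k + 1) * 2 ^ k₁ - 1)))) ?_
        rintro ⟨m, w⟩ ⟨h4, h5⟩
        simp only at h4 h5
        subst h4
        rw [boxB_eq, dyc_sub_gbox_iff] at h5
        refine ⟨rfl, fun k => ?_⟩
        have := h5 k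
        simp only [Set.mem_Icc]
        omega
      refine h3.subset ?_
      rintro q ⟨h4, z, hz, h5⟩
      exact mem_biUnion (x := z) hz ⟨h4, h5⟩
    refine ((hT.fin K hK hKc).union h2).subset ?_
    rintro q ⟨⟨hq, -⟩ | hq, h4⟩
    · exact Or.inl ⟨hq, h4⟩
    · exact Or.inr hq

theorem newP_sub : newP v n₂ k₁ J ⊆ newI Ω v n₂ k₁ k₀ J := by
  rintro q ⟨h1, z, hz, h2⟩
  exact Or.inr ⟨h1, z, hz, h2.trans (boxR_sub_boxB z)⟩

theorem union_newP (hk : 3 ≤ k₁) : ⋃ q ∈ newP v n₂ k₁ J, dyc v q.1 q.2 = ⋃ z ∈ J, boxR v n₂ k₁ z := by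
  have h1k := eight_le hk
  apply Subset.antisymm
  · refine iUnion₂_subset ?_
    rintro q ⟨-, z, hz, h⟩
    exact h.trans (subset_biUnion_of_mem (u := fun z => boxR v n₂ k₁ z) (show z ∈ (J : Set _) from hz))
  · refine iUnion₂_subset ?_
    intro z hz x hx
    have hx' := hx
    rw [boxR_eq] at hx'
    obtain ⟨w, hw, hw'⟩ := exists_dyc_of_mem_gbox (fun k => by nlinarith) hx'
    refine mem_iUnion₂.2 ⟨(n₂ + k₁, w), ⟨rfl, z, hz, ?_⟩, hw⟩
    rw [boxR_eq]; exact hw'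

end sit

end Vale.Agent.P073.AB.S308
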