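import Vale.Agent.P073.AB.Sum308a
import Vale.Agent.P073.AB.Graph907

/-!
# Block AB, SpecSum, geometry: classification of the squares of the new partition
-/

namespace Vale.Agent.P073.AB.S308

open MeasureTheory Set Filter Topology Metric Vale.Agent.P073.St
open Vale.Agent.P073.AB
open Vale.Agent.P073.SQ (ev cube Cells)
open P073.Net (IsTile dyc dyo SizeFn)
open P073.Net.NC (dyA dyB fine_sub fine_sub' dist_le)
open P86
open scoped ContDiff ENNReal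

variable {v : V} {m n : ℕ} {w z : Fin 3 → ℤ} {x : V}

/-! ### Squares and edges -/

theorem edge_sub_squ {e s : Idx × Fin 3} (h : EdgeOfSq e s) : edge v e ⊆ squ v s := by
  obtain ⟨h1, h2, h3, h4, h5⟩ := h
  intro x hx
  obtain ⟨a1, a2, a3⟩ := Gr.mem_edge.1 hx
  rw [h1] at a1 a2 a3
  refine ⟨?_, fun k hk => ?_⟩
  · have := a1 s.2 h2.symm
    rw [h4] at this
    exact this
  · by_cases hke : k = e.2
    · subst hke
      rw [h3] at a2 a3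
      exact ⟨a2, a3⟩
    · have a := a1 k hke
      have hp : (0:ℝ) < 1 / 2 ^ s.1.1 := by positivity
      rcases h5 k hke hk with h | h
      · rw [h] at a
        rw [a, div_add_one]
        constructor <;> linarith
      · rw [h] at a
        push_cast at a
        rw [a, div_add_one]
        constructor <;> linarith

theorem edgeOf_of_face {e s : Idx × Fin 3} {q : Idx} (h : FaceOf s q) (he : EdgeOfSq e s) :
    EdgeOf e q := by
  obtain ⟨h1, h2, h3, h4, h5⟩ := he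
  obtain ⟨a1, a2, a3⟩ := h
  refine ⟨h1.trans a1, ?_, fun j hj => ?_⟩
  · rw [h3]; exact a3 _ h2
  · by_cases hjs : j = s.2
    · subst hjs
      rw [h4]; exact a2
    · rw [← a3 j hjs]; exact h5 j hj hjs

theorem squ_sub_ineq {s : Idx × Fin 3} (hsub : squ v s ⊆ dyc v m w) :
    ((w s.2 : ℝ) / 2 ^ m ≤ s.1.2 s.2 / 2 ^ s.1.1 ∧
      (s.1.2 s.2 : ℝ) / 2 ^ s.1.1 ≤ (w s.2 + 1) / 2 ^ m) ∧
    ∀ l, l ≠ s.2 → (w l : ℝ) / 2 ^ m ≤ s.1.2 l / 2 ^ s.1.1 ∧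
      ((s.1.2 l : ℝ) + 1) / 2 ^ s.1.1 ≤ (w l + 1) / 2 ^ m := by
  have hp : (0:ℝ) < 1 / 2 ^ s.1.1 := by positivity
  have h1 : (fun k => v k + s.1.2 k / 2 ^ s.1.1 : V) ∈ squ v s :=
    ⟨rfl, fun j _ => ⟨le_rfl, by rw [div_add_one]; linarith⟩⟩
  have h2 : (fun k => if k = s.2 then v k + s.1.2 k / 2 ^ s.1.1 else
      v k + (s.1.2 k + 1) / 2 ^ s.1.1 : V) ∈ squ v s := by
    refine ⟨by simp, fun j hj => ?_⟩
    simp only [if_neg hj]
    exact ⟨by rw [div_add_one]; linarith, le_rfl⟩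
  constructor
  · have h3 := hsub h1 s.2
    constructor <;> linarith [h3.1, h3.2]
  · intro l hl
    have h3 := (hsub h1 l).1
    have h4 := (hsub h2 l).2
    simp only [if_neg hl] at h4
    constructor <;> linarith

theorem exists_ne (k : Fin 3) : ∃ l : Fin 3, l ≠ k := by
  revert k; decide

theorem gen_le_squ {s : Idx × Fin 3} {q : Idx} (hsub : squ v s ⊆ dyc v q.1 q.2) : q.1 ≤ s.1.1 := by
  obtain ⟨l, hl⟩ := exists_ne s.2
  have h1 := (squ_sub_ineq hsub).2 l hl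
  rw [div_add_one, div_add_one] at h1
  have h2 : (1:ℝ) / 2 ^ s.1.1 ≤ 1 / 2 ^ q.1 := by linarith [h1.1, h1.2]
  rw [one_div_le_one_div (by positivity) (by positivity)] at h2
  exact (pow_le_pow_iff_right₀ (by norm_num)).1 h2

theorem face_of_sub {s : Idx × Fin 3} {q : Idx} (hg : s.1.1 = q.1)
    (hsub : squ v s ⊆ dyc v q.1 q.2) : FaceOf s q := by
  obtain ⟨⟨h1, h2⟩, h3⟩ := squ_sub_ineq hsub
  have h0 : (0:ℝ) < 2 ^ q.1 := by positivity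
  refine ⟨hg, ?_, fun j hj => ?_⟩
  · rw [hg, div_le_div_iff_of_pos_right h0] at h1 h2
    have h1' : q.2 s.2 ≤ s.1.2 s.2 := by exact_mod_cast h1
    have h2' : s.1.2 s.2 ≤ q.2 s.2 + 1 := by exact_mod_cast h2
    omega
  · obtain ⟨h4, h5⟩ := h3 j hj
    rw [hg, div_le_div_iff_of_pos_right h0] at h4 h5
    have h4' : q.2 j ≤ s.1.2 j := by exact_mod_cast h4
    have h5' : s.1.2 j + 1 ≤ q.2 j + 1 := by exact_mod_cast h5
    omega

theorem squ_sub_of_face {s : Idx × Fin 3} {q : Idx} (h : FaceOf s q) :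
    squ v s ⊆ dyc v q.1 q.2 := by
  rcases faceOf_iff.1 h with rfl | rfl
  · exact squ_sub_hi
  · exact squ_sub_lo

theorem sc_mem_squ {s : Idx × Fin 3} : sc v s ∈ squ v s := rel_sub sc_mem

/-- subedges -/
theorem subEdge_sub {e : Idx × Fin 3} {d j : ℕ} (hj : j < 2 ^ d) :
    edge v (subEdge e d j) ⊆ edge v e := by
  intro x hx
  rw [Gr.mem_edge] at hx ⊢
  obtain ⟨h1, h2, h3⟩ := hx
  have h0 : (0:ℝ) < 2 ^ e.1.1 := by positivity
  have hd : (0:ℝ) < 2 ^ d := by positivity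
  have key : ∀ c : ℤ, ((2 ^ d * c : ℤ) : ℝ) / 2 ^ (e.1.1 + d) = c / 2 ^ e.1.1 := by
    intro c
    push_cast
    rw [pow_add]
    field_simp
  refine ⟨fun k hk => ?_, ?_, ?_⟩
  · have := h1 k hk
    simp only [subEdge, if_neg hk] at this
    rw [key] at this
    exact this
  · simp only [subEdge, if_true] at h2
    have h4 : ((2 ^ d * e.1.2 e.2 + j : ℤ) : ℝ) / 2 ^ (e.1.1 + d) =
        e.1.2 e.2 / 2 ^ e.1.1 + j / 2 ^ (e.1.1 + d) := by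
      rw [← key]; push_cast; rw [← add_div]
    rw [h4] at h2
    have h5 : (0:ℝ) ≤ (j:ℝ) / 2 ^ (e.1.1 + d) := by positivity
    linarith
  · simp only [subEdge, if_true] at h3
    have h4 : (((2 ^ d * e.1.2 e.2 + j : ℤ) : ℝ) + 1) / 2 ^ (e.1.1 + d) =
        e.1.2 e.2 / 2 ^ e.1.1 + (j + 1) / 2 ^ (e.1.1 + d) := by
      rw [← key]; push_cast; rw [← add_div]; ring
    rw [h4] at h3
    have h5 : ((j:ℝ) + 1) / 2 ^ (e.1.1 + d) ≤ 1 / 2 ^ e.1.1 := by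
      rw [div_le_div_iff₀ (by positivity) h0, one_mul, pow_add, mul_comm]
      apply mul_le_mul_of_nonneg_left _ h0.le
      exact_mod_cast hj
    rw [div_add_one]
    linarith

/-! ### The classification -/

section sit

variable {Ω : Set V} {n₂ k₁ k₀ : ℕ} {J : Finset (Fin 3 → ℤ)}

theorem IT.disj_int (h : Sit Ω v n₂ k₁ k₀ J) {q : Idx} (hq : q ∈ IT Ω v n₂ k₁ k₀ J) (hz : z ∈ J) :
    Disjoint (dyc v q.1 q.2) (interior (boxB v n₂ k₁ z)) :=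
  disj_int_boxB (h.gen' hq.1) (hq.2 z hz)

/-- an edge of a square which is a face of a tile outside the boxes is good -/
theorem mem_GE_of_face (h : Sit Ω v n₂ k₁ k₀ J) {q : Idx} (hq : q ∈ IT Ω v n₂ k₁ k₀ J)
    {e s : Idx × Fin 3} (hs : FaceOf s q) (he : e ∈ sqE s) : e ∈ GE Ω v n₂ k₁ k₀ J := by
  rw [mem_sqE] at he
  refine ⟨⟨q, hq.1, edgeOf_of_face hs he⟩, fun z hz => ?_⟩
  exact (IT.disj_int h hq hz).mono_left ((edge_sub_squ he).trans (squ_sub_of_face hs))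

/-- (G2), tiles -/
theorem class_tile (h : Sit Ω v n₂ k₁ k₀ J) {q : Idx} (hq : q ∈ IT Ω v n₂ k₁ k₀ J)
    {s : Idx × Fin 3} (hs : MinSq v (newI Ω v n₂ k₁ k₀ J) s) (hsub : squ v s ⊆ dyc v q.1 q.2) :
    q.1 ≤ s.1.1 ∧ s.1.1 ≤ q.1 + 2 ∧ (∀ r ∈ newP v n₂ k₁ J, ¬ squ v s ⊆ dyc v r.1 r.2) ∧
      ∀ e ∈ sqE s, e ∈ GE Ω v n₂ k₁ k₀ J := by
  obtain ⟨⟨q₀, hq₀, hf⟩, -⟩ := hs
  have hle : q.1 ≤ s.1.1 := gen_le_squ hsub
  have hN := h.gen' hq.1
  refine ⟨hle, ?_, ?_, ?_⟩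
  · rcases hq₀ with hq₀ | hq₀
    · have h1 := ((specTiles Ω (n₂ + k₁ + k₀) v h.op h.bd h.ne).2.2.2.1 q hq.1 _
        (hsub sc_mem_squ)).1
      have h2 := ((specTiles Ω (n₂ + k₁ + k₀) v h.op h.bd h.ne).2.2.2.1 q₀ hq₀.1 _
        (squ_sub_of_face hf sc_mem_squ)).2
      have h3 : (1 : ℝ) / 2 ^ q.1 ≤ 4 / 2 ^ q₀.1 := h1.trans h2
      rw [div_le_div_iff₀ (by positivity) (by positivity), one_mul] at h3
      have h4 : (2:ℝ) ^ q₀.1 ≤ 2 ^ (q.1 + 2) := by rw [pow_add]; linarith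
      have h5 := (pow_le_pow_iff_right₀ (one_lt_two (α := ℝ))).1 h4
      rw [hf.1]; exact h5
    · rw [hf.1, hq₀.1]; omega
  · rintro r ⟨-, z, hz, hr⟩ hcon
    exact Set.disjoint_left.1 (IT.disj_int h hq hz) (hsub sc_mem_squ)
      (boxR_sub_int z (hr (hcon sc_mem_squ)))
  · intro e he
    rcases hq₀ with hq₀ | hq₀
    · exact mem_GE_of_face h hq₀ hf he
    · refine mem_GE_of_face h hq (face_of_sub ?_ hsub) he
      have h1 := hf.1
      rw [hq₀.1] at h1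
      omega

theorem sub_mem_GE (h : Sit Ω v n₂ k₁ k₀ J) (hz : z ∈ J) {e : Idx × Fin 3}
    (he : e.1.1 = n₂ + k₁) (hfr : edge v e ⊆ frontier (boxB v n₂ k₁ z)) {j : ℕ} (hj : j < 2 ^ k₀) :
    subEdge e k₀ j ∈ GE Ω v n₂ k₁ k₀ J ∧ edge v (subEdge e k₀ j) ⊆ dyc v n₂ z := by
  have hcl : IsClosed (boxB v n₂ k₁ z) := by rw [boxB_eq]; exact isClosed_gbox _ _ _ _
  have hsub := subEdge_sub (v := v) (e := e) hj
  have hfB : frontier (boxB v n₂ k₁ z) ⊆ boxB v n₂ k₁ z := hcl.frontier_subset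
  have hB : edge v (subEdge e k₀ j) ⊆ boxB v n₂ k₁ z := hsub.trans (hfr.trans hfB)
  have hD : edge v (subEdge e k₀ j) ⊆ dyc v n₂ z := hB.trans (boxB_sub_dyc z)
  refine ⟨⟨⟨(n₂ + k₁ + k₀, (subEdge e k₀ j).1.2), ?_, ?_⟩, fun z' hz' => ?_⟩, hD⟩
  · obtain ⟨x, hx⟩ := Gr.edge_nonempty v (subEdge e k₀ j)
    refine h.tile_of_meet hz (hD hx) ?_
    have hE : EdgeOf (subEdge e k₀ j) ((subEdge e k₀ j).1.1, (subEdge e k₀ j).1.2) :=
      ⟨rfl, rfl, fun _ _ => Or.inl rfl⟩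
    have h1 := Gr.edge_subset_dyc (v := v) hE hx
    have h2 : (subEdge e k₀ j).1.1 = n₂ + k₁ + k₀ := by
      show e.1.1 + k₀ = _
      rw [he]
    rw [h2] at h1
    exact h1
  · refine ⟨?_, rfl, fun _ _ => Or.inl rfl⟩
    show e.1.1 + k₀ = _
    rw [he]
  · by_cases hzz : z' = z
    · subst hzz
      rw [Set.disjoint_left]
      intro x hx hx'
      exact (hfr (hsub hx)).2 hx'
    · exact (boxB_disj (Ne.symm hzz)).mono hB interior_subset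

/-- (G2), gap cubes -/
theorem class_gap (h : Sit Ω v n₂ k₁ k₀ J) {q : Idx}
    (hq : q ∈ newI Ω v n₂ k₁ k₀ J \ newP v n₂ k₁ J) (hqT : q ∉ IT Ω v n₂ k₁ k₀ J) :
    q.1 = n₂ + k₁ ∧
        ∃ z ∈ J, dyc v q.1 q.2 ⊆ boxB v n₂ k₁ z ∧ ∀ s,
        MinSq v (newI Ω v n₂ k₁ k₀ J) s → squ v s ⊆ dyc v q.1 q.2 →
        -- controlled
        (s.1.1 = n₂ + k₁ ∧ squ v s ⊆ frontier (boxR v n₂ k₁ z) ∧
          ∃ r ∈ newP v n₂ k₁ J, squ v s ⊆ dyc v r.1 r.2) ∨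
        -- uncontrolled
        ((∀ r ∈ newP v n₂ k₁ J, ¬ squ v s ⊆ dyc v r.1 r.2) ∧
          ((s.1.1 = n₂ + k₁ + k₀ ∧
            ∀ e ∈ sqE s, e ∈ GE Ω v n₂ k₁ k₀ J ∧ edge v e ⊆ dyc v n₂ z) ∨
          (s.1.1 = n₂ + k₁ ∧ ∀ e ∈ sqE s, e ∈ GapE v n₂ k₁ z ∨ e ∈ FrE Ω v n₂ k₁ k₀ J z))) := by
  obtain ⟨hqI, hqP⟩ := hq
  rcases hqI with hqI | ⟨hq1, z, hz, hqz⟩
  · exact absurd hqI hqT
  have hclR : IsClosed (boxR v n₂ k₁ z) := by rw [boxR_eq]; exact isClosed_gbox _ _ _ _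
  have hnR : ¬ dyc v q.1 q.2 ⊆ boxR v n₂ k₁ z := fun hcon => hqP ⟨hq1, z, hz, hcon⟩
  have hdR := disj_int_boxR (v := v) hq1.ge hnR
  refine ⟨hq1, z, hz, hqz, fun s hs hsub => ?_⟩
  obtain ⟨⟨q₀, hq₀, hf⟩, -⟩ := hs
  have hxB : sc v s ∈ boxB v n₂ k₁ z := hqz (hsub sc_mem_squ)
  by_cases hc : ∃ r ∈ newP v n₂ k₁ J, squ v s ⊆ dyc v r.1 r.2
  · left
    obtain ⟨r, hr, hsr⟩ := hc
    obtain ⟨hr1, z', hz', hrz⟩ := hr
    have hzz : z' = z :=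
      eq_of_mem_boxB (boxR_sub_boxB z' (hrz (hsr sc_mem_squ))) hxB
    subst hzz
    refine ⟨?_, ?_, r, ⟨hr1, z', hz', hrz⟩, hsr⟩
    · rcases hq₀ with hq₀ | hq₀
      · exfalso
        exact Set.disjoint_left.1 (IT.disj_int h hq₀ hz') (squ_sub_of_face hf sc_mem_squ)
          (boxR_sub_int z' (hrz (hsr sc_mem_squ)))
      · rw [hf.1]; exact hq₀.1
    · intro x hx
      rw [hclR.frontier_eq]
      exact ⟨hrz (hsr hx), fun hx' => Set.disjoint_left.1 hdR (hsub hx) hx'⟩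
  · right
    push Not at hc
    refine ⟨hc, ?_⟩
    by_cases hT : ∃ r ∈ IT Ω v n₂ k₁ k₀ J, squ v s ⊆ dyc v r.1 r.2
    · left
      obtain ⟨r, hr, hsr⟩ := hT
      have hr1 : r.1 = n₂ + k₁ + k₀ :=
        h.gen_of_meet hz hr.1 (boxB_sub_dyc z hxB) (hsr sc_mem_squ)
      have hs1 : s.1.1 = n₂ + k₁ + k₀ := by
        rw [hf.1]
        rcases hq₀ with hq₀ | hq₀
        · exact h.gen_of_meet hz hq₀.1 (boxB_sub_dyc z hxB) (squ_sub_of_face hf sc_mem_squ)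
        · have h1 := gen_le_squ hsr
          rw [hf.1, hq₀.1, hr1] at h1
          rw [hq₀.1]; omega
      refine ⟨hs1, fun e he => ⟨mem_GE_of_face h hr (face_of_sub (by rw [hs1, hr1]) hsr) he, ?_⟩⟩
      rw [mem_sqE] at he
      exact (edge_sub_squ he).trans (hsub.trans (hqz.trans (boxB_sub_dyc z)))
    · right
      have hq₀B : q₀ ∈ IB v n₂ k₁ J := by
        rcases hq₀ with hq₀ | hq₀
        · exact absurd ⟨q₀, hq₀, squ_sub_of_face hf⟩ hT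
        · exact hq₀
      have hs1 : s.1.1 = n₂ + k₁ := by rw [hf.1]; exact hq₀B.1
      refine ⟨hs1, fun e he => ?_⟩
      rw [mem_sqE] at he
      have he1 : e.1.1 = n₂ + k₁ := by rw [he.1]; exact hs1
      have heq := (edge_sub_squ (v := v) he).trans hsub
      have heB := heq.trans hqz
      by_cases hfr : edge v e ⊆ frontier (boxB v n₂ k₁ z)
      · right
        exact ⟨he1, heB, fun j hj => sub_mem_GE h hz he1 hfr hj⟩
      · left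
        exact ⟨he1, fun x hx => ⟨heB hx, fun hx' => Set.disjoint_left.1 hdR (heq hx) hx'⟩, hfr⟩

/-- (G3) -/
theorem gen_GE (h : Sit Ω v n₂ k₁ k₀ J) {e : Idx × Fin 3} (he : e ∈ GE Ω v n₂ k₁ k₀ J)
    (hz : z ∈ J) (hsub : edge v e ⊆ dyc v n₂ z) : e.1.1 = n₂ + k₁ + k₀ := by
  obtain ⟨⟨q, hq, heq⟩, -⟩ := he
  obtain ⟨x, hx⟩ := Gr.edge_nonempty v e
  rw [heq.1]
  exact h.gen_of_meet hz hq (hsub hx) (Gr.edge_subset_dyc heq hx)

theorem sub_GE (h : Sit Ω v n₂ k₁ k₀ J) {e : Idx × Fin 3} (he : e ∈ GE Ω v n₂ k₁ k₀ J) :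
    edge v e ⊆ Ω ∧ n₂ + k₁ + k₀ ≤ e.1.1 := by
  obtain ⟨⟨q, hq, heq⟩, -⟩ := he
  exact ⟨(Gr.edge_subset_dyc heq).trans (h.part0.sub q hq), by rw [heq.1]; exact h.gen hq⟩

end sit

end Vale.Agent.P073.AB.S308
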