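import Vale.Agent.P073.AB.Sum308b

/-!
# Block AB, SpecSum, geometry: counting
-/

namespace Vale.Agent.P073.AB.S308

open MeasureTheory Set Filter Topology Metric Vale.Agent.P073.St
open Vale.Agent.P073.AB
open Vale.Agent.P073.SQ (ev cube Cells)
open P073.Net (IsTile dyc dyo SizeFn)
open P073.Net.NC (dyA dyB fine_sub fine_sub' dist_le)
open P86
open scoped ContDiff ENNReal

variable {v : V} {N m n : ℕ} {w z a b c : Fin 3 → ℤ} {x : V}

/-! ### Multiplicity -/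

/-- a square is determined by one of its edges, its normal, and one bit -/
theorem sq_unique {e s s' : Idx × Fin 3} (h : EdgeOfSq e s) (h' : EdgeOfSq e s')
    (hk : s.2 = s'.2) (hb : s.1 = e.1 ↔ s'.1 = e.1) : s = s' := by
  by_cases hc : s.1 = e.1
  · exact Prod.ext (hc.trans (hb.1 hc).symm) hk
  · have hc' : ¬ s'.1 = e.1 := fun h => hc (hb.2 h)
    obtain ⟨a1, a2, a3, a4, a5⟩ := h
    obtain ⟨b1, b2, b3, b4, b5⟩ := h'
    rw [← hk] at b2 b4 b5
    set j := third s.2 e.2 with hj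
    have hj1 : j ≠ s.2 := third_ne_left a2
    have hj2 : j ≠ e.2 := third_ne_right a2
    have hall : ∀ l : Fin 3, l = s.2 ∨ l = e.2 ∨ l = j := by
      intro l
      by_cases h1 : l = s.2
      · exact Or.inl h1
      · by_cases h2 : l = e.2
        · exact Or.inr (Or.inl h2)
        · exact Or.inr (Or.inr (eq_third a2 h1 h2))
    have c1 : e.1.2 j = s.1.2 j + 1 := by
      rcases a5 j hj2 hj1 with h | h
      · exfalso
        apply hc
        refine Prod.ext a1.symm (funext fun l => ?_)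
        rcases hall l with rfl | rfl | rfl
        · exact a4.symm
        · exact a3.symm
        · exact h.symm
      · exact h
    have c2 : e.1.2 j = s'.1.2 j + 1 := by
      rcases b5 j hj2 hj1 with h | h
      · exfalso
        apply hc'
        refine Prod.ext b1.symm (funext fun l => ?_)
        rcases hall l with rfl | rfl | rfl
        · exact b4.symm
        · exact b3.symm
        · exact h.symm
      · exact h
    refine Prod.ext (Prod.ext (a1.symm.trans b1) (funext fun l => ?_)) hk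
    rcases hall l with rfl | rfl | rfl
    · exact a4.symm.trans b4
    · exact a3.symm.trans b3
    · omega

/-- dyadic cubes which contain a common cube are nested -/
theorem nested {g : ℕ} {c : Fin 3 → ℤ} {q q' : Idx} (h1 : dyc v g c ⊆ dyc v q.1 q.2)
    (h2 : dyc v g c ⊆ dyc v q'.1 q'.2) (hle : q.1 ≤ q'.1) : dyc v q'.1 q'.2 ⊆ dyc v q.1 q.2 := by
  obtain ⟨Z, hZ⟩ := Gr.exists_ancestor' (v := v) hle q'.2
  have e2 : dyc v g c ⊆ dyc v q.1 Z := h2.trans hZ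
  have e3 := sub_ineq h1
  have e4 := sub_ineq e2
  have hZq : Z = q.2 := by
    funext k
    have h0 : (0:ℝ) < 2 ^ q.1 := by positivity
    have f1 := e3 k
    have f2 := e4 k
    have hp : (0:ℝ) < 1 / 2 ^ g := by positivity
    have f3 : (c k : ℝ) / 2 ^ g < (c k + 1) / 2 ^ g := by
      rw [P86.div_add_one]; linarith
    have g1 : (Z k : ℝ) / 2 ^ q.1 < (q.2 k + 1) / 2 ^ q.1 := by linarith [f1.1, f1.2, f2.1]
    have g2 : (q.2 k : ℝ) / 2 ^ q.1 < (Z k + 1) / 2 ^ q.1 := by linarith [f1.1, f2.2, f2.1]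
    rw [div_lt_div_iff_of_pos_right h0] at g1 g2
    have g1' : Z k < q.2 k + 1 := by exact_mod_cast g1
    have g2' : q.2 k < Z k + 1 := by exact_mod_cast g2
    omega
  rw [← hZq]; exact hZ

/-- a cube at a minimal square is determined by the square and one bit -/
theorem cube_unique {Ω : Set V} {I : Set Idx} (hΩ : IsOpen Ω) (hI : Part Ω v I) {s : Idx × Fin 3}
    (hs : MinSq v I s) {q q' : Idx} (hq : q ∈ I) (hq' : q' ∈ I) (h : squ v s ⊆ dyc v q.1 q.2)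
    (h' : squ v s ⊆ dyc v q'.1 q'.2)
    (hb : dyc v s.1.1 s.1.2 ⊆ dyc v q.1 q.2 ↔ dyc v s.1.1 s.1.2 ⊆ dyc v q'.1 q'.2) : q = q' := by
  have key : dyc v s.1.1 s.1.2 ⊆ dyc v q.1 q.2 → dyc v s.1.1 s.1.2 ⊆ dyc v q'.1 q'.2 → q = q' := by
    intro h1 h2
    rcases le_total q.1 q'.1 with hle | hle
    · exact (eq_of_sub hI hq' hq (nested h1 h2 hle)).symm
    · exact eq_of_sub hI hq hq' (nested h2 h1 hle)
  obtain ⟨qp, qm, htwo⟩ := two_of_minSq hΩ hI hs
  rcases rel_mem hI htwo sc_mem hq (h sc_mem_squ) with h1 | h1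
  · have h2 : dyc v s.1.1 s.1.2 ⊆ dyc v q.1 q.2 := by rw [h1]; exact htwo.subp
    exact key h2 (hb.1 h2)
  · rcases rel_mem hI htwo sc_mem hq' (h' sc_mem_squ) with h2 | h2
    · have h3 : dyc v s.1.1 s.1.2 ⊆ dyc v q'.1 q'.2 := by rw [h2]; exact htwo.subp
      exact key (hb.2 h3) h3
    · exact h1.trans h2.symm

section sit

variable {Ω : Set V} {n₂ k₁ k₀ : ℕ} {J : Finset (Fin 3 → ℤ)}

open Classical in
/-- (G4) (i) -/
theorem mult (h : Sit Ω v n₂ k₁ k₀ J) (hI : Part Ω v (newI Ω v n₂ k₁ k₀ J))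
    (hP : newP v n₂ k₁ J ⊆ newI Ω v n₂ k₁ k₀ J) (hΩ : IsOpen Ω) (g : Idx × Fin 3 → ℝ≥0∞) :
    ∑' i : {i : (P86.cells hΩ hI hP).ι // i.1 ∈ IT Ω v n₂ k₁ k₀ J},
          ∑ t ∈ (P86.cells hΩ hI hP).bd i.1, ∑ e ∈ sqE t.1, g e ≤
        12 * ∑' e : GE Ω v n₂ k₁ k₀ J, g e.1 := by
  have e1 : ∀ i : {i : (P86.cells hΩ hI hP).ι // i.1 ∈ IT Ω v n₂ k₁ k₀ J},
      ∑ t ∈ (P86.cells hΩ hI hP).bd i.1, ∑ e ∈ sqE t.1, g e =
        ∑' x : Σ t : {t // t ∈ (P86.cells hΩ hI hP).bd i.1}, {e // e ∈ sqE t.1.1}, g x.2.1 := by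
    intro i
    rw [ENNReal.tsum_sigma' (fun x : Σ t : {t // t ∈ (P86.cells hΩ hI hP).bd i.1},
      {e // e ∈ sqE t.1.1} => g x.2.1)]
    rw [← Finset.tsum_subtype ((P86.cells hΩ hI hP).bd i.1)
      (fun t => ∑ e ∈ sqE t.1, g e)]
    refine tsum_congr fun t => ?_
    exact (Finset.tsum_subtype (sqE t.1.1) g).symm
  rw [tsum_congr e1, ← ENNReal.tsum_sigma' (fun x : Σ i : {i : (P86.cells hΩ hI hP).ι //
    i.1 ∈ IT Ω v n₂ k₁ k₀ J}, Σ t : {t // t ∈ (P86.cells hΩ hI hP).bd i.1},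
      {e // e ∈ sqE t.1.1} => g x.2.2.1)]
  have hbd : ∀ (i : (P86.cells hΩ hI hP).ι) (t : (P86.cells hΩ hI hP).κ),
      t ∈ (P86.cells hΩ hI hP).bd i → squ v t.1 ⊆ dyc v i.1.1 i.1.2 := by
    intro i t ht
    exact (Set.Finite.mem_toFinset _).1 ht
  let F : (Σ i : {i : (P86.cells hΩ hI hP).ι // i.1 ∈ IT Ω v n₂ k₁ k₀ J},
      Σ t : {t // t ∈ (P86.cells hΩ hI hP).bd i.1}, {e // e ∈ sqE t.1.1}) →
      GE Ω v n₂ k₁ k₀ J × (Fin 3 × Bool × Bool) := fun x =>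
    (⟨x.2.2.1, (class_tile h x.1.2 x.2.1.1.2.1 (hbd _ _ x.2.1.2)).2.2.2 _ x.2.2.2⟩,
      (x.2.1.1.1.2, decide (x.2.1.1.1.1 = x.2.2.1.1),
        decide (dyc v x.2.1.1.1.1.1 x.2.1.1.1.1.2 ⊆ dyc v x.1.1.1.1 x.1.1.1.2)))
  have hF : Function.Injective F := by
    rintro ⟨⟨⟨q, hq⟩, hqT⟩, ⟨⟨s, hs⟩, hsb⟩, ⟨e, he⟩⟩ ⟨⟨⟨q', hq'⟩, hqT'⟩, ⟨⟨s', hs'⟩, hsb'⟩, ⟨e', he'⟩⟩ heq
    simp only [F, Prod.mk.injEq, Subtype.mk.injEq, decide_eq_decide] at heq
    obtain ⟨h1, h2, h3, h4⟩ := heq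
    subst h1
    have he2 := mem_sqE.1 he
    have he2' := mem_sqE.1 he'
    have hss : s = s' := sq_unique he2 he2' h2 h3
    subst hss
    have hqq : q = q' := cube_unique hΩ hI hs.1 hq.1 hq'.1 (hbd _ _ hsb) (hbd _ _ hsb') h4
    subst hqq
    rfl
  calc ∑' x : (Σ i : {i : (P86.cells hΩ hI hP).ι // i.1 ∈ IT Ω v n₂ k₁ k₀ J},
        Σ t : {t // t ∈ (P86.cells hΩ hI hP).bd i.1}, {e // e ∈ sqE t.1.1}), g x.2.2.1
      = ∑' x, (fun y : GE Ω v n₂ k₁ k₀ J × (Fin 3 × Bool × Bool) => g y.1.1) (F x) := rfl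
    _ ≤ ∑' y : GE Ω v n₂ k₁ k₀ J × (Fin 3 × Bool × Bool), g y.1.1 :=
        ENNReal.tsum_comp_le_tsum_of_injective hF _
    _ = ∑' (e : GE Ω v n₂ k₁ k₀ J) (_ : Fin 3 × Bool × Bool), g e.1 :=
        ENNReal.tsum_prod (f := fun (e : GE Ω v n₂ k₁ k₀ J) (_ : Fin 3 × Bool × Bool) => g e.1)
    _ = ∑' e : GE Ω v n₂ k₁ k₀ J, 12 * g e.1 := by
        refine tsum_congr fun e => ?_
        rw [tsum_fintype, Finset.sum_const]
        simp [Fintype.card_prod]
    _ = 12 * ∑' e : GE Ω v n₂ k₁ k₀ J, g e.1 := ENNReal.tsum_mul_left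

end sit

/-! ### Cardinals -/

/-- a slab in the direction `κ` -/
def slab (κ : Fin 3) (T : Finset ℤ) (A : Fin 3 → Finset ℤ) : Finset (Fin 3 → ℤ) :=
  Fintype.piFinset (fun k => if k = κ then T else A k)

theorem mem_slab {κ : Fin 3} {T : Finset ℤ} {A : Fin 3 → Finset ℤ} {w : Fin 3 → ℤ} :
    w ∈ slab κ T A ↔ w κ ∈ T ∧ ∀ k, k ≠ κ → w k ∈ A k := by
  simp only [slab, Fintype.mem_piFinset]
  constructor
  · intro h
    refine ⟨by simpa using h κ, fun k hk => by simpa [hk] using h k⟩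
  · rintro ⟨h1, h2⟩ k
    by_cases hk : k = κ
    · subst hk; simpa using h1
    · simpa [hk] using h2 k hk

theorem card_slab {κ : Fin 3} {T : Finset ℤ} {A : Fin 3 → Finset ℤ} {t n : ℕ} (hT : T.card ≤ t)
    (hA : ∀ k, (A k).card ≤ n) : (slab κ T A).card ≤ t * n ^ 2 := by
  rw [slab, Fintype.card_piFinset]
  calc ∏ k, (if k = κ then T else A k).card ≤ ∏ k, (if k = κ then t else n) := by
        refine Finset.prod_le_prod' fun k _ => ?_
        by_cases hk : k = κ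
        · simp [hk, hT]
        · simp [hk, hA k]
    _ = t * n ^ 2 := by
        fin_cases κ <;> simp [Fin.prod_univ_three] <;> ring

theorem Idx_card_image {β : Type} [DecidableEq β] (s : Finset (Fin 3 → ℤ)) (f : (Fin 3 → ℤ) → β)
    {n : ℕ} (h : s.card ≤ n) : (s.image f).card ≤ n :=
  Finset.card_image_le.trans h

section sit

variable {Ω : Set V} {n₂ k₁ k₀ : ℕ} {J : Finset (Fin 3 → ℤ)}

/-- squares of generation `N + d` in the boundary of a cube of generation `N` -/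
theorem squares_in_bd {I : Set Idx} (hI : Part Ω v I) {N d : ℕ} {w : Fin 3 → ℤ}
    (hw : (N, w) ∈ I) {s : Idx × Fin 3} (hs : MinSq v I s) (hg : s.1.1 = N + d)
    (hsub : squ v s ⊆ dyc v N w) :
    s ∈ (Finset.univ : Finset (Fin 3)).biUnion fun κ =>
      (slab κ {w κ * 2 ^ d, (w κ + 1) * 2 ^ d} (fun k => Finset.Ico (w k * 2 ^ d) ((w k + 1) * 2 ^ d))).image
        (fun w' => (((N + d, w'), κ) : Idx × Fin 3)) := by
  obtain ⟨hpos, -⟩ := bd_pos hI hs hw hsub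
  obtain ⟨-, h3⟩ := squ_sub_ineq hsub
  have hN : (0:ℝ) < 2 ^ N := by positivity
  have hNd : (0:ℝ) < 2 ^ (N + d) := by positivity
  have key : ∀ c : ℤ, (c : ℝ) / 2 ^ N = ((c * 2 ^ d : ℤ) : ℝ) / 2 ^ (N + d) := by
    intro c
    push_cast
    rw [pow_add]
    field_simp
  rw [Finset.mem_biUnion]
  refine ⟨s.2, Finset.mem_univ _, ?_⟩
  rw [Finset.mem_image]
  refine ⟨s.1.2, mem_slab.2 ⟨?_, fun k hk => ?_⟩, ?_⟩
  · simp only [Finset.mem_insert, Finset.mem_singleton]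
    rcases abseq hpos with h | h
    · left
      have h1 : sc v s s.2 = v s.2 + s.1.2 s.2 / 2 ^ s.1.1 := by simp [sc]
      rw [h1] at h
      have h2 : (s.1.2 s.2 : ℝ) / 2 ^ (N + d) = w s.2 / 2 ^ N := by rw [← hg]; linarith
      rw [key, div_left_inj' hNd.ne'] at h2
      exact_mod_cast h2
    · right
      have h1 : sc v s s.2 = v s.2 + s.1.2 s.2 / 2 ^ s.1.1 := by simp [sc]
      rw [h1] at h
      have h2 : (s.1.2 s.2 : ℝ) / 2 ^ (N + d) = ((w s.2 + 1 : ℤ) : ℝ) / 2 ^ N := by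
        rw [← hg]; push_cast; linarith
      rw [key, div_left_inj' hNd.ne'] at h2
      exact_mod_cast h2
  · obtain ⟨h4, h5⟩ := h3 k hk
    rw [hg] at h4 h5
    rw [key, div_le_div_iff_of_pos_right hNd] at h4
    have h6 : ((w k : ℝ) + 1) / 2 ^ N = ((w k + 1 : ℤ) : ℝ) / 2 ^ N := by push_cast; rfl
    rw [h6, key, div_le_div_iff_of_pos_right hNd] at h5
    have h4' : w k * 2 ^ d ≤ s.1.2 k := by exact_mod_cast h4
    have h5' : s.1.2 k + 1 ≤ (w k + 1) * 2 ^ d := by exact_mod_cast h5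
    rw [Finset.mem_Ico]
    omega
  · exact Prod.ext (Prod.ext hg.symm rfl) rfl

theorem card_squares (N d : ℕ) (w : Fin 3 → ℤ) :
    ((Finset.univ : Finset (Fin 3)).biUnion fun κ =>
      (slab κ {w κ * 2 ^ d, (w κ + 1) * 2 ^ d} (fun k => Finset.Ico (w k * 2 ^ d) ((w k + 1) * 2 ^ d))).image
        (fun w' => (((N + d, w'), κ) : Idx × Fin 3))).card ≤ 6 * 4 ^ d := by
  refine Finset.card_biUnion_le.trans ?_
  calc _ ≤ ∑ _κ : Fin 3, 2 * (2 ^ d) ^ 2 := by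
        refine Finset.sum_le_sum fun κ _ => ?_
        refine Idx_card_image _ _ (card_slab Finset.card_le_two fun k => ?_)
        rw [Int.card_Ico]
        have : (w k + 1) * 2 ^ d - w k * 2 ^ d = ((2 ^ d : ℕ) : ℤ) := by push_cast; ring
        rw [this, Int.toNat_natCast]
    _ = 6 * 4 ^ d := by
        rw [Finset.sum_const, Finset.card_univ, Fintype.card_fin, smul_eq_mul, ← pow_mul, mul_comm d 2,
          pow_mul]
        norm_num
        ring

/-- (G4) (ii) -/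
theorem card_bd (hI : Part Ω v (newI Ω v n₂ k₁ k₀ J))
    (hP : newP v n₂ k₁ J ⊆ newI Ω v n₂ k₁ k₀ J) (hΩ : IsOpen Ω) (d : ℕ)
    (i : (P86.cells hΩ hI hP).ι) (hi : i.1.1 = n₂ + k₁) :
    (((P86.cells hΩ hI hP).bd i).filter fun t => t.1.1.1 = n₂ + k₁ + d).card ≤ 6 * 4 ^ d := by
  classical
  obtain ⟨⟨m, w⟩, hq⟩ := i
  simp only at hi
  subst hi
  refine le_trans ?_ (card_squares (n₂ + k₁) d w)
  refine Finset.card_le_card_of_injOn (fun t => t.1) ?_ (Subtype.val_injective.injOn)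
  intro t ht
  rw [Finset.mem_coe, Finset.mem_filter] at ht
  have hsub : squ v t.1 ⊆ dyc v (n₂ + k₁) w := (Set.Finite.mem_toFinset _).1 ht.1
  rw [Finset.mem_coe]
  exact squares_in_bd hI hq.1 t.2.1 ht.2 hsub

/-- (G4) (iii) -/
theorem card_gap :
    {q | q ∈ newI Ω v n₂ k₁ k₀ J \ newP v n₂ k₁ J ∧ q ∉ IT Ω v n₂ k₁ k₀ J}.Finite ∧
      {q | q ∈ newI Ω v n₂ k₁ k₀ J \ newP v n₂ k₁ J ∧ q ∉ IT Ω v n₂ k₁ k₀ J}.ncard ≤
          6 * J.card * 4 ^ k₁ := by
  classical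
  set S : Finset Idx := J.biUnion fun z => (Finset.univ : Finset (Fin 3)).biUnion fun κ =>
      (slab κ {z κ * 2 ^ k₁ + 1, (z κ + 1) * 2 ^ k₁ - 2}
        (fun k => Finset.Ico (z k * 2 ^ k₁) ((z k + 1) * 2 ^ k₁))).image
        (fun w' => ((n₂ + k₁, w') : Idx)) with hS
  have hsub : {q | q ∈ newI Ω v n₂ k₁ k₀ J \ newP v n₂ k₁ J ∧ q ∉ IT Ω v n₂ k₁ k₀ J} ⊆
      (S : Set Idx) := by
    rintro ⟨m, w⟩ ⟨⟨hq | ⟨h1, z, hz, h2⟩, hqP⟩, hqT⟩
    · exact absurd hq hqT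
    · simp only at h1 h2
      subst h1
      rw [Finset.mem_coe, hS, Finset.mem_biUnion]
      refine ⟨z, hz, ?_⟩
      rw [boxB_eq, dyc_sub_gbox_iff] at h2
      have h3 : ¬ ∀ k, z k * 2 ^ k₁ + 2 ≤ w k ∧ w k + 1 ≤ (z k + 1) * 2 ^ k₁ - 2 := by
        intro h3
        apply hqP
        refine ⟨rfl, z, hz, ?_⟩
        rw [boxR_eq]
        exact dyc_sub_gbox_iff.2 h3
      push Not at h3
      obtain ⟨κ, hκ⟩ := h3
      rw [Finset.mem_biUnion]
      refine ⟨κ, Finset.mem_univ _, Finset.mem_image.2 ⟨w, mem_slab.2 ⟨?_, fun k _ => ?_⟩, rfl⟩⟩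
      · simp only [Finset.mem_insert, Finset.mem_singleton]
        have := h2 κ
        by_cases h4 : z κ * 2 ^ k₁ + 2 ≤ w κ
        · have := hκ h4
          right; omega
        · left; omega
      · rw [Finset.mem_Ico]
        have := h2 k
        omega
  refine ⟨(Finset.finite_toSet S).subset hsub, ?_⟩
  refine (Set.ncard_le_ncard hsub (Finset.finite_toSet S)).trans ?_
  rw [Set.ncard_coe_finset]
  refine Finset.card_biUnion_le.trans ?_
  calc _ ≤ ∑ _z ∈ J, 6 * 4 ^ k₁ := by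
        refine Finset.sum_le_sum fun z _ => ?_
        refine Finset.card_biUnion_le.trans ?_
        calc _ ≤ ∑ _κ : Fin 3, 2 * (2 ^ k₁) ^ 2 := by
              refine Finset.sum_le_sum fun κ _ => ?_
              refine Idx_card_image _ _ (card_slab Finset.card_le_two fun k => ?_)
              rw [Int.card_Ico]
              have : (z k + 1) * 2 ^ k₁ - z k * 2 ^ k₁ = ((2 ^ k₁ : ℕ) : ℤ) := by push_cast; ring
              rw [this, Int.toNat_natCast]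
          _ = 6 * 4 ^ k₁ := by
              rw [Finset.sum_const, Finset.card_univ, Fintype.card_fin, smul_eq_mul, ← pow_mul,
                mul_comm k₁ 2, pow_mul]
              norm_num
              ring
    _ = 6 * J.card * 4 ^ k₁ := by
        rw [Finset.sum_const, smul_eq_mul]; ring

theorem pt_mem_gbox : pt v N c ∈ gbox v N a b ↔ ∀ k, a k ≤ c k ∧ c k ≤ b k := by
  refine forall_congr' fun k => ?_
  show v k + a k / 2 ^ N ≤ v k + c k / 2 ^ N ∧ v k + c k / 2 ^ N ≤ v k + b k / 2 ^ N ↔ _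
  rw [add_le_add_iff_left, add_le_add_iff_left, cast_div_le, cast_div_le]

theorem pt_mem_obox : pt v N c ∈ obox v N a b ↔ ∀ k, a k < c k ∧ c k < b k := by
  refine forall_congr' fun k => ?_
  show v k + a k / 2 ^ N < v k + c k / 2 ^ N ∧ v k + c k / 2 ^ N < v k + b k / 2 ^ N ↔ _
  rw [add_lt_add_iff_left, add_lt_add_iff_left, cast_div_lt, cast_div_lt]

theorem pt_mem_edge (e : Idx × Fin 3) : pt v e.1.1 e.1.2 ∈ edge v e := left_mem_segment ℝ _ _

/-- (G4) (iv) -/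
theorem card_GE (h : Sit Ω v n₂ k₁ k₀ J) (hz : z ∈ J) :
    {e | e ∈ GE Ω v n₂ k₁ k₀ J ∧ edge v e ⊆ dyc v n₂ z}.Finite ∧
      {e | e ∈ GE Ω v n₂ k₁ k₀ J ∧ edge v e ⊆ dyc v n₂ z}.ncard ≤
        144 * 2 ^ k₀ * (2 ^ (k₁ + k₀)) ^ 2 := by
  classical
  set A : ℤ := 2 ^ (k₁ + k₀) with hA
  set B : ℤ := 2 ^ k₀ with hB
  set S : Finset (Idx × Fin 3) := (Finset.univ : Finset (Fin 3)).biUnion fun j =>
    (Finset.univ : Finset (Fin 3)).biUnion fun κ =>
      (slab κ (Finset.Icc (z κ * A) (z κ * A + B) ∪ Finset.Icc ((z κ + 1) * A - B) ((z κ + 1) * A))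
        (fun k => Finset.Icc (z k * A) ((z k + 1) * A))).image
        (fun w' => (((n₂ + k₁ + k₀, w'), j) : Idx × Fin 3)) with hS
  have hsub : {e | e ∈ GE Ω v n₂ k₁ k₀ J ∧ edge v e ⊆ dyc v n₂ z} ⊆ (S : Set (Idx × Fin 3)) := by
    rintro e ⟨he, hsub⟩
    have hg := gen_GE h he hz hsub
    have h1 : pt v (n₂ + k₁ + k₀) e.1.2 ∈ edge v e := by
      rw [← hg]; exact pt_mem_edge e
    have h2 := hsub h1
    rw [dyc_coarse v n₂ (k₁ + k₀), ← add_assoc, pt_mem_gbox] at h2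
    have h3 : pt v (n₂ + k₁ + k₀) e.1.2 ∉ obox v (n₂ + k₁) (fun k => z k * 2 ^ k₁ + 1)
        (fun k => (z k + 1) * 2 ^ k₁ - 1) := by
      intro hcon
      rw [← interior_gbox, ← boxB_eq] at hcon
      exact Set.disjoint_left.1 (he.2 z hz) h1 hcon
    rw [← obox_refine v (n₂ + k₁) k₀, pt_mem_obox] at h3
    push Not at h3
    obtain ⟨κ, hκ⟩ := h3
    have hAB : A = 2 ^ k₁ * B := by rw [hA, hB, pow_add]
    have e1 : (z κ * 2 ^ k₁ + 1) * 2 ^ k₀ = z κ * A + B := by rw [hAB, hB]; ring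
    have e2 : ((z κ + 1) * 2 ^ k₁ - 1) * 2 ^ k₀ = (z κ + 1) * A - B := by rw [hAB, hB]; ring
    rw [e1, e2] at hκ
    rw [Finset.mem_coe, hS, Finset.mem_biUnion]
    refine ⟨e.2, Finset.mem_univ _, ?_⟩
    rw [Finset.mem_biUnion]
    refine ⟨κ, Finset.mem_univ _, ?_⟩
    rw [Finset.mem_image]
    refine ⟨e.1.2, mem_slab.2 ⟨?_, fun k _ => ?_⟩, Prod.ext (Prod.ext hg.symm rfl) rfl⟩
    · rw [Finset.mem_union, Finset.mem_Icc, Finset.mem_Icc]
      have h4 := h2 κ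
      by_cases h5 : z κ * A + B < e.1.2 κ
      · right
        exact ⟨hκ h5, h4.2⟩
      · left
        exact ⟨h4.1, not_lt.1 h5⟩
    · rw [Finset.mem_Icc]
      exact h2 k
  refine ⟨(Finset.finite_toSet S).subset hsub, ?_⟩
  refine (Set.ncard_le_ncard hsub (Finset.finite_toSet S)).trans ?_
  rw [Set.ncard_coe_finset]
  refine Finset.card_biUnion_le.trans ?_
  have hAN : (A : ℤ) = ((2 ^ (k₁ + k₀) : ℕ) : ℤ) := by rw [hA]; push_cast; rfl
  have hBN : (B : ℤ) = ((2 ^ k₀ : ℕ) : ℤ) := by rw [hB]; push_cast; rfl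
  calc _ ≤ ∑ _j : Fin 3, ∑ _κ : Fin 3, (2 * (2 ^ k₀ + 1)) * (2 ^ (k₁ + k₀) + 1) ^ 2 := by
        refine Finset.sum_le_sum fun j _ => ?_
        refine Finset.card_biUnion_le.trans (Finset.sum_le_sum fun κ _ => ?_)
        refine Idx_card_image _ _ (card_slab ?_ fun k => ?_)
        · refine (Finset.card_union_le _ _).trans ?_
          rw [Int.card_Icc, Int.card_Icc]
          have e1 : z κ * A + B + 1 - z κ * A = ((2 ^ k₀ + 1 : ℕ) : ℤ) := by
            rw [hBN]; push_cast; ring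
          have e2 : (z κ + 1) * A + 1 - ((z κ + 1) * A - B) = ((2 ^ k₀ + 1 : ℕ) : ℤ) := by
            rw [hBN]; push_cast; ring
          rw [e1, e2, Int.toNat_natCast]
          omega
        · rw [Int.card_Icc]
          have e1 : (z k + 1) * A + 1 - z k * A = ((2 ^ (k₁ + k₀) + 1 : ℕ) : ℤ) := by
            rw [hAN]; push_cast; ring
          rw [e1, Int.toNat_natCast]
    _ = 9 * ((2 * (2 ^ k₀ + 1)) * (2 ^ (k₁ + k₀) + 1) ^ 2) := by
        simp only [Finset.sum_const, Finset.card_univ, Fintype.card_fin, smul_eq_mul]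
        ring
    _ ≤ 9 * ((2 * (2 * 2 ^ k₀)) * (2 * 2 ^ (k₁ + k₀)) ^ 2) := by
        have h1 : 1 ≤ 2 ^ k₀ := Nat.one_le_two_pow
        have h2 : 1 ≤ 2 ^ (k₁ + k₀) := Nat.one_le_two_pow
        gcongr <;> omega
    _ = 144 * 2 ^ k₀ * (2 ^ (k₁ + k₀)) ^ 2 := by ring

end sit

end Vale.Agent.P073.AB.S308
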