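import Vale.Agent.P073.AB.Spec
import Vale.Agent.P073.Net.NC

/-!
# P073, block AB: the Whitney partition of a bounded open set
-/

namespace Vale.Agent.P073.AB

open MeasureTheory Set Filter Topology Metric Vale.Agent.P073.St
open P073.Net (IsTile dyc dyo SizeFn)

theorem sizeFn_rho {Ω : Set V} (hΩ : IsOpen Ω) (hb : Bornology.IsBounded Ω) (n : ℕ) :
    SizeFn Ω (rho Ω n) := by
  have hne : (Ωᶜ : Set V).Nonempty := by
    by_contra hcon
    rw [not_nonempty_iff_eq_empty, compl_empty_iff] at hcon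
    rw [hcon] at hb
    exact NormedSpace.unbounded_univ ℝ V hb
  refine ⟨fun x y => ?_, fun x hx => ?_, fun x hx => ?_, fun x => ?_⟩
  · have h1 : infDist x Ωᶜ ≤ infDist y Ωᶜ + dist x y := infDist_le_infDist_add_dist
    rw [dist_eq_norm] at h1
    unfold rho
    have h2 := norm_nonneg (x - y)
    rcases min_cases (1 / 2 ^ n : ℝ) (infDist y Ωᶜ) with h | h
    · rw [h.1]
      exact (min_le_left _ _).trans (by linarith)
    · rw [h.1]
      exact (min_le_right _ _).trans h1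
  · unfold rho
    apply lt_min (by positivity)
    rw [← hΩ.isClosed_compl.notMem_iff_infDist_pos hne]
    exact fun h => h hx
  · unfold rho
    rw [infDist_zero_of_mem (show x ∈ Ωᶜ from hx)]
    exact min_le_right _ _
  · unfold rho
    refine (min_le_left _ _).trans ?_
    rw [div_le_one (by positivity)]
    exact one_le_pow₀ one_le_two

/-- **(AB4)** -/
theorem specTiles : SpecTiles := by
  intro Ω n v hΩ hb _
  have hS := sizeFn_rho hΩ hb n
  obtain ⟨h1, h2, h3, h4, h5⟩ := P073.Net.specNC Ω (rho Ω n) hS v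
  have hlow : ∀ q ∈ tiles Ω n v, ∀ x ∈ dyc v q.1 q.2,
      (1 / 2 ^ q.1 : ℝ) ≤ rho Ω n x ∧ rho Ω n x ≤ 4 / 2 ^ q.1 := fun q hq x hx =>
    h4 q.1 q.2 hq x hx
  have hne : ∀ (m : ℕ) (z : Fin 3 → ℤ), (pt v m z) ∈ dyc v m z := by
    intro m z k
    have : (0:ℝ) < 1 / 2 ^ m := by positivity
    refine ⟨le_rfl, ?_⟩
    show v k + z k / 2 ^ m ≤ v k + (z k + 1) / 2 ^ m
    rw [add_div]; linarith
  refine ⟨hS, ⟨fun q hq => h1 q.1 q.2 hq, fun x hx => ?_, fun q hq q' hq' hqq => ?_,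
    fun K hK hKc => ?_⟩, fun q hq => ?_, hlow, fun z hz => ⟨fun x hx => ?_, ?_⟩⟩
  · obtain ⟨m, z, hm, hx⟩ := h2 x hx
    exact ⟨(m, z), hm, hx⟩
  · exact h3 q.1 q.2 q'.1 q'.2 hq hq' (fun he => hqq (Prod.ext (congrArg Prod.fst he)
      (congrArg Prod.snd he)))
  · exact h5 K hK hKc
  · have a1 := (hlow q hq _ (hne q.1 q.2)).1
    have a2 : rho Ω n (pt v q.1 q.2) ≤ 1 / 2 ^ n := min_le_left _ _
    have a3 : (1 / 2 ^ q.1 : ℝ) ≤ 1 / 2 ^ n := a1.trans a2
    rw [div_le_div_iff_of_pos_left one_pos (by positivity) (by positivity)] at a3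
    exact (pow_le_pow_iff_right₀ (one_lt_two)).1 a3
  · exact le_min le_rfl (hz x hx)
  · intro m' z' hlt hsub hadm
    have a1 := hadm _ (hne m' z')
    have a2 : rho Ω n (pt v m' z') ≤ 1 / 2 ^ n := min_le_left _ _
    have a3 : (1 / 2 ^ m' : ℝ) ≤ 1 / 2 ^ n := a1.trans a2
    rw [div_le_div_iff_of_pos_left one_pos (by positivity) (by positivity)] at a3
    have := (pow_le_pow_iff_right₀ (one_lt_two (α := ℝ))).1 a3
    omega

end Vale.Agent.P073.AB
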