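import Vale.Agent.P073.AB.Part86
import Vale.Agent.P073.AB.Tiles907

/-!
# SpecSum: shared definitions (helper293: energies, helper308: geometry)
-/

namespace Vale.Agent.P073.AB

open MeasureTheory Set Filter Topology Metric Vale.Agent.P073.St
open Vale.Agent.P073.SQ (ev cube Cells)
open P073.Net (IsTile dyc dyo SizeFn)
open scoped ContDiff ENNReal

/-- the third direction -/
def third (k a : Fin 3) : Fin 3 := -(k + a)

theorem third_ne_left {k a : Fin 3} (h : a ≠ k) : third k a ≠ k := by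
  revert k a; decide

theorem third_ne_right {k a : Fin 3} (h : a ≠ k) : third k a ≠ a := by
  revert k a; decide

theorem eq_third {k a j : Fin 3} (h : a ≠ k) (h1 : j ≠ k) (h2 : j ≠ a) : j = third k a := by
  revert k a j; decide

/-- the edge of the square `s` at the lower (`τ = 0`) or upper (`τ = 1`) side in direction `a` -/
def sqEdge (s : Idx × Fin 3) (a : Fin 3) (τ : ℤ) : Idx × Fin 3 :=
  ((s.1.1, Function.update s.1.2 a (s.1.2 a + τ)), third s.2 a)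

/-- the four edges of the square `s` -/
def sqE (s : Idx × Fin 3) : Finset (Idx × Fin 3) :=
  (Finset.univ.erase s.2).biUnion fun a => {sqEdge s a 0, sqEdge s a 1}

theorem mem_sqE {e s : Idx × Fin 3} : e ∈ sqE s ↔ EdgeOfSq e s := by
  simp only [sqE, Finset.mem_biUnion, Finset.mem_erase, Finset.mem_univ, and_true,
    Finset.mem_insert, Finset.mem_singleton]
  constructor
  · have key : ∀ (a : Fin 3) (τ : ℤ), a ≠ s.2 → τ = 0 ∨ τ = 1 → EdgeOfSq (sqEdge s a τ) s := by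
      intro a τ ha hτ
      refine ⟨rfl, third_ne_left ha, ?_, ?_, fun j h1 h2 => ?_⟩
      · simp [sqEdge, Function.update_of_ne (third_ne_right ha)]
      · simp [sqEdge, Function.update_of_ne ha.symm]
      · have hj : j = a := by
          have : ∀ k a j : Fin 3, a ≠ k → j ≠ third k a → j ≠ k → j = a := by decide
          exact this s.2 a j ha h1 h2
        subst hj
        rcases hτ with rfl | rfl <;> simp [sqEdge]
    rintro ⟨a, ha, rfl | rfl⟩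
    · exact key a 0 ha (Or.inl rfl)
    · exact key a 1 ha (Or.inr rfl)
  · rintro ⟨h1, h2, h3, h4, h5⟩
    have ha : third s.2 e.2 ≠ s.2 := third_ne_left h2
    have ha2 : third s.2 e.2 ≠ e.2 := third_ne_right h2
    refine ⟨third s.2 e.2, ha, ?_⟩
    have hthird : third s.2 (third s.2 e.2) = e.2 := by
      have : ∀ k a : Fin 3, a ≠ k → third k (third k a) = a := by decide
      exact this s.2 e.2 h2
    have hcase : ∀ τ : ℤ, e.1.2 (third s.2 e.2) = s.1.2 (third s.2 e.2) + τ →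
        e = sqEdge s (third s.2 e.2) τ := by
      intro τ hτ
      refine Prod.ext (Prod.ext h1 (funext fun j => ?_)) hthird.symm
      by_cases hj : j = third s.2 e.2
      · subst hj
        simp only [sqEdge, Function.update_self]
        exact hτ
      · simp only [sqEdge, Function.update_of_ne hj]
        by_cases hj2 : j = e.2
        · subst hj2; exact h3
        · have : j = s.2 := by
            have : ∀ k a j : Fin 3, a ≠ k → j ≠ third k a → j ≠ a → j = k := by decide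
            exact this s.2 e.2 j h2 hj hj2
          subst this; exact h4
    rcases h5 _ ha2 ha with h | h
    · left; exact hcase 0 (by rw [h, add_zero])
    · right
      -- `e.1.2 j = s.1.2 j + 1`
      exact hcase 1 h

theorem sqEdge_ne {s : Idx × Fin 3} {a : Fin 3} : sqEdge s a 0 ≠ sqEdge s a 1 := by
  intro h
  have := congrFun (congrArg (fun e => e.1.2) h) a
  simp [sqEdge] at this

theorem sum_sqE (s : Idx × Fin 3) (g : Idx × Fin 3 → ℝ≥0∞) :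
    ∑ e ∈ sqE s, g e = ∑ a ∈ Finset.univ.erase s.2, (g (sqEdge s a 0) + g (sqEdge s a 1)) := by
  unfold sqE
  rw [Finset.sum_biUnion]
  · refine Finset.sum_congr rfl fun a _ => ?_
    rw [Finset.sum_pair sqEdge_ne]
  · intro a ha b hb hab
    have ha' := Finset.ne_of_mem_erase ha
    have hb' := Finset.ne_of_mem_erase hb
    have ht : third s.2 a ≠ third s.2 b := by
      have : ∀ k a b : Fin 3, a ≠ b → third k a ≠ third k b := by decide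
      exact this s.2 a b hab
    show Disjoint _ _
    rw [Finset.disjoint_left]
    intro e he he'
    simp only [Finset.mem_insert, Finset.mem_singleton] at he he'
    have h1 : e.2 = third s.2 a := by rcases he with rfl | rfl <;> rfl
    have h2 : e.2 = third s.2 b := by rcases he' with rfl | rfl <;> rfl
    exact ht (h1.symm.trans h2)

theorem card_sqE_le (s : Idx × Fin 3) : (sqE s).card ≤ 4 := by
  unfold sqE
  refine Finset.card_biUnion_le.trans ?_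
  calc ∑ a ∈ Finset.univ.erase s.2, ({sqEdge s a 0, sqEdge s a 1} : Finset (Idx × Fin 3)).card
      ≤ ∑ a ∈ Finset.univ.erase s.2, 2 := Finset.sum_le_sum fun a _ => Finset.card_le_two
    _ = 4 := by simp

section

variable (Ω : Set V) (v : V) (n₂ k₁ k₀ : ℕ) (J : Finset (Fin 3 → ℤ))

/-- the core condition of `Choice` -/
def Core : Prop := ∀ z ∈ J, ∀ x, (∃ y ∈ dyc v n₂ z, ‖x - y‖ ≤ 1 / 2 ^ n₂) →
  1 / 2 ^ (n₂ + k₁ + k₀) ≤ infDist x Ωᶜ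

/-- tiles outside the boxes `boxB` -/
def IT : Set Idx :=
  {q | q ∈ tiles Ω (n₂ + k₁ + k₀) v ∧ ∀ z ∈ J, ¬ dyc v q.1 q.2 ⊆ boxB v n₂ k₁ z}

/-- cubes of generation `n₂ + k₁` in the box `boxB z` -/
def IB : Set Idx := {q | q.1 = n₂ + k₁ ∧ ∃ z ∈ J, dyc v q.1 q.2 ⊆ boxB v n₂ k₁ z}

/-- protected cubes -/
def newP : Set Idx := {q | q.1 = n₂ + k₁ ∧ ∃ z ∈ J, dyc v q.1 q.2 ⊆ boxR v n₂ k₁ z}

/-- the new partition -/
def newI : Set Idx := IT Ω v n₂ k₁ k₀ J ∪ IB v n₂ k₁ J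

/-- the good edges: edges of tiles, outside the open boxes `boxB` -/
def GE : Set (Idx × Fin 3) :=
  {e | (∃ q ∈ tiles Ω (n₂ + k₁ + k₀) v, EdgeOf e q) ∧
    ∀ z ∈ J, Disjoint (edge v e) (interior (boxB v n₂ k₁ z))}

/-- gap edges, `SpecGauge` applies -/
def GapE (z : Fin 3 → ℤ) : Set (Idx × Fin 3) :=
  {e | e.1.1 = n₂ + k₁ ∧ edge v e ⊆ boxB v n₂ k₁ z \ interior (boxR v n₂ k₁ z) ∧
    ¬ edge v e ⊆ frontier (boxB v n₂ k₁ z)}

/-- the `j`-th subedge, `d` generations down -/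
def subEdge (e : Idx × Fin 3) (d : ℕ) (j : ℕ) : Idx × Fin 3 :=
  ((e.1.1 + d, fun l => if l = e.2 then 2 ^ d * e.1.2 l + j else 2 ^ d * e.1.2 l), e.2)

/-- edges of generation `n₂ + k₁` composed of good fine edges -/
def FrE (z : Fin 3 → ℤ) : Set (Idx × Fin 3) :=
  {e | e.1.1 = n₂ + k₁ ∧ edge v e ⊆ boxB v n₂ k₁ z ∧
    ∀ j < 2 ^ k₀, subEdge e k₀ j ∈ GE Ω v n₂ k₁ k₀ J ∧ edge v (subEdge e k₀ j) ⊆ dyc v n₂ z}

end

/-- **(GEO)** the geometric part of `SpecSum`, owner helper308 -/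
def SpecGeo : Prop :=
  ∃ C₀ : ℝ, 0 < C₀ ∧ ∀ (Ω : Set V) (v : V) (n₂ k₁ k₀ : ℕ) (J : Finset (Fin 3 → ℤ)),
    IsOpen Ω → Bornology.IsBounded Ω → Ω.Nonempty → 3 ≤ k₁ → Core Ω v n₂ k₁ k₀ J →
    -- (G1)
    ∃ (hI : Part Ω v (newI Ω v n₂ k₁ k₀ J)) (hP : newP v n₂ k₁ J ⊆ newI Ω v n₂ k₁ k₀ J)
      (hΩ : IsOpen Ω),
      (⋃ q ∈ newP v n₂ k₁ J, dyc v q.1 q.2 = ⋃ z ∈ J, boxR v n₂ k₁ z) ∧
      (∀ z ∈ J, ∀ z' ∈ J, z ≠ z' → Disjoint (boxB v n₂ k₁ z) (boxB v n₂ k₁ z')) ∧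
      (∀ z ∈ J, dyc v n₂ z ⊆ Ω) ∧
      -- (G2), tiles
      (∀ q ∈ newI Ω v n₂ k₁ k₀ J \ newP v n₂ k₁ J, q ∈ IT Ω v n₂ k₁ k₀ J → ∀ s,
        MinSq v (newI Ω v n₂ k₁ k₀ J) s → squ v s ⊆ dyc v q.1 q.2 →
        q.1 ≤ s.1.1 ∧ s.1.1 ≤ q.1 + 2 ∧ (∀ r ∈ newP v n₂ k₁ J, ¬ squ v s ⊆ dyc v r.1 r.2) ∧
        ∀ e ∈ sqE s, e ∈ GE Ω v n₂ k₁ k₀ J) ∧
      -- (G2), gap cubes
      (∀ q ∈ newI Ω v n₂ k₁ k₀ J \ newP v n₂ k₁ J, q ∉ IT Ω v n₂ k₁ k₀ J → q.1 = n₂ + k₁ ∧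
        ∃ z ∈ J, dyc v q.1 q.2 ⊆ boxB v n₂ k₁ z ∧ ∀ s,
        MinSq v (newI Ω v n₂ k₁ k₀ J) s → squ v s ⊆ dyc v q.1 q.2 →
        -- controlled
        (s.1.1 = n₂ + k₁ ∧ squ v s ⊆ frontier (boxR v n₂ k₁ z) ∧
          ∃ r ∈ newP v n₂ k₁ J, squ v s ⊆ dyc v r.1 r.2) ∨
        -- uncontrolled
        ((∀ r ∈ newP v n₂ k₁ J, ¬ squ v s ⊆ dyc v r.1 r.2) ∧
          ((s.1.1 = n₂ + k₁ + k₀ ∧
            ∀ e ∈ sqE s, e ∈ GE Ω v n₂ k₁ k₀ J ∧ edge v e ⊆ dyc v n₂ z) ∨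
          (s.1.1 = n₂ + k₁ ∧ ∀ e ∈ sqE s, e ∈ GapE v n₂ k₁ z ∨ e ∈ FrE Ω v n₂ k₁ k₀ J z)))) ∧
      -- (G3)
      (∀ e ∈ GE Ω v n₂ k₁ k₀ J, ∀ z ∈ J, edge v e ⊆ dyc v n₂ z → e.1.1 = n₂ + k₁ + k₀) ∧
      (∀ e ∈ GE Ω v n₂ k₁ k₀ J, edge v e ⊆ Ω ∧ n₂ + k₁ + k₀ ≤ e.1.1) ∧
      -- (G4) (i) multiplicity; the cells of SpecPart
      (∀ g : Idx × Fin 3 → ℝ≥0∞,
        ∑' i : {i : (P86.cells hΩ hI hP).ι // i.1 ∈ IT Ω v n₂ k₁ k₀ J},
          ∑ t ∈ (P86.cells hΩ hI hP).bd i.1, ∑ e ∈ sqE t.1, g e ≤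
        ENNReal.ofReal C₀ * ∑' e : GE Ω v n₂ k₁ k₀ J, g e.1) ∧
      -- (ii)
      (∀ i : (P86.cells hΩ hI hP).ι, i.1.1 = n₂ + k₁ →
        (((P86.cells hΩ hI hP).bd i).filter fun t => t.1.1.1 = n₂ + k₁ + k₀).card ≤ 6 * 4 ^ k₀ ∧
        (((P86.cells hΩ hI hP).bd i).filter fun t => t.1.1.1 = n₂ + k₁).card ≤ 6) ∧
      -- (iii)
      ({q | q ∈ newI Ω v n₂ k₁ k₀ J \ newP v n₂ k₁ J ∧ q ∉ IT Ω v n₂ k₁ k₀ J}.Finite ∧
        ({q | q ∈ newI Ω v n₂ k₁ k₀ J \ newP v n₂ k₁ J ∧ q ∉ IT Ω v n₂ k₁ k₀ J}.ncard : ℝ) ≤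
          C₀ * J.card * 4 ^ k₁) ∧
      -- (iv)
      (∀ z ∈ J, {e | e ∈ GE Ω v n₂ k₁ k₀ J ∧ edge v e ⊆ dyc v n₂ z}.Finite ∧
        ({e | e ∈ GE Ω v n₂ k₁ k₀ J ∧ edge v e ⊆ dyc v n₂ z}.ncard : ℝ) ≤
          C₀ * 8 ^ (k₁ + k₀) / 2 ^ k₁) ∧
      -- (v)
      ENNReal.ofReal (J.card / 8 ^ n₂) ≤ volume Ω ∧
      (∀ z ∈ J, volume (dyc v n₂ z \ boxR v n₂ k₁ z) ≤ ENNReal.ofReal (C₀ / 2 ^ k₁ / 8 ^ n₂))

end Vale.Agent.P073.AB
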